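import Claimed.Agent.R257.Weak.Defs

/-!
# R257 / Weak / HeavyDefs : LEMMA `w:heavy-reduction` (H wall.tex l.1-98), definitions            (architect helper273)            -- SHARED, FROZEN

`WH n ι` bundles the data of the reduction: array, subarray, coefficients, measure, inverse bin side `R` (big cubes have the side `R^4`), order `M` of the tube weight, heaviness threshold `Wt`, level `lam`.
* `wbin R ω`      index of the frequency bin of side `1/R` of the ORIGINAL unrotated grid;  `wbinc R b` its centre
* `wmac a z`      index of the big cube (macro cube) of side `a` containing `z` (`z ∈ cubeS a k ↔ wmac a z = k`: `wh_mem_cubeS_iff`);  `wctr a k` its centre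
* `A.tw M α z`    the tube weight `(1 + |x - y_α - 2 t ω_α| / L)^{-M}`  (the integrand of `TubeMom`)
* `H.mass b z`    `∑_{α in the bin b} |c_α|² tw_α(z)`;    `H.heavy k` = the set of the bins which are heavy at the big cube `k` (w:eq-heavy: the weight is evaluated at the CENTRE of the cube)
* `H.sel S z`     prescribed-bin field: `S k` = set of bins prescribed on the big cube `k` (the object of `w:angular`);    `H.hfld = H.sel H.heavy` the heavy-bin field
* `H.light b`     union of the big cubes at which `b` is light;   `H.mu b = μ|_{Y ∩ light b}`;   `H.mom b α` the tube moment of `α` for `H.mu b`;   `H.small τ b`, `H.large τ b` the labels of `b` with moment `≤ τ`, `> τ`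
* `H.far ρ z`, `H.near ρ b z`     weighted coefficient mass of the trajectories farther than / within `ρ L` of `z`
* `WHOut H ρ Nar Y'`     THE OUTPUT (i), (ii), (iii).   `Nar` = "the set of bins is narrow" is a PARAMETER (strip about an `(n-2)`-plane or quadratic neighbourhood: fixed by ANGULAR / WALLCORE).
-/

set_option autoImplicit false

namespace Claimed.Agent.R257

open MeasureTheory Metric Set
open scoped ENNReal

variable {n : ℕ} {ι : Type}

/-- indices of the big cubes -/
abbrev MI (n : ℕ) : Type := (Fin n → ℤ) × ℤ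

/-- indices of the frequency bins -/
abbrev BI (n : ℕ) : Type := Fin n → ℤ

/-- the bin of side `1/R` of the frequency `w` -/
noncomputable def wbin (R : ℝ) (w : E n) : BI n := fun i => ⌊R * w i⌋

/-- the centre of a bin -/
noncomputable def wbinc (R : ℝ) (b : BI n) : E n := WithLp.toLp 2 fun i => ((b i : ℝ) + 1 / 2) / R

/-- the big cube of side `a` of the point `z` -/
noncomputable def wmac (a : ℝ) (z : ST n) : MI n := (fun i => ⌊z.1 i / a⌋, ⌊z.2 / a⌋)

/-- the centre of a big cube -/
noncomputable def wctr (a : ℝ) (k : MI n) : ST n := (WithLp.toLp 2 fun i => a * ((k.1 i : ℝ) + 1 / 2), a * ((k.2 : ℝ) + 1 / 2))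

/-- the tube weight -/
noncomputable def Arr.tw (A : Arr n ι) (M : ℕ) (α : ι) (z : ST n) : ℝ := (1 + A.tdist α z / A.L) ^ (-(M : ℤ))

/-- data of the heavy reduction -/
structure WH (n : ℕ) (ι : Type) where
  /-- the array -/
  A : Arr n ι
  /-- the subarray -/
  s : Finset ι
  /-- the coefficients -/
  c : ι → ℂ
  /-- the measure -/
  μ : Measure (ST n)
  /-- inverse side of the bins; the big cubes have the side `R^4` -/
  R : ℝ
  /-- order of the tube weight -/
  M : ℕ
  /-- heaviness threshold -/
  Wt : ℝ
  /-- the level -/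
  lam : ℝ

namespace WH

variable (H : WH n ι)

/-- the level set -/
def Y : Set (ST n) := wset H.A H.s H.c H.lam

open scoped Classical in
/-- the labels of a bin -/
noncomputable def bin (b : BI n) : Finset ι := H.s.filter fun α => wbin H.R (H.A.om α) = b

open scoped Classical in
/-- the occupied bins -/
noncomputable def bins : Finset (BI n) := H.s.image fun α => wbin H.R (H.A.om α)

/-- weighted coefficient mass of a bin at a point -/
noncomputable def mass (b : BI n) (z : ST n) : ℝ := ∑ α ∈ H.bin b, ‖H.c α‖ ^ 2 * H.A.tw H.M α z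

/-- the bins which are heavy at the big cube `k` -/
def heavy (k : MI n) : Set (BI n) := {b | H.Wt ≤ H.mass b (wctr (H.R ^ 4) k)}

open scoped Classical in
/-- the prescribed-bin field -/
noncomputable def sel (S : MI n → Set (BI n)) (z : ST n) : ℂ :=
  H.A.fld (H.s.filter fun α => wbin H.R (H.A.om α) ∈ S (wmac (H.R ^ 4) z)) H.c z

/-- the heavy-bin field -/
noncomputable def hfld (z : ST n) : ℂ := H.sel H.heavy z

/-- the union of the big cubes at which `b` is light -/
def light (b : BI n) : Set (ST n) := {z | b ∉ H.heavy (wmac (H.R ^ 4) z)}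

/-- `μ|_Y` restricted to the big cubes at which `b` is light -/
noncomputable def mu (b : BI n) : Measure (ST n) := H.μ.restrict (H.Y ∩ H.light b)

/-- the tube moment for the restricted measure -/
noncomputable def mom (b : BI n) (α : ι) : ℝ≥0∞ := ∫⁻ z, ENNReal.ofReal (H.A.tw H.M α z) ∂(H.mu b)

open scoped Classical in
/-- the labels of the bin with a small moment -/
noncomputable def small (τ : ℝ) (b : BI n) : Finset ι := (H.bin b).filter fun α => H.mom b α ≤ ENNReal.ofReal τ

open scoped Classical in
/-- the labels of the bin with a large moment -/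
noncomputable def large (τ : ℝ) (b : BI n) : Finset ι := (H.bin b).filter fun α => ¬ H.mom b α ≤ ENNReal.ofReal τ

open scoped Classical in
/-- weighted coefficient mass of the far trajectories (all bins) -/
noncomputable def far (ρ : ℝ) (z : ST n) : ℝ :=
  ∑ α ∈ H.s.filter (fun α => ρ * H.A.L < H.A.tdist α z), ‖H.c α‖ ^ 2 * H.A.tw H.M α z

open scoped Classical in
/-- weighted coefficient mass of the near trajectories of a bin -/
noncomputable def near (ρ : ℝ) (b : BI n) (z : ST n) : ℝ :=
  ∑ α ∈ (H.bin b).filter (fun α => H.A.tdist α z ≤ ρ * H.A.L), ‖H.c α‖ ^ 2 * H.A.tw H.M α z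

end WH

/-- **THE OUTPUT of w:heavy-reduction.** -/
structure WHOut (H : WH n ι) (ρ : ℝ) (Nar : Set (BI n) → Prop) (Y' : Set (ST n)) : Prop where
  meas : MeasurableSet Y'
  sub : Y' ⊆ H.Y
  half : H.μ H.Y ≤ 2 * H.μ Y'
  /-- (i) -/
  fld : ∀ z ∈ Y', H.lam / 2 ≤ ‖H.hfld z‖
  /-- (ii) -/
  broad : ∀ z ∈ Y', ¬ Nar (H.heavy (wmac (H.R ^ 4) z))
  /-- (iii) -/
  near : ∀ z ∈ Y', ∀ b ∈ H.heavy (wmac (H.R ^ 4) z), H.Wt / 2 ≤ H.near ρ b z

/-- bound of the number of occupied bins -/
noncomputable def whNb (n : ℕ) (Rω R : ℝ) : ℝ := (2 * Rω * R + 2) ^ n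

end Claimed.Agent.R257
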