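import Claimed.Agent.R257.Weak.Choice
import Claimed.Agent.R257.Weak.HeavyDefs
import Claimed.Agent.R257.Ang.Defs

/-!
# R257 / Weak / Deep : THE ACTIVE RANGE, CHAIN OF CONTRACTS AND ORDER OF THE CONSTANTS            (helper244)

`wd_deep : HrStmt + FlStmt (same a, pmax) → WallStmt → DeepStmt`      (PROVED here: pure logic).
CHAIN under `Act` (active range + both induction hypotheses + counter-assumption):
  `HrWith`    (w:heavy-reduction; `wh_main` of helper273 + `AngularWith` of helper83 + numerics)        : `∃ Y', WHOut (wdH ..) X^{Cw} (wdNar ..) Y'`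
  `GeoWith`   ((w:eq-incidence-mass); WALL-A of helper18 through the adapter)                            : `M_Y ≥ cg m L^{2n} X^{-Cgeo}`
  `PlateWith` (w:geometry; WALLCORE of helper185, `wg_main` of helper131, through the adapter)           : a fixed fraction of `Y` lies in `≤ X^{Cp}` plates of thickness `X^{Cp} L`
  `FinalWith` ((w:eq-finalL2); FL, captain helper263).
`X = B D`.   `R = wdR X u Ja = ⌈X^{u/Ja}⌉^{Ja}` is PRIVATE to each block: `PlateWith`, `GeoWith`, `FinalWith` do not mention it, so HR/WALL and FL may use different `u`.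
ORDER (weak.tex l.56-110):  `a, pmax` (angular) → `v₀` (FL: frame cutoff) → `σ ≤ min(σ_HR, σ_FL)` → narrow constants (WALL) → exponents `u, P₁, P₀, Cw` (HR) → `Cgeo, Cp` (WALL) → `κ₀` → `κ`, `p` → derivative order `J` → profile bound → `B` → `L₀`, constants → `Cind ≥ 1`.
-/

set_option autoImplicit false

namespace Claimed.Agent.R257

open MeasureTheory Metric Set
open scoped ENNReal InnerProductSpace

variable {n : ℕ} {ι : Type}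

/-- the integer ratio `K = ⌈X^{u/Ja}⌉` -/
noncomputable def wdK (X u : ℝ) (Ja : ℕ) : ℕ := ⌈X ^ (u / (Ja : ℝ))⌉₊

/-- `R = K^{Ja} ≍ X^u` -/
noncomputable def wdR (X u : ℝ) (Ja : ℕ) : ℝ := ((wdK X u Ja : ℕ) : ℝ) ^ Ja

/-- exponents of the heavy reduction: `R ≍ X^u` (`= K^{Ja}`), `D₁ = X^{P₁}`, `Wt = X^{-P₀} m L^{n+1}/M_Y`, incidence radius `X^{Cw} L` -/
structure DExp where
  u : ℝ
  Ja : ℕ
  P₁ : ℝ
  P₀ : ℝ
  Cw : ℝ

/-- sanity of the exponents -/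
structure DExp.Ok (E : DExp) : Prop where
  u : 0 < E.u
  Ja : 1 ≤ E.Ja
  P₁ : 0 ≤ E.P₁
  P₀ : 0 ≤ E.P₀
  Cw : 0 ≤ E.Cw

/-- constants of the narrow sets (width `Cw/R`, bounded region and coefficients `Cq`, lower bound `cq` of the coefficient norm) -/
structure NCon where
  Cw : ℝ
  Cq : ℝ
  cq : ℝ

/-- sanity of the constants of the narrow sets (needed by `ACon.Ok`; adversary helper194) -/
structure NCon.Ok (N : NCon) : Prop where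
  Cw : 0 ≤ N.Cw
  Cq : 1 ≤ N.Cq
  cq : 0 < N.cq

/-- "the set of bins is narrow": the centres lie in ONE narrow set of type (a) or (b) of w:angular (`Narrow` of `Ang/Defs`) -/
def wdNar (N : NCon) (R : ℝ) (T : Set (BI n)) : Prop := Narrow N.Cw N.Cq N.cq R (wbinc R '' T)

/-- the data of the heavy reduction attached to the data of the active range -/
noncomputable def wdH (n : ℕ) (W : WCon) (a : ℝ) (E : DExp) (B : ℝ) (A : Arr n ι) (s : Finset ι) (c : ι → ℂ) (μ : Measure (ST n))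
    (m χ g D : ℝ) : WH n ι where
  A := A
  s := s
  c := c
  μ := μ
  R := wdR (B * D) E.u E.Ja
  M := W.M
  Wt := (B * D) ^ (-E.P₀) * m * A.L ^ ((n : ℝ) + 1) / (μ (wset A s c (wlev n a χ g A.L))).toReal
  lam := wlev n a χ g A.L

/-- **w:heavy-reduction in the active range** -/
def HrWith (n : ℕ) (W : WCon) (X : WExp) (κ v₀ L₀ B : ℝ) (E : DExp) (N : NCon) : Prop :=
  ∀ (ι : Type) (A : Arr n ι) (s : Finset ι) (c : ι → ℂ) (μ : Measure (ST n)) (m χ g D : ℝ), Act n W X κ v₀ L₀ A s c μ m χ g D →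
    ∃ Y', WHOut (wdH n W X.a E B A s c μ m χ g D) ((B * D) ^ E.Cw) (wdNar N (wdR (B * D) E.u E.Ja)) Y'

/-- an affine plate of space-time: unit normal `(nx, nt)`, height `a` -/
structure Plate (n : ℕ) where
  nx : E n
  nt : ℝ
  a : ℝ

/-- distance of `z` to the central hyperplane of the plate -/
noncomputable def Plate.dist (P : Plate n) (z : ST n) : ℝ := |⟪P.nx, z.1⟫_ℝ + P.nt * z.2 - P.a|

/-- **w:geometry in the active range** (original coordinates: thickness `X^{Cp} L`) -/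
def PlateWith (n : ℕ) (W : WCon) (X : WExp) (κ v₀ L₀ B c₀ Cp : ℝ) : Prop :=
  ∀ (ι : Type) (A : Arr n ι) (s : Finset ι) (c : ι → ℂ) (μ : Measure (ST n)) (m χ g D : ℝ), Act n W X κ v₀ L₀ A s c μ m χ g D →
    ∃ (Np : ℕ) (P : Fin Np → Plate n) (Y₀ : Set (ST n)), MeasurableSet Y₀ ∧ Y₀ ⊆ wset A s c (wlev n X.a χ g A.L) ∧
      (Np : ℝ) ≤ (B * D) ^ Cp ∧ (∀ j, ‖(P j).nx‖ ^ 2 + (P j).nt ^ 2 = 1) ∧
      ENNReal.ofReal c₀ * μ (wset A s c (wlev n X.a χ g A.L)) ≤ μ Y₀ ∧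
      ∀ z ∈ Y₀, ∃ j, (P j).dist z ≤ (B * D) ^ Cp * A.L

/-- exit of AN (helper83), existence form: the gain `c₂` and the number `Ja` of steps do not depend on the constants `G` of the application, on `σ`, on the profile class;
the derivative order `J` depends on `G` (through the exponent `G.N` of the absolute error), `K₀, Ca, CN` also on the profile bound.   TOP: `∃ a pmax, 0 < a ∧ 2a < 1-β ∧ 2 < pmax ∧ AngularStmt n W a pmax`. -/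
def AngularStmt (n : ℕ) (W : WCon) (a pmax : ℝ) : Prop :=
  ∃ (c₂ : ℝ) (Ja : ℕ), 0 < c₂ ∧ 1 ≤ Ja ∧ ∀ (G : ACon) (p σ : ℝ), G.Ok → 2 < p → p ≤ pmax →
    ∃ J : ℕ, ∀ J' : ℕ, J ≤ J' → ∀ Bp : ℝ, ∃ K₀ Ca CN : ℝ, ∀ Cind : ℝ, 0 ≤ Cind →
      AngularWith n (W.wJB J' Bp) ⟨p, σ, a, Cind⟩ G Ja K₀ c₂ Ca CN

/-- exit of HR + numerics (post WEAK-HRNUM) -/
def HrStmt (n : ℕ) (W : WCon) (a pmax : ℝ) : Prop :=
  ∀ v₀ : ℝ, 0 < v₀ → v₀ ≤ 1 → ∃ σ₀ : ℝ, 0 < σ₀ ∧ ∀ (N : NCon) (σ : ℝ), N.Ok → 0 < σ → σ ≤ σ₀ →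
  ∃ E : DExp, E.Ok ∧ ∃ κ₀ : ℝ, 0 < κ₀ ∧ ∀ κ : ℝ, 0 < κ → κ ≤ κ₀ → ∀ p : ℝ, 2 < p → p ≤ pmax →
  ∃ J : ℕ, ∀ J' : ℕ, J ≤ J' → ∀ Bp : ℝ, ∃ B₀ : ℝ, ∀ B : ℝ, B₀ ≤ B → ∃ L₀ : ℝ, ∀ Cind : ℝ, 1 ≤ Cind →
    HrWith n (W.wJB J' Bp) ⟨p, σ, a, Cind⟩ κ v₀ L₀ B E N

/-- exit of WALL (WALL-A + WALLCORE + WG) through the adapter (post WEAK-ADAPT); the class of the profiles and the exponents `p, σ, a, Cind` are irrelevant -/
def WallStmt (n : ℕ) (W : WCon) : Prop :=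
  ∃ N : NCon, N.Ok ∧ ∀ E : DExp, E.Ok → ∃ Cgeo Cp cg c₀ κ₀ B₀ : ℝ, 0 ≤ Cgeo ∧ 0 ≤ Cp ∧ 0 < cg ∧ 0 < c₀ ∧ 0 < κ₀ ∧
  ∀ κ : ℝ, 0 < κ → κ ≤ κ₀ → ∀ B : ℝ, B₀ ≤ B → ∃ L₀ : ℝ, ∀ (J : ℕ) (Bp : ℝ) (X : WExp) (v₀ L₁ : ℝ), L₀ ≤ L₁ →
    HrWith n (W.wJB J Bp) X κ v₀ L₁ B E N →
      GeoWith n (W.wJB J Bp) X κ v₀ L₁ B cg Cgeo ∧ PlateWith n (W.wJB J Bp) X κ v₀ L₁ B c₀ Cp

/-- exit of FL (flattening.tex) -/
def FlStmt (n : ℕ) (W : WCon) (cs a pmax : ℝ) : Prop :=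
  ∃ v₀ σ₀ : ℝ, 0 < v₀ ∧ v₀ ≤ 1 ∧ 0 < σ₀ ∧ ∀ σ : ℝ, 0 < σ → σ ≤ σ₀ → ∀ Cgeo Cp cg c₀ : ℝ, 0 ≤ Cgeo → 0 ≤ Cp → 0 < cg → 0 < c₀ →
  ∃ κ₀ : ℝ, 0 < κ₀ ∧ ∀ κ : ℝ, 0 < κ → κ ≤ κ₀ → ∀ p : ℝ, 2 < p → p ≤ pmax →
  ∃ J : ℕ, ∀ J' : ℕ, J ≤ J' → ∀ Bp : ℝ, ∃ B₀ : ℝ, ∀ B : ℝ, B₀ ≤ B → ∃ L₀ CB : ℝ, 0 < CB ∧
  ∀ Cind : ℝ, 1 ≤ Cind → ∀ L₁ : ℝ, L₀ ≤ L₁ →
    GeoWith n (W.wJB J' Bp) ⟨p, σ, a, Cind⟩ κ v₀ L₁ B cg Cgeo → PlateWith n (W.wJB J' Bp) ⟨p, σ, a, Cind⟩ κ v₀ L₁ B c₀ Cp →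
      FinalWith n (W.wJB J' Bp) ⟨p, σ, a, Cind⟩ κ v₀ L₁ cs CB

/-! ## monotonicity in the base scale -/

theorem Act.mono_L₀ {W : WCon} {X : WExp} {κ v₀ L₀ L₁ : ℝ} {A : Arr n ι} {s : Finset ι} {c : ι → ℂ} {μ : Measure (ST n)} {m χ g D : ℝ}
    (h : Act n W X κ v₀ L₁ A s c μ m χ g D) (hL : L₀ ≤ L₁) : Act n W X κ v₀ L₀ A s c μ m χ g D :=
  { h with hL := lt_of_le_of_lt hL h.hL }

theorem HrWith.mono_L₀ {W : WCon} {X : WExp} {κ v₀ L₀ L₁ B : ℝ} {E : DExp} {N : NCon} (h : HrWith n W X κ v₀ L₀ B E N) (hL : L₀ ≤ L₁) :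
    HrWith n W X κ v₀ L₁ B E N :=
  fun ι A s c μ m χ g D hA => h ι A s c μ m χ g D (hA.mono_L₀ hL)

/-! ## the assembly -/

/-- **THE ACTIVE RANGE FROM THE THREE BLOCKS** -/
theorem wd_deep {W : WCon} {cs a pmax : ℝ} (hcs : 0 < cs) (ha : 0 < a) (ha2 : 2 * a < 1 - bet n) (hpm : 2 < pmax)
    (hHR : HrStmt n W a pmax) (hWall : WallStmt n W) (hFl : FlStmt n W cs a pmax) : DeepStmt n W cs := by
  obtain ⟨v₀, σF, hv, hv1, hσF, hFl⟩ := hFl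
  obtain ⟨σH, hσH, hHR⟩ := hHR v₀ hv hv1
  obtain ⟨N, hN, hWall⟩ := hWall
  -- σ
  obtain ⟨σ, hσ, hσ1, hσcs, hσF', hσH'⟩ : ∃ σ : ℝ, 0 < σ ∧ σ ≤ 1 ∧ 2 * σ < cs ∧ σ ≤ σF ∧ σ ≤ σH := by
    refine ⟨min (min 1 (cs / 4)) (min σF σH), lt_min (lt_min one_pos (by positivity)) (lt_min hσF hσH),
      (min_le_left _ _).trans (min_le_left _ _), ?_, (min_le_right _ _).trans (min_le_left _ _),
      (min_le_right _ _).trans (min_le_right _ _)⟩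
    have : min (min 1 (cs / 4)) (min σF σH) ≤ cs / 4 := (min_le_left _ _).trans (min_le_right _ _)
    linarith
  obtain ⟨E, hE, κH, hκH, hHR⟩ := hHR N σ hN hσ hσH'
  obtain ⟨Cgeo, Cp, cg, c₀, κW, B3, hCgeo, hCp, hcg, hc₀, hκW, hWall⟩ := hWall E hE
  obtain ⟨κF, hκF, hFl⟩ := hFl σ hσ hσF' Cgeo Cp cg c₀ hCgeo hCp hcg hc₀
  refine ⟨a, σ, v₀, Cgeo, pmax, ha, ha2, hσ, hσ1, hσcs, hv, hCgeo, hpm, min κH (min κW κF), lt_min hκH (lt_min hκW hκF), ?_⟩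
  intro κ hκ hκle p hp hpp
  obtain ⟨J1, hHR⟩ := hHR κ hκ (hκle.trans (min_le_left _ _)) p hp hpp
  have hWall := hWall κ hκ (hκle.trans ((min_le_right _ _).trans (min_le_left _ _)))
  obtain ⟨J2, hFl⟩ := hFl κ hκ (hκle.trans ((min_le_right _ _).trans (min_le_right _ _))) p hp hpp
  refine ⟨max J1 J2, fun J' hJ' Bp => ?_⟩
  obtain ⟨B1, hHR⟩ := hHR J' ((le_max_left _ _).trans hJ') Bp
  obtain ⟨B2, hFl⟩ := hFl J' ((le_max_right _ _).trans hJ') Bp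
  obtain ⟨L1, hHR⟩ := hHR (max 1 (max B1 (max B2 B3))) ((le_max_left _ _).trans (le_max_right _ _))
  obtain ⟨L2, hWall⟩ := hWall (max 1 (max B1 (max B2 B3))) ((le_max_right _ _).trans ((le_max_right _ _).trans (le_max_right _ _)))
  obtain ⟨L3, CB, hCB, hFl⟩ := hFl (max 1 (max B1 (max B2 B3))) ((le_max_left _ _).trans ((le_max_right _ _).trans (le_max_right _ _)))
  refine ⟨max 1 (max B1 (max B2 B3)), max 1 (max L1 (max L2 L3)), cg, CB, le_max_left _ _, le_max_left _ _, hcg, hCB, fun Cind hCind => ?_⟩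
  have h1 : HrWith n (W.wJB J' Bp) ⟨p, σ, a, Cind⟩ κ v₀ (max 1 (max L1 (max L2 L3))) (max 1 (max B1 (max B2 B3))) E N :=
    (hHR Cind hCind).mono_L₀ ((le_max_left _ _).trans (le_max_right _ _))
  obtain ⟨h2, h3⟩ := hWall J' Bp ⟨p, σ, a, Cind⟩ v₀ (max 1 (max L1 (max L2 L3)))
    ((le_max_left _ _).trans ((le_max_right _ _).trans (le_max_right _ _))) h1
  exact ⟨h2, hFl Cind hCind _ ((le_max_right _ _).trans ((le_max_right _ _).trans (le_max_right _ _))) h2 h3⟩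

end Claimed.Agent.R257
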