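import Claimed.Agent.R257.Weak.Easy

/-!
# R257 / Weak / Choice : ORDER OF THE CONSTANTS AND TOP OF THE HUB `w:weak`            (helper244)

`wc_weak : SparseStmt → PowerLossStmt → ArrSupStmt → DeepStmt → WeakStmt`      (PROVED; the easy ranges and the double induction are `ww_main` of `Weak/Easy.lean`, helper212).
* `SparseStmt`, `PowerLossStmt`, `ArrSupStmt` : exits of SPFL (helper7), FRAC (helper188), INFRA (helper53) in the quantifier order of the paper (derivative order `J` after the exponent, constant after the profile bound `B`).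
* `DeepStmt` : THE ACTIVE RANGE.  Under the hypotheses `Act` (active range (w:eq-active), both induction hypotheses, counter-assumption (w:eq-counterlevel)):
     `GeoWith`   = second half of (w:eq-incidence-mass): `M_Y ≥ c m L^{2n} (B D)^{-Cgeo}`        (HR + ADAPT + WALL-A),
     `FinalWith` = (w:eq-finalL2): `λ² M_Y ≤ C_B m χ^{1-β} L^{2n/(n+1)} D^{-cs/2}`                 (HR + ADAPT + WALLCORE + flattening + f:frame + s:sparse).
  Both hold for EVERY value of the induction constant `Cind ≥ 1` (all uses of the induction hypotheses compare with the counter-assumption, so `Cind` cancels; `1 ≤ Cind` pays the absolute errors `C_N m L^{-N}`).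
  Quantifiers = weak.tex l.56-110:  `a σ v₀ Cgeo pmax`, then `κ₀`, then `κ ≤ κ₀`, `p ≤ pmax`, then the derivative order `J`, the profile bound, then `B, L₀, c, C_B`.
-/

set_option autoImplicit false

namespace Claimed.Agent.R257

open MeasureTheory Metric Set
open scoped ENNReal

variable {n : ℕ} {ι : Type}

/-- the conventions `W` with the derivative order and the profile bound replaced -/
def WCon.wJB (W : WCon) (J : ℕ) (B : ℝ) : WCon := { W with K := { W.K with J := J, B := B } }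

/-- the active range with both induction hypotheses and the counter-assumption (w:eq-counterlevel) -/
structure Act (n : ℕ) (W : WCon) (X : WExp) (κ v₀ L₀ : ℝ) (A : Arr n ι) (s : Finset ι) (c : ι → ℂ) (μ : Measure (ST n)) (m χ g D : ℝ) : Prop where
  hL : L₀ < A.L
  hD1 : 1 ≤ D
  hDL : D ≤ A.L
  hDκ : D < A.L ^ κ
  outer : WOuter n W X A.L
  inner : WInner n W X A.L D
  cls : A.In s W.K
  tc0 : ∀ α ∈ s, A.tc α = 0
  hm : 0 < m
  hχ : A.L ^ (-v₀) < χ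
  hχ1 : χ ≤ 1
  hg : 1 / D ≤ g
  adm : Adm W A s μ m χ D
  en : energy s c = 1
  big : ENNReal.ofReal (wrhs n X m A.L g D 1) < μ (wset A s c (wlev n X.a χ g A.L))

/-- (w:eq-incidence-mass), second half, in the original normalisation -/
def GeoWith (n : ℕ) (W : WCon) (X : WExp) (κ v₀ L₀ B cg Cgeo : ℝ) : Prop :=
  ∀ (ι : Type) (A : Arr n ι) (s : Finset ι) (c : ι → ℂ) (μ : Measure (ST n)) (m χ g D : ℝ), Act n W X κ v₀ L₀ A s c μ m χ g D →
    ENNReal.ofReal (cg * m * A.L ^ (2 * (n : ℝ)) * (B * D) ^ (-Cgeo)) ≤ μ (wset A s c (wlev n X.a χ g A.L))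

/-- (w:eq-finalL2) -/
def FinalWith (n : ℕ) (W : WCon) (X : WExp) (κ v₀ L₀ cs CB : ℝ) : Prop :=
  ∀ (ι : Type) (A : Arr n ι) (s : Finset ι) (c : ι → ℂ) (μ : Measure (ST n)) (m χ g D : ℝ), Act n W X κ v₀ L₀ A s c μ m χ g D →
    ENNReal.ofReal (wlev n X.a χ g A.L ^ 2) * μ (wset A s c (wlev n X.a χ g A.L)) ≤
      ENNReal.ofReal (CB * m * χ ^ (1 - bet n) * A.L ^ (2 * (n : ℝ) / ((n : ℝ) + 1)) * D ^ (-(cs / 2)))

/-- exit of s:sparse -/
def SparseStmt (n : ℕ) (W : WCon) (cs : ℝ) : Prop := ∀ τ : ℝ, 0 < τ → ∃ J : ℕ, ∀ B : ℝ, ∃ C : ℝ, SparseWith n (W.wJB J B) cs τ C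

/-- exit of d:power-loss -/
def PowerLossStmt (n : ℕ) (W : WCon) : Prop := ∀ ε : ℝ, 0 < ε → ∃ J : ℕ, ∀ B : ℝ, ∃ C : ℝ, PowerLossWith n (W.wJB J B) ε C

/-- exit of (d:array-sup) -/
def ArrSupStmt (n : ℕ) (W : WCon) : Prop := ∀ B : ℝ, ∃ C : ℝ, ArrSupWith n (W.wJB 0 B).K C

/-- **THE ACTIVE RANGE** -/
def DeepStmt (n : ℕ) (W : WCon) (cs : ℝ) : Prop :=
  ∃ a σ v₀ Cgeo pmax : ℝ, 0 < a ∧ 2 * a < 1 - bet n ∧ 0 < σ ∧ σ ≤ 1 ∧ 2 * σ < cs ∧ 0 < v₀ ∧ 0 ≤ Cgeo ∧ 2 < pmax ∧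
  ∃ κ₀ : ℝ, 0 < κ₀ ∧ ∀ κ : ℝ, 0 < κ → κ ≤ κ₀ → ∀ p : ℝ, 2 < p → p ≤ pmax →
  ∃ J : ℕ, ∀ J' : ℕ, J ≤ J' → ∀ Bp : ℝ, ∃ B L₀ cg CB : ℝ, 1 ≤ B ∧ 1 ≤ L₀ ∧ 0 < cg ∧ 0 < CB ∧ ∀ Cind : ℝ, 1 ≤ Cind →
    GeoWith n (W.wJB J' Bp) ⟨p, σ, a, Cind⟩ κ v₀ L₀ B cg Cgeo ∧ FinalWith n (W.wJB J' Bp) ⟨p, σ, a, Cind⟩ κ v₀ L₀ cs CB

/-- **Theorem w:weak** -/
def WeakStmt (n : ℕ) (W : WCon) : Prop :=
  ∃ J : ℕ, ∀ Bp : ℝ, ∃ X : WExp, 2 < X.p ∧ 0 < X.σ ∧ 0 < X.a ∧ 2 * X.a < 1 - bet n ∧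
    ∀ L D : ℝ, 1 ≤ D → D ≤ L → WeakAt n (W.wJB J Bp) X L D

/-- the real arithmetic of `wc_final` -/
theorem wc_final_real {m L χ g D B cg CB Cgeo cs a β e q N2 p σ Cind r : ℝ} (hm : 0 < m) (hL : 1 ≤ L) (hχ : 0 < χ) (hχ1 : χ ≤ 1)
    (hg : 0 < g) (hD : 1 ≤ D) (hB : 1 ≤ B) (hcg : 0 < cg) (hCB : 0 < CB) (hcs : 0 ≤ cs)
    (heq : 2 * e + q = N2) (ha : 2 * a ≤ 1 - β) (hp : 2 ≤ p) (hnum : Cgeo * (p - 2) / 2 + σ ≤ cs / 2)
    (hC : CB * (CB / cg) ^ ((p - 2) / 2) * B ^ (Cgeo * (p - 2) / 2) ≤ Cind)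
    (hF : (χ ^ a * g * L ^ (-e)) ^ 2 * r ≤ CB * m * χ ^ (1 - β) * L ^ q * D ^ (-(cs / 2)))
    (hG : cg * m * L ^ N2 * (B * D) ^ (-Cgeo) ≤ r) :
    r ≤ Cind * m * L ^ N2 * g ^ (-p) * D ^ (-σ) := by
  have hL0 : 0 < L := by linarith
  have hD0 : 0 < D := by linarith
  have hB0 : 0 < B := by linarith
  set t := p - 2 with ht
  have ht0 : 0 ≤ t := by linarith
  have pχa := Real.rpow_pos_of_pos hχ a
  have pLe := Real.rpow_pos_of_pos hL0 (-e)
  have pLN := Real.rpow_pos_of_pos hL0 N2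
  have pDc := Real.rpow_pos_of_pos hD0 (-(cs / 2))
  have pg2 := Real.rpow_pos_of_pos hg (-2 : ℝ)
  -- s1
  have s1 : r ≤ CB * m * L ^ N2 * g ^ (-2 : ℝ) * D ^ (-(cs / 2)) := by
    have hlam : 0 < (χ ^ a * g * L ^ (-e)) ^ 2 := by positivity
    have e1 : ((χ ^ a * g * L ^ (-e)) ^ 2)⁻¹ = χ ^ (-(2 * a)) * g ^ (-2 : ℝ) * L ^ (2 * e) := by
      rw [← Real.rpow_natCast _ 2, ← Real.rpow_neg (by positivity), Real.mul_rpow (by positivity) pLe.le,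
        Real.mul_rpow pχa.le hg.le, ← Real.rpow_mul hχ.le, ← Real.rpow_mul hL0.le]
      push_cast
      congr 2
      · congr 1
        ring
      · ring
    have h1 : r ≤ CB * m * χ ^ (1 - β) * L ^ q * D ^ (-(cs / 2)) * ((χ ^ a * g * L ^ (-e)) ^ 2)⁻¹ := by
      rw [← div_eq_mul_inv, le_div_iff₀ hlam]
      linarith
    rw [e1] at h1
    have e2 : χ ^ (1 - β) * χ ^ (-(2 * a)) = χ ^ (1 - β - 2 * a) := by
      rw [← Real.rpow_add hχ]
      congr 1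
    have e3 : L ^ q * L ^ (2 * e) = L ^ N2 := by
      rw [← Real.rpow_add hL0, ← heq]
      congr 1
      ring
    have e4 : χ ^ (1 - β - 2 * a) ≤ 1 := Real.rpow_le_one hχ.le hχ1 (by linarith)
    calc r ≤ CB * m * χ ^ (1 - β) * L ^ q * D ^ (-(cs / 2)) * (χ ^ (-(2 * a)) * g ^ (-2 : ℝ) * L ^ (2 * e)) := h1
      _ = CB * m * (L ^ q * L ^ (2 * e)) * g ^ (-2 : ℝ) * D ^ (-(cs / 2)) * (χ ^ (1 - β) * χ ^ (-(2 * a))) := by ring
      _ = CB * m * L ^ N2 * g ^ (-2 : ℝ) * D ^ (-(cs / 2)) * χ ^ (1 - β - 2 * a) := by rw [e2, e3]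
      _ ≤ CB * m * L ^ N2 * g ^ (-2 : ℝ) * D ^ (-(cs / 2)) * 1 := by gcongr
      _ = _ := by ring
  -- s2
  have pBD := Real.rpow_pos_of_pos (mul_pos hB0 hD0) Cgeo
  have s2 : g ^ (2 : ℝ) ≤ CB / cg * (B * D) ^ Cgeo := by
    have hDc1 : D ^ (-(cs / 2)) ≤ 1 := Real.rpow_le_one_of_one_le_of_nonpos hD (by linarith)
    have h2 : cg * m * L ^ N2 * (B * D) ^ (-Cgeo) ≤ CB * m * L ^ N2 * g ^ (-2 : ℝ) * 1 :=
      (hG.trans s1).trans (by gcongr)
    rw [Real.rpow_neg (mul_pos hB0 hD0).le, Real.rpow_neg hg.le] at h2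
    have pg := Real.rpow_pos_of_pos hg (2 : ℝ)
    have h3 : cg * ((B * D) ^ Cgeo)⁻¹ ≤ CB * (g ^ (2 : ℝ))⁻¹ := by
      have hP : 0 < m * L ^ N2 := by positivity
      have : (m * L ^ N2) * (cg * ((B * D) ^ Cgeo)⁻¹) ≤ (m * L ^ N2) * (CB * (g ^ (2 : ℝ))⁻¹) := by
        calc _ = cg * m * L ^ N2 * ((B * D) ^ Cgeo)⁻¹ := by ring
          _ ≤ _ := h2
          _ = _ := by ring
      exact le_of_mul_le_mul_left this hP
    rw [← div_eq_mul_inv, ← div_eq_mul_inv, div_le_div_iff₀ pBD pg] at h3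
    rw [div_mul_eq_mul_div, le_div_iff₀ hcg]
    linarith
  -- s3
  have s3 : g ^ t ≤ (CB / cg) ^ (t / 2) * B ^ (Cgeo * t / 2) * D ^ (Cgeo * t / 2) := by
    have e5 : g ^ t = (g ^ (2 : ℝ)) ^ (t / 2) := by
      rw [← Real.rpow_mul hg.le]
      congr 1
      ring
    rw [e5]
    calc (g ^ (2 : ℝ)) ^ (t / 2) ≤ (CB / cg * (B * D) ^ Cgeo) ^ (t / 2) :=
          Real.rpow_le_rpow (by positivity) s2 (by linarith)
      _ = _ := by
        rw [Real.mul_rpow (by positivity) pBD.le, ← Real.rpow_mul (mul_pos hB0 hD0).le, Real.mul_rpow hB0.le hD0.le,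
          mul_div_assoc, mul_assoc]
  -- s4
  have e6 : g ^ (-2 : ℝ) = g ^ t * g ^ (-p) := by
    rw [← Real.rpow_add hg]
    congr 1
    rw [ht]
    ring
  have pgp := Real.rpow_pos_of_pos hg (-p)
  have e7 : D ^ (Cgeo * t / 2) * D ^ (-(cs / 2)) ≤ D ^ (-σ) := by
    rw [← Real.rpow_add hD0]
    exact Real.rpow_le_rpow_of_exponent_le hD (by linarith)
  have pc := Real.rpow_pos_of_pos (div_pos hCB hcg) (t / 2)
  have pB := Real.rpow_pos_of_pos hB0 (Cgeo * t / 2)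
  have pDs := Real.rpow_pos_of_pos hD0 (-σ)
  calc r ≤ CB * m * L ^ N2 * g ^ (-2 : ℝ) * D ^ (-(cs / 2)) := s1
    _ = CB * m * L ^ N2 * (g ^ t * g ^ (-p)) * D ^ (-(cs / 2)) := by rw [e6]
    _ ≤ CB * m * L ^ N2 * (((CB / cg) ^ (t / 2) * B ^ (Cgeo * t / 2) * D ^ (Cgeo * t / 2)) * g ^ (-p)) * D ^ (-(cs / 2)) := by
        gcongr
    _ = (CB * (CB / cg) ^ (t / 2) * B ^ (Cgeo * t / 2)) * (m * L ^ N2 * g ^ (-p)) * (D ^ (Cgeo * t / 2) * D ^ (-(cs / 2))) := by ring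
    _ ≤ Cind * (m * L ^ N2 * g ^ (-p)) * D ^ (-σ) := by
        have hCi : 0 ≤ Cind := le_trans (by positivity) hC
        gcongr
    _ = _ := by ring

/-- **LEAF L-257-WC-FINAL** (T5, flattening.tex l.372-408).   PLAN.  `M := μ (wset …)`, `L = A.L ≥ 1`, `λ = χ^a g L^{-e} > 0`.
`hF`: `λ² M ≤ CB m χ^{1-β} L^{2n/(n+1)} D^{-cs/2}`, hence `M < ∞` and, with `2e + 2n/(n+1) = 2n`, `ζ = 1-β-2a ≥ 0`, `χ ≤ 1`:  `M ≤ CB m L^{2n} g^{-2} D^{-cs/2}`   (1).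
`hG` and (1), `D ≥ 1`:  `cg (B D)^{-Cgeo} ≤ CB g^{-2}`, i.e. `g² ≤ (CB/cg) (B D)^{Cgeo}`, `g^{p-2} ≤ (CB/cg)^{(p-2)/2} B^{Cgeo(p-2)/2} D^{Cgeo(p-2)/2}`   (2).
(1), (2), `hnum`:  `M ≤ CB g^{p-2} m L^{2n} g^{-p} D^{-cs/2} ≤ [CB (CB/cg)^{(p-2)/2} B^{Cgeo(p-2)/2}] m L^{2n} g^{-p} D^{-σ} ≤ wrhs`, contradiction with `h.big`. -/
theorem wc_final {W : WCon} {X : WExp} {κ v₀ L₀ B cg Cgeo cs CB : ℝ} (hB : 1 ≤ B) (hcg : 0 < cg) (hCB : 0 < CB) (hCgeo : 0 ≤ Cgeo)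
    (hcs : 0 ≤ cs) (ha : 2 * X.a ≤ 1 - bet n) (hp : 2 ≤ X.p) (hnum : Cgeo * (X.p - 2) / 2 + X.σ ≤ cs / 2)
    (hC : CB * (CB / cg) ^ ((X.p - 2) / 2) * B ^ (Cgeo * (X.p - 2) / 2) ≤ X.Cind)
    (hG : GeoWith n W X κ v₀ L₀ B cg Cgeo) (hF : FinalWith n W X κ v₀ L₀ cs CB)
    (ι : Type) (A : Arr n ι) (s : Finset ι) (c : ι → ℂ) (μ : Measure (ST n)) (m χ g D : ℝ) : ¬ Act n W X κ v₀ L₀ A s c μ m χ g D := by
  intro h
  have _ := hCgeo
  have hL1 := h.cls.one_le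
  have hL0 : 0 < A.L := by linarith
  have hD1 := h.hD1
  have hD0 : 0 < D := by linarith
  have hχ0 : 0 < χ := lt_trans (Real.rpow_pos_of_pos hL0 _) h.hχ
  have hg0 : 0 < g := lt_of_lt_of_le (by positivity) h.hg
  have hm := h.hm
  have hF' := hF ι A s c μ m χ g D h
  have hG' := hG ι A s c μ m χ g D h
  have hbig := h.big
  have hlam0 : 0 < wlev n X.a χ g A.L := by
    unfold wlev
    have p1 := Real.rpow_pos_of_pos hχ0 X.a
    have p2 := Real.rpow_pos_of_pos hL0 (-eex n)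
    positivity
  set M := μ (wset A s c (wlev n X.a χ g A.L)) with hM
  have hMtop : M ≠ ⊤ := by
    intro htop
    rw [htop, ENNReal.mul_top (ENNReal.ofReal_pos.2 (pow_pos hlam0 2)).ne'] at hF'
    exact ENNReal.ofReal_ne_top (top_le_iff.1 hF')
  have hMeq : M = ENNReal.ofReal M.toReal := (ENNReal.ofReal_toReal hMtop).symm
  have hr0 : 0 ≤ M.toReal := ENNReal.toReal_nonneg
  rw [hMeq] at hF' hG' hbig
  rw [← ENNReal.ofReal_mul (by positivity)] at hF'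
  have pχ := Real.rpow_pos_of_pos hχ0 (1 - bet n)
  have pL := Real.rpow_pos_of_pos hL0 (2 * (n : ℝ) / ((n : ℝ) + 1))
  have pD := Real.rpow_pos_of_pos hD0 (-(cs / 2))
  have hFr := (ENNReal.ofReal_le_ofReal_iff (by positivity)).1 hF'
  have hGr := (ENNReal.ofReal_le_ofReal_iff hr0).1 hG'
  have heq : 2 * eex n + 2 * (n : ℝ) / ((n : ℝ) + 1) = 2 * (n : ℝ) := by
    unfold eex
    have : (n : ℝ) + 1 ≠ 0 := by positivity
    field_simp
  have hfin := wc_final_real hm hL1 hχ0 h.hχ1 hg0 hD1 hB hcg hCB hcs heq ha hp hnum hC hFr hGr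
  refine absurd hbig (not_lt.2 (ENNReal.ofReal_le_ofReal ?_))
  unfold wrhs
  rw [Real.one_rpow, mul_one]
  exact hfin

/-! ## monotonicity in the derivative order and in the constants -/

theorem wc_In_mono {A : Arr n ι} {s : Finset ι} {K : Cls} {J J' : ℕ} {B : ℝ} (h : J ≤ J')
    (hIn : A.In s { K with J := J', B := B }) : A.In s { K with J := J, B := B } :=
  ⟨hIn.one_le, fun α hα => ⟨(hIn.prof α hα).smooth, (hIn.prof α hα).supp, fun j hj z => (hIn.prof α hα).bound j (hj.trans h) z⟩,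
    hIn.freq, hIn.mult⟩

theorem wc_sparse_mono {W : WCon} {cs τ C C' B : ℝ} {J J' : ℕ} (hJ : J ≤ J') (hC : C ≤ C')
    (h : SparseWith n (W.wJB J B) cs τ C) : SparseWith n (W.wJB J' B) cs τ C' := by
  intro ι A s c μ m D hIn htc hm hG hS hT h1 h2
  refine (h ι A s c μ m D (wc_In_mono hJ hIn) htc hm hG hS hT h1 h2).trans (ENNReal.ofReal_le_ofReal ?_)
  have hL : 0 ≤ A.L := by linarith [hIn.one_le]
  have hD : 0 ≤ D := (Real.rpow_nonneg hL τ).trans h1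
  have hE : 0 ≤ energy s c := Finset.sum_nonneg fun α _ => by positivity
  have h3 : 0 ≤ m ^ bet n * A.L ^ (2 * (n : ℝ) / ((n : ℝ) + 1)) * D ^ (-cs) * energy s c :=
    mul_nonneg (mul_nonneg (mul_nonneg (Real.rpow_nonneg hm _) (Real.rpow_nonneg hL _)) (Real.rpow_nonneg hD _)) hE
  nlinarith [mul_le_mul_of_nonneg_right hC h3]

theorem wc_power_mono {W : WCon} {ε C C' B : ℝ} {J J' : ℕ} (hJ : J ≤ J') (hC : C ≤ C')
    (h : PowerLossWith n (W.wJB J B) ε C) : PowerLossWith n (W.wJB J' B) ε C' := by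
  intro ι A s c μ m hIn htc hm hG hS
  refine (h ι A s c μ m (wc_In_mono hJ hIn) htc hm hG hS).trans (ENNReal.ofReal_le_ofReal ?_)
  have hL : 0 ≤ A.L := by linarith [hIn.one_le]
  have hE : 0 ≤ energy s c := Finset.sum_nonneg fun α _ => by positivity
  have h3 : 0 ≤ m ^ bet n * A.L ^ (2 * (n : ℝ) / ((n : ℝ) + 1) + ε) * energy s c :=
    mul_nonneg (mul_nonneg (Real.rpow_nonneg hm _) (Real.rpow_nonneg hL _)) hE
  nlinarith [mul_le_mul_of_nonneg_right hC h3]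

theorem wc_sup_mono {W : WCon} {C C' B : ℝ} {J J' : ℕ} (hJ : J ≤ J') (hC : C ≤ C')
    (h : ArrSupWith n (W.wJB J B).K C) : ArrSupWith n (W.wJB J' B).K C' := by
  intro ι A s c z hIn htc
  exact (h ι A s c z (wc_In_mono hJ hIn) htc).trans (mul_le_mul_of_nonneg_right hC (Real.sqrt_nonneg _))

/-! ## the choice of the constants -/

/-- **TOP OF THE HUB** -/
theorem wc_weak (hn : 1 ≤ n) {W : WCon} {cs : ℝ} (hS : SparseStmt n W cs) (hP : PowerLossStmt n W) (hU : ArrSupStmt n W)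
    (hD : DeepStmt n W cs) : WeakStmt n W := by
  obtain ⟨a, σ, v₀, Cgeo, pmax, ha, ha2, hσ, hσ1, hσ2, hv, hCg, hpm, κ₀, hκ₀, hdeep⟩ := hD
  have hζ : 0 < 1 - bet n - 2 * a := by linarith
  set ζ := 1 - bet n - 2 * a with hζdef
  have hn' : (0 : ℝ) < n := by exact_mod_cast hn
  have he : 0 < eex n := by unfold eex; positivity
  -- κ
  have hκ1 : 0 < v₀ * ζ / (4 * σ) := by positivity
  obtain ⟨κ, hκ, hκle, hκσ⟩ : ∃ κ : ℝ, 0 < κ ∧ κ ≤ κ₀ ∧ κ * σ ≤ v₀ * ζ / 4 := by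
    refine ⟨min κ₀ (v₀ * ζ / (4 * σ)), lt_min hκ₀ hκ1, min_le_left _ _, ?_⟩
    calc min κ₀ (v₀ * ζ / (4 * σ)) * σ ≤ v₀ * ζ / (4 * σ) * σ := mul_le_mul_of_nonneg_right (min_le_right _ _) hσ.le
      _ = v₀ * ζ / 4 := by field_simp
  -- p
  have hcsσ : 0 < cs - σ := by linarith
  obtain ⟨d, hd, hd1, hd2, hd3, hd4, hd5⟩ : ∃ d : ℝ, 0 < d ∧ d ≤ pmax - 2 ∧ eex n * d ≤ κ * (cs - σ) ∧ a * d ≤ ζ / 2 ∧
      eex n * d ≤ v₀ * ζ / 8 ∧ Cgeo * d ≤ cs - 2 * σ := by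
    have q1 : 0 < pmax - 2 := by linarith
    have q2 : 0 < κ * (cs - σ) / eex n := by positivity
    have q3 : 0 < ζ / (2 * a) := by positivity
    have q4 : 0 < v₀ * ζ / (8 * eex n) := by positivity
    have q5 : 0 < (cs - 2 * σ) / (Cgeo + 1) := by
      have : 0 < cs - 2 * σ := by linarith
      positivity
    refine ⟨min (pmax - 2) (min (κ * (cs - σ) / eex n) (min (ζ / (2 * a)) (min (v₀ * ζ / (8 * eex n)) ((cs - 2 * σ) / (Cgeo + 1))))),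
      lt_min q1 (lt_min q2 (lt_min q3 (lt_min q4 q5))), min_le_left _ _, ?_, ?_, ?_, ?_⟩
    · calc eex n * _ ≤ eex n * (κ * (cs - σ) / eex n) :=
            mul_le_mul_of_nonneg_left ((min_le_right _ _).trans (min_le_left _ _)) he.le
        _ = κ * (cs - σ) := by field_simp
    · calc a * _ ≤ a * (ζ / (2 * a)) :=
            mul_le_mul_of_nonneg_left ((min_le_right _ _).trans ((min_le_right _ _).trans (min_le_left _ _))) ha.le
        _ = ζ / 2 := by field_simp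
    · calc eex n * _ ≤ eex n * (v₀ * ζ / (8 * eex n)) :=
            mul_le_mul_of_nonneg_left
              ((min_le_right _ _).trans ((min_le_right _ _).trans ((min_le_right _ _).trans (min_le_left _ _)))) he.le
        _ = v₀ * ζ / 8 := by field_simp
    · calc Cgeo * _ ≤ Cgeo * ((cs - 2 * σ) / (Cgeo + 1)) :=
            mul_le_mul_of_nonneg_left
              ((min_le_right _ _).trans ((min_le_right _ _).trans ((min_le_right _ _).trans (min_le_right _ _)))) hCg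
        _ ≤ (Cgeo + 1) * ((cs - 2 * σ) / (Cgeo + 1)) := mul_le_mul_of_nonneg_right (by linarith) q5.le
        _ = cs - 2 * σ := by field_simp
  have hε : 0 < v₀ * ζ / 8 := by positivity
  obtain ⟨J1, hJ1⟩ := hS κ hκ
  obtain ⟨J2, hJ2⟩ := hP (v₀ * ζ / 8) hε
  obtain ⟨J3, hJ3⟩ := hdeep κ hκ hκle (2 + d) (by linarith) (by linarith)
  refine ⟨max J1 (max J2 J3), fun Bp => ?_⟩
  set J := max J1 (max J2 J3) with hJdef
  obtain ⟨C1, hC1⟩ := hJ1 Bp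
  obtain ⟨C2, hC2⟩ := hJ2 Bp
  obtain ⟨C0, hC0⟩ := hU Bp
  obtain ⟨B, L₀, cg, CB, hB, hL0, hcg, hCB, hGF⟩ := hJ3 J ((le_max_right _ _).trans (le_max_right _ _)) Bp
  have hC1' : SparseWith n (W.wJB J Bp) cs κ (max C1 0) := wc_sparse_mono (le_max_left _ _) (le_max_left _ _) hC1
  have hC2' : PowerLossWith n (W.wJB J Bp) (v₀ * ζ / 8) (max C2 0) :=
    wc_power_mono ((le_max_left _ _).trans (le_max_right _ _)) (le_max_left _ _) hC2
  have hC0' : ArrSupWith n (W.wJB J Bp).K (max C0 0) := wc_sup_mono (Nat.zero_le _) (le_max_left _ _) hC0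
  set Cind := max 1 (max (ww_Ctot n (W.wJB J Bp)) (max (ww_Cq n * max C1 0 * max C0 0 ^ (2 + d - 2))
    (max (ww_Cq n * max C2 0 * max C0 0 ^ (2 + d - 2))
    (max (ww_Cq n * max C2 0 * max C0 0 ^ (2 + d - 2) * L₀ ^ (v₀ * ζ / 8 + σ + eex n * (2 + d - 2)))
    (CB * (CB / cg) ^ ((2 + d - 2) / 2) * B ^ (Cgeo * (2 + d - 2) / 2)))))) with hCind
  have hCind0 : 0 < Cind := lt_of_lt_of_le one_pos (le_max_left _ _)
  have m1 := le_max_right 1 (max (ww_Ctot n (W.wJB J Bp)) (max (ww_Cq n * max C1 0 * max C0 0 ^ (2 + d - 2))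
    (max (ww_Cq n * max C2 0 * max C0 0 ^ (2 + d - 2))
    (max (ww_Cq n * max C2 0 * max C0 0 ^ (2 + d - 2) * L₀ ^ (v₀ * ζ / 8 + σ + eex n * (2 + d - 2)))
    (CB * (CB / cg) ^ ((2 + d - 2) / 2) * B ^ (Cgeo * (2 + d - 2) / 2))))))
  refine ⟨⟨2 + d, σ, a, Cind⟩, by simpa using hd, hσ, ha, ha2, ?_⟩
  have hed : eex n * (2 + d - 2) = eex n * d := by ring
  have had : a * (2 + d - 2) = a * d := by ring
  have N : WEasyNum n (W.wJB J Bp) ⟨2 + d, σ, a, Cind⟩ cs κ (max C1 0) (v₀ * ζ / 8) (max C2 0) (max C0 0) v₀ L₀ :=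
    { n1 := hn
      p2 := show (2 : ℝ) ≤ 2 + d by linarith
      σ0 := hσ.le
      σp := show σ ≤ 2 + d by linarith
      σcs := show σ ≤ cs by linarith
      ε0 := hε.le
      C₀0 := le_max_right _ _
      C₁0 := le_max_right _ _
      C₂0 := le_max_right _ _
      e2 := show eex n * (2 + d - 2) ≤ κ * (cs - σ) by rw [hed]; exact hd2
      ea := show a * (2 + d - 2) ≤ 1 - bet n - 2 * a by rw [had]; linarith
      e3 := show v₀ * ζ / 8 + κ * σ + eex n * (2 + d - 2) ≤ v₀ * (1 - bet n - 2 * a - a * (2 + d - 2)) by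
        rw [hed, had]
        have h3 : v₀ * (ζ / 2) ≤ v₀ * (ζ - a * d) := mul_le_mul_of_nonneg_left (by linarith) hv.le
        nlinarith
      c1 := (le_max_left _ _).trans m1
      c2 := ((le_max_left _ _).trans (le_max_right _ _)).trans m1
      c3 := ((le_max_left _ _).trans ((le_max_right _ _).trans (le_max_right _ _))).trans m1
      c4 := ((le_max_left _ _).trans ((le_max_right _ _).trans ((le_max_right _ _).trans (le_max_right _ _)))).trans m1 }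
  have hAct := wc_final (n := n) (W := W.wJB J Bp) (X := ⟨2 + d, σ, a, Cind⟩) (κ := κ) (v₀ := v₀) (L₀ := L₀) hB hcg hCB hCg
    (show 0 ≤ cs by linarith) (show 2 * a ≤ 1 - bet n by linarith) (show (2 : ℝ) ≤ 2 + d by linarith)
    (show Cgeo * (2 + d - 2) / 2 + σ ≤ cs / 2 by
      have : Cgeo * (2 + d - 2) = Cgeo * d := by ring
      rw [this]; linarith)
    (((le_max_right _ _).trans ((le_max_right _ _).trans ((le_max_right _ _).trans (le_max_right _ _)))).trans m1)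
    (hGF Cind (le_max_left _ _)).1 (hGF Cind (le_max_left _ _)).2
  refine ww_main N hC1' hC2' hC0' ?_
  intro L D h1 h2 hO hI ι A s c μ m χ g hAL hIn htc hm hχ hχ1 hg hadm hen c4 c2 c3 c1 _
  by_contra hbig
  push Not at hbig
  subst hAL
  exact hAct ι A s c μ m χ g D ⟨c4, h1, h2, c2, hO, hI, hIn, htc, hm, c3, hχ1, c1.le, hadm, hen, hbig⟩

end Claimed.Agent.R257
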