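import Claimed.Agent.R257.Weak.HeavyLight

/-!
# R257 / Weak / HeavyMain : LEMMA `w:heavy-reduction` (H wall.tex l.19-98), parts (ii), (iii) and the assembly            (architect helper273)            CONTRACT
EXIT: `wh_main`.   Parameters of the hub: `R` (`= X^u`), `D₁ = X^{P₁}`, `w₀ = X^{-P₀}`, `ρ = X^{C_w}`;  numerical hypotheses `hκ hN1 hN2 hN3` (explicit, free of `m χ g`).
`Nar` = "narrow set of bins" is a parameter; `hang` = the estimate of `w:angular` for prescribed-bin fields with narrow prescriptions, already compared with the target.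
Every `sorry` is a leaf `L-257-WH-*`.  Statements are frozen (a FALSE statement: one line to helper273); auxiliary lemmas directly above your theorem, prefix `wh_`; edit only your block.
-/

set_option autoImplicit false

namespace Claimed.Agent.R257

open MeasureTheory Metric Set
open scoped ENNReal

variable {n : ℕ} {ι : Type}

/-! ## LEAF L-257-WH-M1 : adverse big cubes, positivity of `m` -/

/-- **PLAN.**  `S k := if Nar (heavy k) then heavy k else ∅` (classical); `∀ k, Nar (S k)`; on the set on the left `S (wmac z) = heavy (wmac z)`, so `sel S z = hfld z`: the set is contained in `{λ/2 ≤ ‖sel S z‖}`. -/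
theorem wh_adverse (H : WH n ι) (Nar : Set (BI n) → Prop) (hNar0 : Nar ∅) {bd : ℝ≥0∞}
    (hang : ∀ S : MI n → Set (BI n), (∀ k, Nar (S k)) → H.μ {z | H.lam / 2 ≤ ‖H.sel S z‖} ≤ bd) :
    H.μ ({z | H.lam / 2 ≤ ‖H.hfld z‖} ∩ {z | Nar (H.heavy (wmac (H.R ^ 4) z))}) ≤ bd := by
  classical
  refine le_trans (measure_mono ?_) (hang (fun k => if Nar (H.heavy k) then H.heavy k else ∅) fun k => ?_)
  · rintro z ⟨h1, h2⟩
    have h2' : Nar (H.heavy (wmac (H.R ^ 4) z)) := h2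
    have e : H.sel (fun k => if Nar (H.heavy k) then H.heavy k else ∅) z = H.hfld z := by
      unfold WH.hfld WH.sel
      simp only [if_pos h2']
    show H.lam / 2 ≤ ‖H.sel (fun k => if Nar (H.heavy k) then H.heavy k else ∅) z‖
    rw [e]
    exact h1
  · show Nar (if Nar (H.heavy k) then H.heavy k else ∅)
    split_ifs with h
    · exact h
    · exact hNar0

/-- `m ≤ 0`: all balls of radius `≥ 1` are null, `univ = ⋃_N closedBall 0 (N+1)`. -/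
theorem wh_m_pos {μ : Measure (ST n)} {m a : ℝ} (hg : Grow μ m a) {S : Set (ST n)} (hS : 0 < μ S) : 0 < m := by
  by_contra hm
  have hm' : m ≤ 0 := not_lt.1 hm
  have h0 : ∀ N : ℕ, μ (closedBall (0 : ST n) ((N : ℝ) + 1)) = 0 := by
    intro N
    have h1 : (1 : ℝ) ≤ (N : ℝ) + 1 := by have : (0 : ℝ) ≤ N := Nat.cast_nonneg N; linarith
    have h2 := hg 0 ((N : ℝ) + 1) h1
    have h3 : m * ((N : ℝ) + 1) ^ a ≤ 0 := mul_nonpos_of_nonpos_of_nonneg hm' (Real.rpow_nonneg (by linarith) _)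
    rw [ENNReal.ofReal_of_nonpos h3] at h2
    exact le_antisymm h2 bot_le
  have hU : (univ : Set (ST n)) = ⋃ N : ℕ, closedBall (0 : ST n) ((N : ℝ) + 1) := by
    refine (eq_univ_of_forall fun z => ?_).symm
    obtain ⟨N, hN⟩ := exists_nat_ge ‖z‖
    refine mem_iUnion.2 ⟨N, ?_⟩
    rw [mem_closedBall, dist_zero_right]
    linarith
  have h4 : μ univ = 0 := by
    rw [hU]
    exact measure_iUnion_null h0
  have h5 : μ S = 0 := measure_mono_null (subset_univ S) h4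
  rw [h5] at hS
  exact lt_irrefl _ hS

/-! ## LEAF L-257-WH-M2 : far trajectories -/

/-- Markov (`mul_meas_ge_le_lintegral`/`meas_ge_le_lintegral_div`, `wh_meas_far`) and `wh_far_int`. -/
theorem wh_far_markov (H : WH n ι) (W : WCon) {m : ℝ} (hMn : n + 2 ≤ W.M) (hM : H.M = W.M) (hm : 0 ≤ m) (hL : 1 ≤ H.A.L) (hg : Grow H.μ m n)
    (hs : Slab H.μ (W.T₀ * H.A.L ^ 2)) (hfreq : ∀ α ∈ H.s, ‖H.A.om α‖ ≤ W.K.Rω) (ρ : ℝ) (hρ : 1 ≤ ρ) (hW : 0 < H.Wt) :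
    H.μ {z | H.Wt / 4 ≤ H.far ρ z}
      ≤ ENNReal.ofReal (4 / H.Wt * (whFar n W * m * H.A.L ^ ((n : ℝ) + 1) * ρ ^ (-((W.M : ℝ) - n - 1)) * energy H.s H.c)) := by
  have hL0 : 0 < H.A.L := by linarith
  have h1 := wh_far_int H W hMn hM hm hL hg hs hfreq ρ hρ
  have hmeas : Measurable fun z => ENNReal.ofReal (H.far ρ z) := (wh_meas_far H hL0 ρ).ennreal_ofReal
  have h2 := mul_meas_ge_le_lintegral (μ := H.μ) hmeas (ENNReal.ofReal (H.Wt / 4))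
  have hsub : {z | H.Wt / 4 ≤ H.far ρ z} ⊆ {z | ENNReal.ofReal (H.Wt / 4) ≤ ENNReal.ofReal (H.far ρ z)} :=
    fun z hz => ENNReal.ofReal_le_ofReal hz
  have h3 : ENNReal.ofReal (H.Wt / 4) * H.μ {z | H.Wt / 4 ≤ H.far ρ z}
      ≤ ENNReal.ofReal (whFar n W * m * H.A.L ^ ((n : ℝ) + 1) * ρ ^ (-((W.M : ℝ) - n - 1)) * energy H.s H.c) :=
    ((mul_le_mul_right (measure_mono hsub) _).trans h2).trans h1
  have hq : 0 < H.Wt / 4 := by positivity
  have e : (4 / H.Wt) = (H.Wt / 4)⁻¹ := by rw [inv_div]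
  rw [e, ENNReal.ofReal_mul (inv_nonneg.2 hq.le), ENNReal.ofReal_inv_of_pos hq]
  rw [← ENNReal.div_eq_inv_mul]
  rw [ENNReal.le_div_iff_mul_le (Or.inl (by simpa using hq)) (Or.inl ENNReal.ofReal_ne_top), mul_comm]
  exact h3

/-- **PLAN.**  `mass b z = near ρ b z + ∑_{α ∈ bin b, ρ L < tdist} ..` (`Finset.sum_filter_add_sum_filter_not`), the second sum is `≤ far ρ z` (subset of `s`, nonnegative terms).   `Wt ≤ mass b (centre) ≤ (4/3) mass b z` (`wh_mass_comp`). -/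
theorem wh_near_ge (H : WH n ι) {Rω ρ : ℝ} (hn : 1 ≤ n) (hR : 0 < H.R) (hL : 0 < H.A.L) (hfreq : ∀ α ∈ H.s, ‖H.A.om α‖ ≤ Rω)
    (hκ : (1 + (1 + 2 * Rω) * (Real.sqrt n * H.R ^ 4 / 2) / H.A.L) ^ H.M ≤ 4 / 3) (z : ST n) (hz : H.far ρ z < H.Wt / 4)
    (b : BI n) (hb : b ∈ H.heavy (wmac (H.R ^ 4) z)) : H.Wt / 2 ≤ H.near ρ b z := by
  classical
  have h1 := (wh_mass_comp H hn hR hL hfreq hκ b z).2
  have hb' : H.Wt ≤ H.mass b (wctr (H.R ^ 4) (wmac (H.R ^ 4) z)) := hb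
  have h2 : H.mass b z = H.near ρ b z + ∑ α ∈ (H.bin b).filter (fun α => ¬ H.A.tdist α z ≤ ρ * H.A.L), ‖H.c α‖ ^ 2 * H.A.tw H.M α z := by
    unfold WH.mass WH.near
    exact (Finset.sum_filter_add_sum_filter_not _ _ _).symm
  have h3 : ∑ α ∈ (H.bin b).filter (fun α => ¬ H.A.tdist α z ≤ ρ * H.A.L), ‖H.c α‖ ^ 2 * H.A.tw H.M α z ≤ H.far ρ z := by
    unfold WH.far
    refine Finset.sum_le_sum_of_subset_of_nonneg ?_ fun α _ _ => mul_nonneg (by positivity) (wh_tw_pos H.A hL _ _ _).le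
    intro α hα
    rw [Finset.mem_filter] at hα ⊢
    exact ⟨(Finset.mem_filter.1 hα.1).1, not_le.1 hα.2⟩
  linarith

/-! ## LEAF L-257-WH-M3 : arithmetic -/

theorem wh_wlev_div (a χ g L N : ℝ) : wlev n a χ (g / N) L = wlev n a χ g L / N := by
  unfold wlev
  ring

/-- `(g/N)^{-p} = g^{-p} N^p`  (`Real.div_rpow`, `Real.rpow_neg`). -/
theorem wh_inner_arith (X : WExp) {m L g N D D₁ : ℝ} (hC : 0 ≤ X.Cind) (hm : 0 ≤ m) (hL : 0 < L) (hg : 0 < g) (hN : 0 < N)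
    (h : N ^ X.p * D₁ ^ (-X.σ) ≤ D ^ (-X.σ) / 8) : wrhs n X m L (g / N) D₁ 1 ≤ wrhs n X m L g D 1 / 8 := by
  unfold wrhs
  have e : (g / N) ^ (-X.p) = g ^ (-X.p) * N ^ X.p := by
    rw [Real.div_rpow hg.le hN.le, Real.rpow_neg hN.le, div_inv_eq_mul]
  rw [e, Real.one_rpow]
  have hK : 0 ≤ X.Cind * m * L ^ (2 * (n : ℝ)) * g ^ (-X.p) :=
    mul_nonneg (mul_nonneg (mul_nonneg hC hm) (Real.rpow_nonneg hL.le _)) (Real.rpow_nonneg hg.le _)
  have := mul_le_mul_of_nonneg_left h hK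
  nlinarith

theorem wh_outer_arith2 (X : WExp) {m L g D Q : ℝ} (hC : 0 ≤ X.Cind) (hm : 0 ≤ m) (hL : 0 < L) (hg : 0 < g) (h : Q ≤ D ^ (-X.σ) / 8) :
    X.Cind * m * L ^ (2 * (n : ℝ)) * g ^ (-X.p) * Q ≤ wrhs n X m L g D 1 / 8 := by
  unfold wrhs
  rw [Real.one_rpow]
  have hK : 0 ≤ X.Cind * m * L ^ (2 * (n : ℝ)) * g ^ (-X.p) :=
    mul_nonneg (mul_nonneg (mul_nonneg hC hm) (Real.rpow_nonneg hL.le _)) (Real.rpow_nonneg hg.le _)
  have := mul_le_mul_of_nonneg_left h hK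
  nlinarith

/-- `a ≤ y + 4 (a/8)`, `a < ∞` ⟹ `a ≤ 2 y`. -/
theorem wh_half {a y e₁ e₂ e₃ e₄ : ℝ≥0∞} (ha : a ≠ ∞) (h : a ≤ y + (e₁ + e₂ + e₃ + e₄)) (h₁ : e₁ ≤ a / 8) (h₂ : e₂ ≤ a / 8) (h₃ : e₃ ≤ a / 8)
    (h₄ : e₄ ≤ a / 8) : a ≤ 2 * y := by
  by_cases hy : y = ∞
  · rw [hy]
    simp
  have h5 : a ≤ y + (a / 8 + a / 8 + a / 8 + a / 8) := h.trans (by gcongr)
  have ha8 : a / 8 ≠ ∞ := ENNReal.div_ne_top ha (by norm_num)
  have h6 : a.toReal ≤ y.toReal + (a.toReal / 8 + a.toReal / 8 + a.toReal / 8 + a.toReal / 8) := by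
    have := ENNReal.toReal_mono (by finiteness) h5
    rw [ENNReal.toReal_add hy (by finiteness), ENNReal.toReal_add (by finiteness) ha8, ENNReal.toReal_add (by finiteness) ha8,
      ENNReal.toReal_add ha8 ha8, ENNReal.toReal_div] at this
    simpa using this
  have h7 : a.toReal ≤ 2 * y.toReal := by linarith
  rw [← ENNReal.ofReal_toReal ha, ← ENNReal.ofReal_toReal hy]
  have : (2 : ℝ≥0∞) = ENNReal.ofReal 2 := by norm_num
  rw [this, ← ENNReal.ofReal_mul (by norm_num)]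
  exact ENNReal.ofReal_le_ofReal h7

/-! ## THE ASSEMBLY -/

/-- **Lemma w:heavy-reduction.** -/
theorem wh_main (hn : 1 ≤ n) (W : WCon) (X : WExp) (H : WH n ι) (Nar : Set (BI n) → Prop) (hNar0 : Nar ∅) {C' m χ g D D₁ w₀ ρ : ℝ}
    -- the induction hypotheses
    (hin : WInner n W X H.A.L D) (hout : WeakAt0 n W X C' (H.A.L / H.R) 1)
    -- array, measure, level
    (hA : H.A.In H.s W.K) (htc : ∀ α ∈ H.s, H.A.tc α = 0) (hM : H.M = W.M) (hen : energy H.s H.c = 1) (hm : 0 ≤ m) (hχ : 0 < χ) (hχ1 : χ ≤ 1)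
    (hg : 0 < g) (hadm : Adm W H.A H.s H.μ m χ D) (hlam : H.lam = wlev n X.a χ g H.A.L)
    -- the counter assumption (w:eq-counterlevel) and the threshold (w:eq-heavy)
    (hcounter : ENNReal.ofReal (wrhs n X m H.A.L g D 1) < H.μ H.Y) (hfin : H.μ H.Y ≠ ∞)
    (hWt : H.Wt = w₀ * m * H.A.L ^ ((n : ℝ) + 1) / (H.μ H.Y).toReal)
    -- w:angular
    (hang : ∀ S : MI n → Set (BI n), (∀ k, Nar (S k)) →
      H.μ {z | H.lam / 2 ≤ ‖H.sel S z‖} ≤ ENNReal.ofReal (wrhs n X m H.A.L g D 1 / 8))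
    -- conventions
    (hRω : Real.sqrt n / 2 ≤ W.K.Rω) (hMn : n + 2 ≤ W.M) (hp : 2 ≤ X.p) (ha : 0 ≤ X.a) (hC : 0 ≤ X.Cind) (hC' : 0 ≤ C')
    -- numerical hypotheses
    (hR : 1 ≤ H.R) (hRL : H.R ≤ H.A.L) (hD : 0 < D) (hD₁ : 2 * D ≤ D₁) (hD₁L : D₁ ≤ H.A.L) (hw₀ : 0 < w₀) (hρ : 1 ≤ ρ)
    (hκ : (1 + (1 + 2 * W.K.Rω) * (Real.sqrt n * H.R ^ 4 / 2) / H.A.L) ^ W.M ≤ 4 / 3)
    (hN1 : (4 * whNb n W.K.Rω H.R) ^ X.p * D₁ ^ (-X.σ) ≤ D ^ (-X.σ) / 8)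
    (hN2 : 4 * whNb n W.K.Rω H.R * (C' * (whC n W * H.R ^ (1 - (n : ℝ)) * (4 * whNb n W.K.Rω H.R * H.R ^ (eex n + X.a - (n : ℝ) / 2)) ^ X.p
      * (4 / 3 * D₁ * w₀) ^ (X.p / 2))) ≤ D ^ (-X.σ) / 8)
    (hN3 : 4 * whFar n W * ρ ^ (-((W.M : ℝ) - n - 1)) ≤ w₀ / 8) :
    ∃ Y', WHOut H ρ Nar Y' := by
  classical
  have hL1 : 1 ≤ H.A.L := hA.one_le
  have hL0 : 0 < H.A.L := by linarith
  have hR0 : 0 < H.R := by linarith
  have hpf : ∀ α ∈ H.s, Continuous (H.A.pf α) := fun α hα => (hA.prof α hα).smooth.continuous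
  have hfreq : ∀ α ∈ H.s, ‖H.A.om α‖ ≤ W.K.Rω := hA.freq
  have hRω0 : 0 ≤ W.K.Rω := le_trans (by positivity) hRω
  have hY0 : 0 < H.μ H.Y := lt_of_le_of_lt bot_le hcounter
  have hm0 : 0 < m := wh_m_pos hadm.grow hY0
  have hMY0 : 0 < (H.μ H.Y).toReal := ENNReal.toReal_pos hY0.ne' hfin
  have hLn : 0 < H.A.L ^ ((n : ℝ) + 1) := Real.rpow_pos_of_pos hL0 _
  have hW0 : 0 < H.Wt := by rw [hWt]; positivity
  have hD₁0 : 0 < D₁ := by linarith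
  have hNb1 : (H.bins.card : ℝ) ≤ whNb n W.K.Rω H.R := wh_card_bins H hR0.le hRω0 hfreq
  have hNb0 : 0 < whNb n W.K.Rω H.R := by unfold whNb; positivity
  have hN : (H.bins.card : ℝ) ≤ 4 * whNb n W.K.Rω H.R := by linarith
  have hN0 : 0 < 4 * whNb n W.K.Rω H.R := by positivity
  have hlam0 : 0 < H.lam := by
    rw [hlam]
    unfold wlev
    have h1 : 0 < χ ^ X.a := Real.rpow_pos_of_pos hχ _
    have h2 : 0 < H.A.L ^ (-eex n) := Real.rpow_pos_of_pos hL0 _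
    positivity
  have hτ0 : 0 < m * H.A.L ^ ((n : ℝ) + 1) / D₁ := by positivity
  have hκ' : (1 + (1 + 2 * W.K.Rω) * (Real.sqrt n * H.R ^ 4 / 2) / H.A.L) ^ H.M ≤ 4 / 3 := by rw [hM]; exact hκ
  have hwr8 : ENNReal.ofReal (wrhs n X m H.A.L g D 1 / 8) ≤ H.μ H.Y / 8 := by
    rw [ENNReal.ofReal_div_of_pos (by norm_num)]
    have : ENNReal.ofReal 8 = 8 := by norm_num
    rw [this]
    exact ENNReal.div_le_div_right hcounter.le _
  -- (i)
  have h1 := wh_light_measure H (τ := m * H.A.L ^ ((n : ℝ) + 1) / D₁) hNb1 hNb0 hlam0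
  have h1a : ∑ b ∈ H.bins, H.mu b (wset H.A (H.small (m * H.A.L ^ ((n : ℝ) + 1) / D₁) b) H.c (H.lam / (4 * whNb n W.K.Rω H.R)))
      ≤ H.μ H.Y / 8 := by
    have h := wh_inner H W X (g₁ := g / (4 * whNb n W.K.Rω H.R)) (hin D₁ hD₁ hD₁L) hA htc hM hm hχ hχ1 (by positivity) hD₁0 hadm hp hC
    rw [wh_wlev_div, ← hlam, hen] at h
    exact (h.trans (ENNReal.ofReal_le_ofReal (wh_inner_arith X hC hm hL0 hg hN0 hN1))).trans hwr8
  have h1b : ∑ b ∈ H.bins, H.mu b (wset H.A (H.large (m * H.A.L ^ ((n : ℝ) + 1) / D₁) b) H.c (H.lam / (4 * whNb n W.K.Rω H.R)))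
      ≤ H.μ H.Y / 8 := by
    have hEb : ∀ b ∈ H.bins, energy (H.large (m * H.A.L ^ ((n : ℝ) + 1) / D₁) b) H.c ≤ 4 / 3 * D₁ * w₀ := by
      intro b _
      have h := wh_large_energy H hn hR0 hL0 hfreq hpf hκ' (by norm_num) hW0.le hτ0 hfin b
      refine h.trans (le_of_eq ?_)
      rw [hWt]
      field_simp
    have h := wh_outer H W X (τ := m * H.A.L ^ ((n : ℝ) + 1) / D₁) hout hA htc hR hRL hRω hMn hm hχ hg hC' hadm (by linarith) ha hC hN hN0 hEb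
    rw [← hlam] at h
    exact (h.trans (ENNReal.ofReal_le_ofReal (wh_outer_arith2 X hC hm hL0 hg hN2))).trans hwr8
  -- (ii)
  have h2 : H.μ ({z | H.lam / 2 ≤ ‖H.hfld z‖} ∩ {z | Nar (H.heavy (wmac (H.R ^ 4) z))}) ≤ H.μ H.Y / 8 :=
    (wh_adverse H Nar hNar0 hang).trans hwr8
  -- (iii)
  have h3 : H.μ {z | H.Wt / 4 ≤ H.far ρ z} ≤ H.μ H.Y / 8 := by
    have h := wh_far_markov H W hMn hM hm hL1 hadm.grow hadm.slab hfreq ρ hρ hW0
    rw [hen] at h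
    refine h.trans ?_
    have e1 : 4 / H.Wt * (whFar n W * m * H.A.L ^ ((n : ℝ) + 1) * ρ ^ (-((W.M : ℝ) - n - 1)) * 1)
        = (4 * whFar n W * ρ ^ (-((W.M : ℝ) - n - 1))) / w₀ * (H.μ H.Y).toReal := by
      rw [hWt]
      field_simp
    have e2 : (4 * whFar n W * ρ ^ (-((W.M : ℝ) - n - 1))) / w₀ ≤ 1 / 8 := by
      rw [div_le_iff₀ hw₀]
      linarith
    rw [e1]
    calc ENNReal.ofReal ((4 * whFar n W * ρ ^ (-((W.M : ℝ) - n - 1))) / w₀ * (H.μ H.Y).toReal)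
        ≤ ENNReal.ofReal ((H.μ H.Y).toReal / 8) := by
          refine ENNReal.ofReal_le_ofReal ?_
          have := mul_le_mul_of_nonneg_right e2 hMY0.le
          linarith
      _ = H.μ H.Y / 8 := by
          rw [ENNReal.ofReal_div_of_pos (by norm_num), ENNReal.ofReal_toReal hfin]
          norm_num
  refine ⟨((H.Y ∩ {z | H.lam / 2 ≤ ‖H.hfld z‖}) ∩ {z | ¬ Nar (H.heavy (wmac (H.R ^ 4) z))}) ∩ {z | H.far ρ z < H.Wt / 4}, ?_, ?_, ?_, ?_, ?_, ?_⟩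
  · refine (((wh_meas_wset H.A H.s H.c hpf H.lam).inter (wh_meas_sel H hpf H.heavy (H.lam / 2))).inter
      (wh_meas_mac (H.R ^ 4) fun k => ¬ Nar (H.heavy k))).inter ?_
    exact measurableSet_lt (wh_meas_far H hL0 ρ) measurable_const
  · exact fun z hz => hz.1.1.1
  · refine wh_half hfin ?_ h1a h1b h2 h3
    have hcov : H.Y ⊆ (((H.Y ∩ {z | H.lam / 2 ≤ ‖H.hfld z‖}) ∩ {z | ¬ Nar (H.heavy (wmac (H.R ^ 4) z))}) ∩ {z | H.far ρ z < H.Wt / 4})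
        ∪ ((H.Y ∩ {z | ‖H.hfld z‖ < H.lam / 2}) ∪ (({z | H.lam / 2 ≤ ‖H.hfld z‖} ∩ {z | Nar (H.heavy (wmac (H.R ^ 4) z))})
          ∪ {z | H.Wt / 4 ≤ H.far ρ z})) := by
      intro z hz
      by_cases c1 : H.lam / 2 ≤ ‖H.hfld z‖
      · by_cases c2 : Nar (H.heavy (wmac (H.R ^ 4) z))
        · exact Or.inr (Or.inr (Or.inl ⟨c1, c2⟩))
        · by_cases c3 : H.far ρ z < H.Wt / 4
          · exact Or.inl ⟨⟨⟨hz, c1⟩, c2⟩, c3⟩
          · exact Or.inr (Or.inr (Or.inr (not_lt.1 c3)))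
      · exact Or.inr (Or.inl ⟨hz, not_le.1 c1⟩)
    refine (measure_mono hcov).trans ((measure_union_le _ _).trans (add_le_add le_rfl ?_))
    refine (measure_union_le _ _).trans ?_
    refine (add_le_add h1 (measure_union_le _ _)).trans (le_of_eq ?_)
    simp only [add_assoc]
  · exact fun z hz => hz.1.1.2
  · exact fun z hz => hz.1.2
  · exact fun z hz b hb => wh_near_ge H hn hR0 hL0 hfreq hκ' z hz.2 b hb

end Claimed.Agent.R257
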