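import Claimed.Agent.R257.Weak.Easy

/-!
# R257 / Weak / EasyBox : POST BP-257-WEAK-EASY, part 2: removal of the spatial box        (architect helper212, captain helper244)

H weak.tex l.50-55: "partition a larger box into boxes of the stipulated size, keep the compact packets meeting each, and sum their `p/2`-powers of energy.  The energy overlap is bounded."

* `wwBox a k`      spatial box of side `a` with corner `a k` (no condition on the time)
* `wwSub A s a k`  the packets of `s` which do not vanish identically on the box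
* `ww_Cnb n W`     the overlap constant
* `ww_nobox`       `WeakAt n W X L D ⟹ WeakAt0 n W X (ww_Cnb n W) L D`
-/

set_option autoImplicit false

namespace Claimed.Agent.R257

open MeasureTheory Metric Set
open scoped ENNReal

variable {n : ℕ} {ι : Type}

/-- spatial box of side `a` with corner `a k` -/
def wwBox (a : ℝ) (k : Fin n → ℤ) : Set (ST n) := {z | ∀ i, a * (k i : ℝ) ≤ z.1 i ∧ z.1 i < a * ((k i : ℝ) + 1)}

theorem ww_mem_box {a : ℝ} (ha : 0 < a) (z : ST n) : z ∈ wwBox (n := n) a (fun i => ⌊z.1 i / a⌋) := by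
  intro i
  have h1 := Int.floor_le (z.1 i / a)
  have h2 := Int.lt_floor_add_one (z.1 i / a)
  rw [le_div_iff₀ ha] at h1
  rw [div_lt_iff₀ ha] at h2
  constructor <;> linarith

open Classical in
/-- the packets of `s` which do not vanish identically on the box -/
noncomputable def wwSub (A : Arr n ι) (s : Finset ι) (a : ℝ) (k : Fin n → ℤ) : Finset ι :=
  s.filter fun α => ∃ z ∈ wwBox a k, A.atom α z ≠ 0

theorem ww_sub_subset (A : Arr n ι) (s : Finset ι) (a : ℝ) (k : Fin n → ℤ) : wwSub A s a k ⊆ s := by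
  classical
  unfold wwSub
  exact Finset.filter_subset _ _

theorem ww_mem_sub {A : Arr n ι} {s : Finset ι} {a : ℝ} {k : Fin n → ℤ} {α : ι} :
    α ∈ wwSub A s a k ↔ α ∈ s ∧ ∃ z ∈ wwBox a k, A.atom α z ≠ 0 := by
  classical
  unfold wwSub
  exact Finset.mem_filter

/-- on the box the field is the field of the packets meeting it -/
theorem ww_fld_box (A : Arr n ι) (s : Finset ι) (c : ι → ℂ) {a : ℝ} {k : Fin n → ℤ} {z : ST n} (hz : z ∈ wwBox a k) :
    A.fld (wwSub A s a k) c z = A.fld s c z := by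
  classical
  unfold Arr.fld wwSub
  exact Finset.sum_filter_of_ne fun α _ h => ⟨z, hz, right_ne_zero_of_mul h⟩

/-- a subarray of an array of the class -/
theorem ww_In_mono {A : Arr n ι} {s t : Finset ι} {K : Cls} (h : A.In s K) (ht : t ⊆ s) : A.In t K :=
  ⟨h.one_le, fun α hα => h.prof α (ht hα), fun α hα => h.freq α (ht hα), fun ξ y τ u hu => h.mult ξ y τ u (hu.trans ht)⟩

theorem ww_energy_mono {s t : Finset ι} (c : ι → ℂ) (ht : t ⊆ s) : energy t c ≤ energy s c :=
  Finset.sum_le_sum_of_subset_of_nonneg ht fun _ _ _ => by positivity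

/-- the spatial support of a compact packet with `tc = 0` -/
theorem ww_atom_supp {A : Arr n ι} {s : Finset ι} {K : Cls} (h : A.In s K) {α : ι} (hα : α ∈ s) (htc : A.tc α = 0) {z : ST n}
    (hz : A.atom α z ≠ 0) : ‖z.1 - A.y α‖ ≤ K.R * (1 + 2 * K.Rω) * A.L ^ 2 := by
  have hL := h.one_le
  have hL0 : 0 < A.L := by linarith
  have h1 : A.pf α (chart A.L (A.om α) (A.y α) (A.tc α) z) ≠ 0 := right_ne_zero_of_mul hz
  have h2 := (h.prof α hα).supp _ h1
  rw [Prod.norm_def] at h2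
  have h3 : ‖A.L⁻¹ • (z.1 - A.y α - (2 * z.2) • A.om α)‖ ≤ K.R := (le_max_left _ _).trans h2
  have h4 : ‖z.2 / A.L ^ 2 - A.tc α‖ ≤ K.R := (le_max_right _ _).trans h2
  rw [norm_smul, norm_inv, Real.norm_eq_abs, abs_of_pos hL0, inv_mul_le_iff₀ hL0] at h3
  rw [htc, sub_zero, norm_div, Real.norm_eq_abs, Real.norm_eq_abs, abs_of_pos (by positivity : 0 < A.L ^ 2),
    div_le_iff₀ (by positivity)] at h4
  have hR : 0 ≤ K.R := by
    have : 0 ≤ K.R * A.L ^ 2 := (abs_nonneg _).trans h4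
    by_contra hneg
    push Not at hneg
    have : 0 < A.L ^ 2 := by positivity
    nlinarith
  have h5 := h.freq α hα
  have h6 : ‖(2 * z.2) • A.om α‖ ≤ 2 * (K.R * A.L ^ 2) * K.Rω := by
    rw [norm_smul, Real.norm_eq_abs, abs_mul, abs_two]
    have := norm_nonneg (A.om α)
    have := abs_nonneg z.2
    gcongr
  have h7 : z.1 - A.y α = (z.1 - A.y α - (2 * z.2) • A.om α) + (2 * z.2) • A.om α := by abel
  rw [h7]
  refine (norm_add_le _ _).trans ?_
  have h8 : A.L ≤ A.L ^ 2 := by nlinarith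
  nlinarith

/-- half width of the window of boxes met by one packet -/
noncomputable def ww_Pnb (W : WCon) : ℕ := ⌈W.K.R * (1 + 2 * W.K.Rω)⌉₊ + 1

/-- the overlap constant of the boxes -/
noncomputable def ww_Cnb (n : ℕ) (W : WCon) : ℝ := ((2 * ww_Pnb W + 1 : ℕ) : ℝ) ^ n

/-- the window of boxes met by the packet `α` -/
noncomputable def wwWin (W : WCon) (A : Arr n ι) (α : ι) : Finset (Fin n → ℤ) :=
  Fintype.piFinset fun i => Finset.Icc (⌊A.y α i / A.L ^ 2⌋ - (ww_Pnb W : ℤ)) (⌊A.y α i / A.L ^ 2⌋ + (ww_Pnb W : ℤ))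

theorem ww_win_card (W : WCon) (A : Arr n ι) (α : ι) : (wwWin W A α).card = (2 * ww_Pnb W + 1) ^ n := by
  unfold wwWin
  rw [Fintype.card_piFinset]
  have : ∀ i : Fin n, (Finset.Icc (⌊A.y α i / A.L ^ 2⌋ - (ww_Pnb W : ℤ)) (⌊A.y α i / A.L ^ 2⌋ + (ww_Pnb W : ℤ))).card = 2 * ww_Pnb W + 1 := by
    intro i
    rw [Int.card_Icc]
    omega
  simp [this]

/-- a packet meets only the boxes of its window -/
theorem ww_mem_win {W : WCon} {A : Arr n ι} {s : Finset ι} (h : A.In s W.K) (htc : ∀ α ∈ s, A.tc α = 0) {α : ι} {k : Fin n → ℤ}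
    (hk : α ∈ wwSub A s (A.L ^ 2) k) : k ∈ wwWin W A α := by
  obtain ⟨hα, z, hz, hne⟩ := ww_mem_sub.1 hk
  have hL := h.one_le
  have ha : 0 < A.L ^ 2 := by positivity
  have h1 := ww_atom_supp h hα (htc α hα) hne
  unfold wwWin
  rw [Fintype.mem_piFinset]
  intro i
  rw [Finset.mem_Icc]
  have h2 : |z.1 i - A.y α i| ≤ W.K.R * (1 + 2 * W.K.Rω) * A.L ^ 2 := by
    have := PiLp.norm_apply_le (z.1 - A.y α) i
    rw [Real.norm_eq_abs] at this
    exact this.trans h1
  rw [abs_le] at h2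
  set ρ := W.K.R * (1 + 2 * W.K.Rω) with hρ
  set u := A.y α i / A.L ^ 2 with hu
  have hy : A.y α i = u * A.L ^ 2 := by
    rw [hu]
    field_simp
  have hc : ρ ≤ (⌈ρ⌉₊ : ℝ) := Nat.le_ceil ρ
  have f1 := Int.floor_le u
  have f2 := Int.lt_floor_add_one u
  have b1 := (hz i).1
  have b2 := (hz i).2
  have hP : ((ww_Pnb W : ℕ) : ℝ) = (⌈ρ⌉₊ : ℝ) + 1 := by
    unfold ww_Pnb
    push_cast
    rfl
  constructor
  · have : ((⌊u⌋ - (ww_Pnb W : ℤ) : ℤ) : ℝ) < (k i : ℝ) + 1 - 0 := by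
      push_cast
      rw [hP]
      have : (u - ρ) * A.L ^ 2 < ((k i : ℝ) + 1) * A.L ^ 2 := by nlinarith
      have := lt_of_mul_lt_mul_right this ha.le
      linarith
    have h3 : (⌊u⌋ - (ww_Pnb W : ℤ) : ℤ) < k i + 1 := by
      have h4 : ((⌊u⌋ - (ww_Pnb W : ℤ) : ℤ) : ℝ) < ((k i + 1 : ℤ) : ℝ) := by
        push_cast
        push_cast at this
        linarith
      exact_mod_cast h4
    omega
  · have : (k i : ℝ) ≤ ((⌊u⌋ + (ww_Pnb W : ℤ) : ℤ) : ℝ) := by
      push_cast
      rw [hP]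
      have : (k i : ℝ) * A.L ^ 2 ≤ (u + ρ) * A.L ^ 2 := by nlinarith
      have := le_of_mul_le_mul_right this ha
      linarith
    exact_mod_cast this

/-- the restriction of an admissible measure to a box of side `L²` is admissible for every subarray, with the spatial box -/
theorem ww_adm_restrict {W : WCon} {A : Arr n ι} {s t : Finset ι} {μ : Measure (ST n)} {m χ D : ℝ} (h : Adm0 W A s μ m χ D)
    (hCb : Real.sqrt n ≤ W.Cb) (ht : t ⊆ s) (k : Fin n → ℤ) : Adm W A t (μ.restrict (wwBox (A.L ^ 2) k)) m χ D := by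
  refine ⟨⟨fun z r hr => (Measure.restrict_le_self _).trans (h.grow z r hr), ?_, fun z => (Measure.restrict_le_self _).trans (h.dens z),
    fun α hα => (lintegral_mono' Measure.restrict_le_self le_rfl).trans (h.mom α (ht hα))⟩, ?_⟩
  · exact le_antisymm ((Measure.restrict_le_self _).trans_eq h.slab) zero_le
  · refine ⟨WithLp.toLp 2 fun i => A.L ^ 2 * (k i : ℝ), ?_⟩
    unfold InBall
    have hm : MeasurableSet {z : ST n | W.Cb * A.L ^ 2 < ‖z.1 - WithLp.toLp 2 fun i => A.L ^ 2 * (k i : ℝ)‖} :=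
      (isOpen_lt continuous_const (by fun_prop)).measurableSet
    rw [Measure.restrict_apply hm]
    convert measure_empty (μ := μ)
    rw [eq_empty_iff_forall_notMem]
    rintro z ⟨hz1, hz2⟩
    have h1 : ‖z.1 - WithLp.toLp 2 fun i => A.L ^ 2 * (k i : ℝ)‖ ≤ Real.sqrt n * A.L ^ 2 := by
      refine ww_norm_le_coord _ _ (by positivity) fun i => ?_
      have e : (z.1 - WithLp.toLp 2 fun i => A.L ^ 2 * (k i : ℝ)) i = z.1 i - A.L ^ 2 * (k i : ℝ) := rfl
      rw [e, abs_le]
      have b1 := (hz2 i).1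
      have b2 := (hz2 i).2
      have : 0 ≤ A.L ^ 2 := by positivity
      constructor <;> linarith
    have h2 : Real.sqrt n * A.L ^ 2 ≤ W.Cb * A.L ^ 2 := mul_le_mul_of_nonneg_right hCb (by positivity)
    have h3 : W.Cb * A.L ^ 2 < ‖z.1 - WithLp.toLp 2 fun i => A.L ^ 2 * (k i : ℝ)‖ := hz1
    linarith

theorem ww_Cnb_nonneg (n : ℕ) (W : WCon) : 0 ≤ ww_Cnb n W := by
  unfold ww_Cnb
  positivity

/-- bounded overlap of the energies: `∑_k E_k ≤ C E` -/
theorem ww_energy_sum {W : WCon} {A : Arr n ι} {s : Finset ι} (h : A.In s W.K) (htc : ∀ α ∈ s, A.tc α = 0) (c : ι → ℂ) :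
    ∑' k : Fin n → ℤ, ENNReal.ofReal (energy (wwSub A s (A.L ^ 2) k) c) ≤ ENNReal.ofReal (ww_Cnb n W * energy s c) := by
  classical
  have e1 : ∀ k : Fin n → ℤ, ENNReal.ofReal (energy (wwSub A s (A.L ^ 2) k) c)
      = ∑ α ∈ s, (if α ∈ wwSub A s (A.L ^ 2) k then ENNReal.ofReal (‖c α‖ ^ 2) else 0) := by
    intro k
    unfold energy
    rw [ENNReal.ofReal_sum_of_nonneg (fun _ _ => by positivity), ← Finset.sum_filter]
    refine Finset.sum_congr ?_ fun _ _ => rfl
    ext α
    rw [Finset.mem_filter]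
    exact ⟨fun hα => ⟨ww_sub_subset _ _ _ _ hα, hα⟩, fun hα => hα.2⟩
  simp_rw [e1]
  rw [Summable.tsum_finsetSum (fun _ _ => ENNReal.summable)]
  calc ∑ α ∈ s, ∑' k : Fin n → ℤ, (if α ∈ wwSub A s (A.L ^ 2) k then ENNReal.ofReal (‖c α‖ ^ 2) else 0)
      ≤ ∑ α ∈ s, ENNReal.ofReal (ww_Cnb n W) * ENNReal.ofReal (‖c α‖ ^ 2) := by
        refine Finset.sum_le_sum fun α _ => ?_
        rw [tsum_eq_sum (s := wwWin W A α) (fun k hk => if_neg (fun hmem => hk (ww_mem_win h htc hmem)))]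
        calc ∑ k ∈ wwWin W A α, (if α ∈ wwSub A s (A.L ^ 2) k then ENNReal.ofReal (‖c α‖ ^ 2) else 0)
            ≤ ∑ _k ∈ wwWin W A α, ENNReal.ofReal (‖c α‖ ^ 2) := by
              refine Finset.sum_le_sum fun k _ => ?_
              split_ifs
              · exact le_rfl
              · exact zero_le
          _ = _ := by
              rw [Finset.sum_const, ww_win_card, nsmul_eq_mul]
              congr 1
              unfold ww_Cnb
              rw [ENNReal.ofReal_pow (Nat.cast_nonneg _), ENNReal.ofReal_natCast]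
              push_cast
              rfl
    _ = _ := by
        rw [← Finset.mul_sum, ← ENNReal.ofReal_sum_of_nonneg (fun _ _ => by positivity),
          ← ENNReal.ofReal_mul (ww_Cnb_nonneg n W)]
        rfl

/-- **(c) removal of the spatial box**: w:weak without the hypothesis on the spatial support, constant `ww_Cnb n W * Cind` -/
theorem ww_nobox {W : WCon} {X : WExp} {L D : ℝ} (hp : 2 ≤ X.p) (hC : 0 ≤ X.Cind) (hD : 0 ≤ D) (hCb : Real.sqrt n ≤ W.Cb)
    (h : WeakAt n W X L D) : WeakAt0 n W X (ww_Cnb n W) L D := by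
  intro ι A s c μ m χ g hAL hIn htc hm hχ hχ1 hg hadm
  subst hAL
  have hL := hIn.one_le
  have hL0 : 0 < A.L := by linarith
  have ha : 0 < A.L ^ 2 := by positivity
  set lam := wlev n X.a χ g A.L with hlam
  set K := X.Cind * m * A.L ^ (2 * (n : ℝ)) * g ^ (-X.p) * D ^ (-X.σ) with hK
  have hK0 : 0 ≤ K := by
    have p1 := Real.rpow_nonneg hL0.le (2 * (n : ℝ))
    have p2 := Real.rpow_nonneg hg.le (-X.p)
    have p3 := Real.rpow_nonneg hD (-X.σ)
    positivity
  set En := energy s c with hEn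
  have hEn0 : 0 ≤ En := ww_energy_nonneg s c
  have hpw : ∀ x : ℝ, 0 ≤ x → x ^ (X.p / 2) = x ^ (X.p / 2 - 1) * x := by
    intro x hx
    have : x ^ (X.p / 2 - 1 + 1) = x ^ (X.p / 2 - 1) * x ^ (1 : ℝ) := Real.rpow_add' hx (by linarith)
    rw [Real.rpow_one] at this
    rw [← this]
    congr 1
    ring
  have hcov : wset A s c lam ⊆ ⋃ k : Fin n → ℤ, wset A s c lam ∩ wwBox (A.L ^ 2) k :=
    fun z hz => mem_iUnion.2 ⟨_, hz, ww_mem_box ha z⟩
  have hk : ∀ k : Fin n → ℤ, μ (wset A s c lam ∩ wwBox (A.L ^ 2) k)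
      ≤ ENNReal.ofReal (K * En ^ (X.p / 2 - 1)) * ENNReal.ofReal (energy (wwSub A s (A.L ^ 2) k) c) := by
    intro k
    set t := wwSub A s (A.L ^ 2) k with ht
    have hts : t ⊆ s := ww_sub_subset _ _ _ _
    have h1 := h ι A t c (μ.restrict (wwBox (A.L ^ 2) k)) m χ g rfl (ww_In_mono hIn hts) (fun α hα => htc α (hts hα)) hm hχ hχ1 hg
      (ww_adm_restrict hadm hCb hts k)
    have h2 : wset A s c lam ∩ wwBox (A.L ^ 2) k ⊆ wset A t c lam ∩ wwBox (A.L ^ 2) k := by
      rintro z ⟨hz1, hz2⟩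
      refine ⟨?_, hz2⟩
      show lam ≤ ‖A.fld t c z‖
      rw [ht, ww_fld_box A s c hz2]
      exact hz1
    refine (measure_mono h2).trans ((Measure.le_restrict_apply _ _).trans (h1.trans ?_))
    have hq := Real.rpow_nonneg hEn0 (X.p / 2 - 1)
    rw [← ENNReal.ofReal_mul (by positivity)]
    refine ENNReal.ofReal_le_ofReal ?_
    have ht0 : 0 ≤ energy t c := ww_energy_nonneg t c
    have hle : energy t c ≤ En := ww_energy_mono c hts
    have hw : wrhs n X m A.L g D (energy t c) = K * energy t c ^ (X.p / 2) := rfl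
    rw [hw, hpw _ ht0, ← mul_assoc]
    have : energy t c ^ (X.p / 2 - 1) ≤ En ^ (X.p / 2 - 1) := Real.rpow_le_rpow ht0 hle (by linarith)
    gcongr
  refine (measure_mono hcov).trans ((measure_iUnion_le _).trans ((ENNReal.tsum_le_tsum hk).trans ?_))
  rw [ENNReal.tsum_mul_left]
  refine (mul_le_mul_right (ww_energy_sum hIn htc c) _).trans (le_of_eq ?_)
  have hq := Real.rpow_nonneg hEn0 (X.p / 2 - 1)
  rw [← ENNReal.ofReal_mul (by positivity)]
  congr 1
  have hw : wrhs n X m A.L g D (energy s c) = K * En ^ (X.p / 2) := rfl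
  rw [hw, hpw _ hEn0]
  ring

end Claimed.Agent.R257
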