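import Claimed.Agent.R257.Weak.HrNumA

/-!
# R257 / Weak / HrNumB : POST BP-257-WEAK-HRNUM, part B: THE NUMERICS OF `hang`            (helper59)

`wn_lev` (`L^{-(e+2)} ≤ λ`), `wn_g_le` (`g ≤ C₀ L^{e+1}`), `wn_ang_num` (the bound of `AngularWith` is `≤ wrhs/8`).   Prefix `wn_`.
-/

set_option autoImplicit false

namespace Claimed.Agent.R257

open Real

/-- `χ^a ≥ L^{-1}` -/
theorem wn_chi_ge {L χ a v₀ : ℝ} (hL : 1 ≤ L) (hχ : L ^ (-v₀) < χ) (ha : 0 ≤ a) (hav : a * v₀ ≤ 1) : L ^ (-1 : ℝ) ≤ χ ^ a := by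
  have hL0 : 0 < L := by linarith
  calc L ^ (-1 : ℝ) ≤ L ^ (-v₀ * a) := Real.rpow_le_rpow_of_exponent_le hL (by nlinarith)
    _ = (L ^ (-v₀)) ^ a := Real.rpow_mul hL0.le _ _
    _ ≤ χ ^ a := Real.rpow_le_rpow (Real.rpow_nonneg hL0.le _) hχ.le ha

/-- the active range gives `L^{-(e+2)} ≤ λ` -/
theorem wn_lev {n : ℕ} {L χ g D a v₀ : ℝ} (hL : 1 ≤ L) (hχ : L ^ (-v₀) < χ) (ha : 0 ≤ a) (hav : a * v₀ ≤ 1) (hD : 1 ≤ D) (hDL : D ≤ L)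
    (hg : 1 / D ≤ g) : L ^ (-(eex n + 2)) ≤ wlev n a χ g L := by
  have hL0 : 0 < L := by linarith
  have h1 := wn_chi_ge hL hχ ha hav
  have h2 : L ^ (-1 : ℝ) ≤ g := by
    rw [Real.rpow_neg_one]
    refine le_trans ?_ hg
    rw [one_div]
    exact inv_anti₀ (by linarith) hDL
  have h0 : 0 < L ^ (-1 : ℝ) := Real.rpow_pos_of_pos hL0 _
  unfold wlev
  calc L ^ (-(eex n + 2)) = L ^ (-1 : ℝ) * L ^ (-1 : ℝ) * L ^ (-eex n) := by
        rw [← Real.rpow_add hL0, ← Real.rpow_add hL0]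
        congr 1
        ring
    _ ≤ χ ^ a * g * L ^ (-eex n) :=
        mul_le_mul_of_nonneg_right (mul_le_mul h1 h2 h0.le (h0.le.trans h1)) (Real.rpow_nonneg hL0.le _)

/-- `g ≤ C₀ L^e χ^{-a} ≤ C₀ L^{e+1}` -/
theorem wn_g_le {L χ g a v₀ C₀ e : ℝ} (hL : 1 ≤ L) (hχ : L ^ (-v₀) < χ) (ha : 0 ≤ a) (hav : a * v₀ ≤ 1) (hC₀ : 0 ≤ C₀)
    (hg : g ≤ C₀ * L ^ e * χ ^ (-a)) : g ≤ C₀ * L ^ (e + 1) := by
  have hL0 : 0 < L := by linarith
  have hχ0 : 0 < χ := lt_trans (Real.rpow_pos_of_pos hL0 _) hχ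
  have h1 := wn_chi_ge hL hχ ha hav
  have h2 : χ ^ (-a) ≤ L := by
    rw [Real.rpow_neg hχ0.le]
    rw [Real.rpow_neg_one] at h1
    have := inv_anti₀ (inv_pos.2 hL0) h1
    rwa [inv_inv] at this
  calc g ≤ C₀ * L ^ e * χ ^ (-a) := hg
    _ ≤ C₀ * L ^ e * L := mul_le_mul_of_nonneg_left h2 (mul_nonneg hC₀ (Real.rpow_nonneg hL0.le _))
    _ = C₀ * L ^ (e + 1) := by rw [Real.rpow_add hL0, Real.rpow_one]; ring

/-- **the bound of `AngularWith` against the target** -/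
theorem wn_ang_num {n : ℕ} {p σ a Cind m L g D R X c₂ Ca CN C₀ pmax : ℝ} (hCind : 1 ≤ Cind) (hm : 0 < m) (hL : 1 ≤ L) (hg : 0 < g)
    (hD : 1 ≤ D) (hDL : D ≤ L) (hDX : D ≤ X) (hXR : X ≤ R) (hp : 0 ≤ p) (hpp : p ≤ pmax) (hσ : 0 < σ) (hσ1 : σ ≤ 1) (hσc : σ ≤ c₂ / 2)
    (hCa : 0 ≤ Ca) (hCN : 0 ≤ CN) (hC₀ : 1 ≤ C₀) (hgl : g ≤ C₀ * L ^ (eex n + 1))
    (h1 : 16 * Ca ≤ X ^ (c₂ / 2)) (h2 : 16 * CN * C₀ ^ pmax ≤ L) :
    Ca * ((1 : ℕ) : ℝ) ^ p * R ^ (-c₂) * wrhs n ⟨p, σ, a, Cind⟩ m L g 1 1 + CN * m * L ^ (-((eex n + 1) * pmax + 2))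
      ≤ wrhs n ⟨p, σ, a, Cind⟩ m L g D 1 / 8 := by
  have hL0 : 0 < L := by linarith
  have hX1 : 1 ≤ X := hD.trans hDX
  have hX0 : 0 < X := by linarith
  have hD0 : 0 < D := by linarith
  have he0 : 0 ≤ eex n := by unfold eex; positivity
  have hc₂ : 0 < c₂ := by linarith
  unfold wrhs
  simp only [Nat.cast_one, Real.one_rpow, mul_one]
  set Wb : ℝ := Cind * m * L ^ (2 * (n : ℝ)) * g ^ (-p) with hWb
  have hgp : 0 < g ^ (-p) := Real.rpow_pos_of_pos hg _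
  have hL2n : 1 ≤ L ^ (2 * (n : ℝ)) := Real.one_le_rpow hL (by positivity)
  have hWb0 : 0 < Wb := by rw [hWb]; positivity
  have hDσ0 : 0 < D ^ (-σ) := Real.rpow_pos_of_pos hD0 _
  -- first term
  have f1 : Ca * R ^ (-c₂) ≤ D ^ (-σ) / 16 := by
    have a1 : R ^ (-c₂) ≤ X ^ (-c₂) := Real.rpow_le_rpow_of_nonpos hX0 hXR (by linarith)
    have a2 : X ^ (-(c₂ / 2)) ≤ D ^ (-σ) :=
      calc X ^ (-(c₂ / 2)) ≤ X ^ (-σ) := Real.rpow_le_rpow_of_exponent_le hX1 (by linarith)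
        _ ≤ D ^ (-σ) := Real.rpow_le_rpow_of_nonpos hD0 hDX (by linarith)
    have a3 : X ^ (c₂ / 2) * X ^ (-c₂) = X ^ (-(c₂ / 2)) := by
      rw [← Real.rpow_add hX0]; congr 1; ring
    have a4 : 0 ≤ X ^ (-c₂) := Real.rpow_nonneg hX0.le _
    have : 16 * (Ca * R ^ (-c₂)) ≤ D ^ (-σ) :=
      calc 16 * (Ca * R ^ (-c₂)) ≤ 16 * (Ca * X ^ (-c₂)) := by
            have := mul_le_mul_of_nonneg_left a1 hCa
            linarith
        _ = 16 * Ca * X ^ (-c₂) := by ring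
        _ ≤ X ^ (c₂ / 2) * X ^ (-c₂) := mul_le_mul_of_nonneg_right h1 a4
        _ ≤ D ^ (-σ) := by rw [a3]; exact a2
    linarith
  -- second term
  have f2 : CN * m * L ^ (-((eex n + 1) * pmax + 2)) ≤ Wb * D ^ (-σ) / 16 := by
    have b1 : L ^ (-1 : ℝ) ≤ D ^ (-σ) :=
      calc L ^ (-1 : ℝ) ≤ L ^ (-σ) := Real.rpow_le_rpow_of_exponent_le hL (by linarith)
        _ ≤ D ^ (-σ) := Real.rpow_le_rpow_of_nonpos hD0 hDL (by linarith)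
    have hY1 : 1 ≤ C₀ * L ^ (eex n + 1) := by
      have := Real.one_le_rpow hL (show 0 ≤ eex n + 1 by linarith)
      nlinarith
    have b2 : (C₀ ^ pmax)⁻¹ * L ^ (-((eex n + 1) * pmax)) ≤ g ^ (-p) :=
      calc (C₀ ^ pmax)⁻¹ * L ^ (-((eex n + 1) * pmax)) = (C₀ * L ^ (eex n + 1)) ^ (-pmax) := by
            have e1 : (eex n + 1) * (-pmax) = -((eex n + 1) * pmax) := by ring
            rw [Real.mul_rpow (by linarith) (Real.rpow_nonneg hL0.le _), ← Real.rpow_mul hL0.le, e1,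
              Real.rpow_neg (show (0 : ℝ) ≤ C₀ by linarith) pmax]
        _ ≤ (C₀ * L ^ (eex n + 1)) ^ (-p) := Real.rpow_le_rpow_of_exponent_le hY1 (by linarith)
        _ ≤ g ^ (-p) := Real.rpow_le_rpow_of_nonpos hg hgl (by linarith)
    have hCp0 : 0 < C₀ ^ pmax := Real.rpow_pos_of_pos (by linarith) _
    have hLq0 : 0 < L ^ (-((eex n + 1) * pmax)) := Real.rpow_pos_of_pos hL0 _
    have hLm0 : 0 < L ^ (-1 : ℝ) := Real.rpow_pos_of_pos hL0 _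
    have b3 : m * ((C₀ ^ pmax)⁻¹ * L ^ (-((eex n + 1) * pmax))) * L ^ (-1 : ℝ) ≤ Wb * D ^ (-σ) := by
      have c1 : m ≤ Cind * m * L ^ (2 * (n : ℝ)) := by
        have : m ≤ Cind * m := by nlinarith
        nlinarith [mul_pos (lt_of_lt_of_le one_pos hCind) hm]
      rw [hWb]
      refine mul_le_mul (mul_le_mul c1 b2 (by positivity) (by positivity)) b1 hLm0.le (by positivity)
    have b4 : L ^ (-((eex n + 1) * pmax + 2)) = L ^ (-((eex n + 1) * pmax)) * L ^ (-1 : ℝ) * L⁻¹ := by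
      rw [← Real.rpow_neg_one L, ← Real.rpow_add hL0, ← Real.rpow_add hL0]
      congr 1
      ring
    have b5 : 16 * CN * L⁻¹ ≤ (C₀ ^ pmax)⁻¹ := by
      rw [← div_eq_mul_inv, div_le_iff₀ hL0, ← div_eq_inv_mul, le_div_iff₀ hCp0]
      exact h2
    have : 16 * (CN * m * L ^ (-((eex n + 1) * pmax + 2))) ≤ Wb * D ^ (-σ) :=
      calc 16 * (CN * m * L ^ (-((eex n + 1) * pmax + 2)))
          = m * (16 * CN * L⁻¹ * L ^ (-((eex n + 1) * pmax))) * L ^ (-1 : ℝ) := by rw [b4]; ring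
        _ ≤ m * ((C₀ ^ pmax)⁻¹ * L ^ (-((eex n + 1) * pmax))) * L ^ (-1 : ℝ) := by
            refine mul_le_mul_of_nonneg_right (mul_le_mul_of_nonneg_left ?_ hm.le) hLm0.le
            exact mul_le_mul_of_nonneg_right b5 hLq0.le
        _ ≤ Wb * D ^ (-σ) := b3
    linarith
  have f1' : Ca * R ^ (-c₂) * Wb ≤ Wb * D ^ (-σ) / 16 := by
    have := mul_le_mul_of_nonneg_right f1 hWb0.le
    linarith
  linarith

end Claimed.Agent.R257
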