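import Claimed.Agent.R257.Infra.Defs

/-!
# R257 / Weak / Defs : THE HUB `w:weak` (H weak.tex), definitions            (architect helper244)            -- SHARED, FROZEN

`WeakAt n W X L D` = Theorem w:weak (eq. (w:eq-weak)) at the scale `L` and the sparsity `D`, for ALL arrays of the class `W.K` (subarrays keep their original profiles: a subarray is a `Finset`),
ALL admissible measures (restricted, moved, pushed forward measures included), all `m, χ, g`.
The double induction of the paper is:   `Step : (∀ L' ≤ L/2, ∀ D', WeakAt L' D') → (∀ D' ≥ 2D, WeakAt L D') → WeakAt L D`   (outer = smaller scale, inner = same scale, `D` at least doubled).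

STYLE OF THE HUB: every estimate that enters is a `...With` proposition with EXPLICIT constants; every lemma lists the numerical inequalities it needs as hypotheses; the constants are chosen once, in `Weak/Choice.lean`,
in the order of H weak.tex l.56-110 (w:choices).
-/

set_option autoImplicit false

namespace Claimed.Agent.R257

open MeasureTheory Metric Set
open scoped ENNReal

variable {n : ℕ} {ι : Type}

/-- fixed conventions: class of arrays, order of the tube moment, native time range, radius of the spatial support in units of `L²` -/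
structure WCon where
  /-- class of the arrays -/
  K : Cls
  /-- order of the tube moment -/
  M : ℕ
  /-- native time range: `|t| ≤ T₀ L²` -/
  T₀ : ℝ
  /-- spatial support: a ball of radius `Cb L²` -/
  Cb : ℝ

/-- exponents and the induction constant of w:weak -/
structure WExp where
  /-- weak type exponent `p > 2` -/
  p : ℝ
  /-- sparsity gain `σ > 0` -/
  σ : ℝ
  /-- density exponent `0 < 2a < 1 - β` -/
  a : ℝ
  /-- the induction constant -/
  Cind : ℝ

/-- admissible measure for the subarray `s` of `A`: growth `m`, unit density `m χ`, tube moments `m L^{n+1}/D`, time range, NO condition on the spatial support -/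
structure Adm0 (W : WCon) (A : Arr n ι) (s : Finset ι) (μ : Measure (ST n)) (m χ D : ℝ) : Prop where
  grow : Grow μ m n
  slab : Slab μ (W.T₀ * A.L ^ 2)
  dens : Dens μ m χ
  mom : TubeMom μ A s m D W.M

/-- admissible measure of w:weak: `Adm0` and spatial support in a ball of radius `Cb L²` -/
structure Adm (W : WCon) (A : Arr n ι) (s : Finset ι) (μ : Measure (ST n)) (m χ D : ℝ) : Prop extends Adm0 W A s μ m χ D where
  box : ∃ c : E n, InBall μ c (W.Cb * A.L ^ 2)

/-- the level `λ = χ^a g L^{-e}` -/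
noncomputable def wlev (n : ℕ) (a χ g L : ℝ) : ℝ := χ ^ a * g * L ^ (-eex n)

/-- the level set `{|U| ≥ λ}` -/
def wset (A : Arr n ι) (s : Finset ι) (c : ι → ℂ) (lam : ℝ) : Set (ST n) := {z | lam ≤ ‖A.fld s c z‖}

/-- the right side of (w:eq-weak) -/
noncomputable def wrhs (n : ℕ) (X : WExp) (m L g D En : ℝ) : ℝ :=
  X.Cind * m * L ^ (2 * (n : ℝ)) * g ^ (-X.p) * D ^ (-X.σ) * En ^ (X.p / 2)

/-- **Theorem w:weak at `(L, D)`** -/
def WeakAt (n : ℕ) (W : WCon) (X : WExp) (L D : ℝ) : Prop :=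
  ∀ (ι : Type) (A : Arr n ι) (s : Finset ι) (c : ι → ℂ) (μ : Measure (ST n)) (m χ g : ℝ),
    A.L = L → A.In s W.K → (∀ α ∈ s, A.tc α = 0) → 0 ≤ m → 0 < χ → χ ≤ 1 → 0 < g → Adm W A s μ m χ D →
    μ (wset A s c (wlev n X.a χ g L)) ≤ ENNReal.ofReal (wrhs n X m L g D (energy s c))

/-- w:weak without the hypothesis on the spatial support (constant `C' Cind`) -/
def WeakAt0 (n : ℕ) (W : WCon) (X : WExp) (C' L D : ℝ) : Prop :=
  ∀ (ι : Type) (A : Arr n ι) (s : Finset ι) (c : ι → ℂ) (μ : Measure (ST n)) (m χ g : ℝ),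
    A.L = L → A.In s W.K → (∀ α ∈ s, A.tc α = 0) → 0 ≤ m → 0 < χ → χ ≤ 1 → 0 < g → Adm0 W A s μ m χ D →
    μ (wset A s c (wlev n X.a χ g L)) ≤ ENNReal.ofReal (C' * wrhs n X m L g D (energy s c))

/-- the outer induction hypothesis at `L` -/
def WOuter (n : ℕ) (W : WCon) (X : WExp) (L : ℝ) : Prop :=
  ∀ L' D' : ℝ, 1 ≤ D' → D' ≤ L' → L' ≤ L / 2 → WeakAt n W X L' D'

/-- the inner induction hypothesis at `(L, D)` -/
def WInner (n : ℕ) (W : WCon) (X : WExp) (L D : ℝ) : Prop :=
  ∀ D' : ℝ, 2 * D ≤ D' → D' ≤ L → WeakAt n W X L D'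

/-- **s:sparse with explicit constants**: `L^τ ≤ D ≤ L ⟹ ∑_q μ(q)^β sup_q |U|² ≤ C m^β L^{2n/(n+1)} D^{-cs} E` -/
def SparseWith (n : ℕ) (W : WCon) (cs τ C : ℝ) : Prop :=
  ∀ (ι : Type) (A : Arr n ι) (s : Finset ι) (c : ι → ℂ) (μ : Measure (ST n)) (m D : ℝ),
    A.In s W.K → (∀ α ∈ s, A.tc α = 0) → 0 ≤ m → Grow μ m n → Slab μ (W.T₀ * A.L ^ 2) → TubeMom μ A s m D W.M →
    A.L ^ τ ≤ D → D ≤ A.L →
    supN (bet n) μ (A.fld s c) ≤ ENNReal.ofReal (C * m ^ bet n * A.L ^ (2 * (n : ℝ) / ((n : ℝ) + 1)) * D ^ (-cs) * energy s c)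

/-- **d:power-loss with explicit constants**: `∑_q μ(q)^β sup_q |U|² ≤ C m^β L^{2n/(n+1)+ε} E` -/
def PowerLossWith (n : ℕ) (W : WCon) (ε C : ℝ) : Prop :=
  ∀ (ι : Type) (A : Arr n ι) (s : Finset ι) (c : ι → ℂ) (μ : Measure (ST n)) (m : ℝ),
    A.In s W.K → (∀ α ∈ s, A.tc α = 0) → 0 ≤ m → Grow μ m n → Slab μ (W.T₀ * A.L ^ 2) →
    supN (bet n) μ (A.fld s c) ≤ ENNReal.ofReal (C * m ^ bet n * A.L ^ (2 * (n : ℝ) / ((n : ℝ) + 1) + ε) * energy s c)

/-- **(d:array-sup) with explicit constant**: `‖U‖_∞ ≤ C E^{1/2}` -/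
def ArrSupWith (n : ℕ) (K : Cls) (C : ℝ) : Prop :=
  ∀ (ι : Type) (A : Arr n ι) (s : Finset ι) (c : ι → ℂ) (z : ST n), A.In s K → (∀ α ∈ s, A.tc α = 0) →
    ‖A.fld s c z‖ ≤ C * Real.sqrt (energy s c)

end Claimed.Agent.R257
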