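import Claimed.Agent.R257.Weak.HeavyDefs

/-!
# R257 / Weak / HeavyGeo : big cubes, bins, tube weights: elementary facts            (architect helper273)            CONTRACT
Every `sorry` is a leaf `L-257-WH-*`.  Statements are frozen (a FALSE statement: one line to helper273); auxiliary lemmas directly above your theorem, prefix `wh_`; edit only your block.
-/

set_option autoImplicit false

namespace Claimed.Agent.R257

open MeasureTheory Metric Set
open scoped ENNReal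

variable {n : ℕ} {ι : Type}

/-! ## LEAF L-257-WH-GEO1 : cubes and bins -/

/-- `Int.floor_eq_iff`, `le_div_iff₀`, `div_lt_iff₀`. -/
theorem wh_mem_cubeS_iff {a : ℝ} (ha : 0 < a) (z : ST n) (k : MI n) : z ∈ cubeS a k ↔ wmac a z = k := by
  have key : ∀ (x : ℝ) (j : ℤ), (a * (j : ℝ) ≤ x ∧ x < a * ((j : ℝ) + 1)) ↔ ⌊x / a⌋ = j := by
    intro x j
    rw [Int.floor_eq_iff, le_div_iff₀ ha, div_lt_iff₀ ha, mul_comm (j : ℝ) a, mul_comm ((j : ℝ) + 1) a]
  unfold cubeS wmac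
  rw [Set.mem_ofPred_eq, Prod.ext_iff, funext_iff]
  simp only [key]

/-- a vector all of whose coordinates are `≤ δ` has norm `≤ √n δ`. -/
theorem wh_norm_le_sqrt (x : E n) {δ : ℝ} (hδ : 0 ≤ δ) (h : ∀ i, |x i| ≤ δ) : ‖x‖ ≤ Real.sqrt n * δ := by
  rw [EuclideanSpace.norm_eq]
  have h1 : ∑ i, ‖x i‖ ^ 2 ≤ (n : ℝ) * δ ^ 2 := by
    calc ∑ i, ‖x i‖ ^ 2 ≤ ∑ _i : Fin n, δ ^ 2 := by
          refine Finset.sum_le_sum fun i _ => ?_
          rw [Real.norm_eq_abs]
          exact pow_le_pow_left₀ (abs_nonneg _) (h i) 2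
      _ = (n : ℝ) * δ ^ 2 := by simp
  calc Real.sqrt (∑ i, ‖x i‖ ^ 2) ≤ Real.sqrt ((n : ℝ) * δ ^ 2) := Real.sqrt_le_sqrt h1
    _ = Real.sqrt n * δ := by rw [Real.sqrt_mul (Nat.cast_nonneg n), Real.sqrt_sq hδ]

/-- sup metric of the product (`Prod.dist_eq`), `EuclideanSpace.dist_eq`, every coordinate differs by `≤ a/2`. -/
theorem wh_dist_ctr {a : ℝ} (ha : 0 < a) (hn : 1 ≤ n) (z : ST n) : dist z (wctr a (wmac a z)) ≤ Real.sqrt n * a / 2 := by
  have key : ∀ x : ℝ, |x - a * ((⌊x / a⌋ : ℝ) + 1 / 2)| ≤ a / 2 := by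
    intro x
    have h1 := Int.floor_le (x / a)
    have h2 := Int.lt_floor_add_one (x / a)
    rw [le_div_iff₀ ha] at h1
    rw [div_lt_iff₀ ha] at h2
    rw [abs_le]
    constructor <;> nlinarith
  have hs : (1 : ℝ) ≤ Real.sqrt n := by
    rw [Real.one_le_sqrt]
    exact_mod_cast hn
  rw [Prod.dist_eq, max_le_iff]
  constructor
  · rw [dist_eq_norm]
    have := wh_norm_le_sqrt (z.1 - (wctr a (wmac a z)).1) (by positivity : 0 ≤ a / 2) (fun i => by
      simpa [wctr, wmac] using key (z.1 i))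
    linarith
  · rw [Real.dist_eq]
    have := key z.2
    have h3 : a / 2 ≤ Real.sqrt n * a / 2 := by nlinarith
    simpa [wctr, wmac] using this.trans h3

/-- every coordinate differs by `≤ 1/(2R)`. -/
theorem wh_dist_binc {R : ℝ} (hR : 0 < R) (w : E n) : ‖w - wbinc R (wbin R w)‖ ≤ Real.sqrt n / (2 * R) := by
  have key : ∀ x : ℝ, |x - ((⌊R * x⌋ : ℝ) + 1 / 2) / R| ≤ 1 / (2 * R) := by
    intro x
    have h1 := Int.floor_le (R * x)
    have h2 := Int.lt_floor_add_one (R * x)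
    have e : x - ((⌊R * x⌋ : ℝ) + 1 / 2) / R = (R * x - (⌊R * x⌋ : ℝ) - 1 / 2) / R := by
      field_simp
      ring
    rw [e, abs_div, abs_of_pos hR, div_le_div_iff₀ hR (by positivity)]
    have h3 : |R * x - (⌊R * x⌋ : ℝ) - 1 / 2| ≤ 1 / 2 := by
      rw [abs_le]
      constructor <;> linarith
    nlinarith
  have := wh_norm_le_sqrt (w - wbinc R (wbin R w)) (by positivity : 0 ≤ 1 / (2 * R)) (fun i => by
    simpa [wbinc, wbin] using key (w i))
  calc _ ≤ Real.sqrt n * (1 / (2 * R)) := this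
    _ = _ := by ring

/-- `⌊·⌋` is measurable, the target is countable and discrete (`measurable_pi_iff`, `Int.measurable_floor`/`Measurable.floor`, `Measurable.prodMk`). -/
theorem wh_meas_wmac (a : ℝ) : Measurable (wmac a : ST n → MI n) := by
  unfold wmac
  refine Measurable.prodMk ?_ ?_
  · rw [measurable_pi_iff]
    intro i
    refine Measurable.floor ?_
    have h1 : Measurable fun z : ST n => z.1 i := by
      have : Continuous fun z : ST n => z.1 i := (EuclideanSpace.proj i : E n →L[ℝ] ℝ).continuous.comp continuous_fst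
      exact this.measurable
    exact h1.div_const a
  · exact (measurable_snd.div_const a).floor

/-- the occupied bins lie in a box: `|R ω_i| ≤ R Rω`, so `⌊R ω_i⌋` takes `≤ 2 R Rω + 2` values (`Fintype.piFinset (fun _ => Finset.Icc ..)`, `Int.card_Icc`). -/
theorem wh_card_bins (H : WH n ι) {Rω : ℝ} (hR : 0 ≤ H.R) (hRω : 0 ≤ Rω) (hfreq : ∀ α ∈ H.s, ‖H.A.om α‖ ≤ Rω) :
    (H.bins.card : ℝ) ≤ whNb n Rω H.R := by
  classical
  have hsub : H.bins ⊆ Fintype.piFinset fun _ : Fin n => Finset.Icc ⌊-(H.R * Rω)⌋ ⌊H.R * Rω⌋ := by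
    intro b hb
    obtain ⟨α, hα, rfl⟩ := Finset.mem_image.1 hb
    rw [Fintype.mem_piFinset]
    intro i
    have h1 : |H.A.om α i| ≤ Rω := by
      have := EuclideanSpace.norm_eq (H.A.om α)
      have h2 : ‖H.A.om α i‖ ≤ ‖H.A.om α‖ := PiLp.norm_apply_le (H.A.om α) i
      rw [Real.norm_eq_abs] at h2
      exact h2.trans (hfreq α hα)
    have h3 := abs_le.1 h1
    rw [Finset.mem_Icc]
    constructor
    · exact Int.floor_le_floor (by nlinarith)
    · exact Int.floor_le_floor (by nlinarith)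
  have hcard := Finset.card_le_card hsub
  rw [Fintype.card_piFinset, Finset.prod_const, Finset.card_univ, Fintype.card_fin, Int.card_Icc] at hcard
  have h5 : ⌊-(H.R * Rω)⌋ ≤ ⌊H.R * Rω⌋ := Int.floor_le_floor (by nlinarith [mul_nonneg hR hRω])
  have h6 : (((⌊H.R * Rω⌋ + 1 - ⌊-(H.R * Rω)⌋).toNat : ℕ) : ℝ) ≤ 2 * Rω * H.R + 2 := by
    have e : (((⌊H.R * Rω⌋ + 1 - ⌊-(H.R * Rω)⌋).toNat : ℕ) : ℤ) = ⌊H.R * Rω⌋ + 1 - ⌊-(H.R * Rω)⌋ := Int.toNat_of_nonneg (by omega)
    have e' : (((⌊H.R * Rω⌋ + 1 - ⌊-(H.R * Rω)⌋).toNat : ℕ) : ℝ) = (⌊H.R * Rω⌋ : ℝ) + 1 - (⌊-(H.R * Rω)⌋ : ℝ) := by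
      have : ((((⌊H.R * Rω⌋ + 1 - ⌊-(H.R * Rω)⌋).toNat : ℕ) : ℤ) : ℝ) = ((⌊H.R * Rω⌋ + 1 - ⌊-(H.R * Rω)⌋ : ℤ) : ℝ) := by rw [e]
      push_cast at this
      exact this
    rw [e']
    have h7 := Int.floor_le (H.R * Rω)
    have h8 := Int.lt_floor_add_one (-(H.R * Rω))
    linarith
  unfold whNb
  calc (H.bins.card : ℝ) ≤ (((⌊H.R * Rω⌋ + 1 - ⌊-(H.R * Rω)⌋).toNat ^ n : ℕ) : ℝ) := by exact_mod_cast hcard
    _ = (((⌊H.R * Rω⌋ + 1 - ⌊-(H.R * Rω)⌋).toNat : ℕ) : ℝ) ^ n := by push_cast; ring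
    _ ≤ _ := pow_le_pow_left₀ (Nat.cast_nonneg _) h6 n

/-! ## LEAF L-257-WH-GEO2 : the tube weight -/

theorem wh_tw_base_pos (A : Arr n ι) (hL : 0 < A.L) (α : ι) (z : ST n) : 1 ≤ 1 + A.tdist α z / A.L := by
  have : 0 ≤ A.tdist α z / A.L := div_nonneg (norm_nonneg _) hL.le
  linarith

theorem wh_tw_pos (A : Arr n ι) (hL : 0 < A.L) (M : ℕ) (α : ι) (z : ST n) : 0 < A.tw M α z := by
  unfold Arr.tw
  exact zpow_pos (by have := wh_tw_base_pos A hL α z; linarith) _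

theorem wh_tw_le_one (A : Arr n ι) (hL : 0 < A.L) (M : ℕ) (α : ι) (z : ST n) : A.tw M α z ≤ 1 := by
  unfold Arr.tw
  rw [zpow_neg, zpow_natCast]
  exact inv_le_one_of_one_le₀ (one_le_pow₀ (wh_tw_base_pos A hL α z))

theorem wh_tdist_cont (A : Arr n ι) (α : ι) : Continuous (A.tdist α) := by
  unfold Arr.tdist
  fun_prop

theorem wh_tw_cont (A : Arr n ι) (hL : 0 < A.L) (M : ℕ) (α : ι) : Continuous (A.tw M α) := by
  unfold Arr.tw
  have hc : Continuous fun z => 1 + A.tdist α z / A.L := continuous_const.add ((wh_tdist_cont A α).div_const _)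
  refine hc.zpow₀ _ fun z => Or.inl ?_
  have := wh_tw_base_pos A hL α z
  show 1 + A.tdist α z / A.L ≠ 0
  linarith

/-- triangle inequality: `|x - x'| ≤ dist z z'`, `|t - t'| ≤ dist z z'`. -/
theorem wh_tdist_le (A : Arr n ι) (α : ι) {Rω : ℝ} (hω : ‖A.om α‖ ≤ Rω) (z z' : ST n) :
    A.tdist α z ≤ A.tdist α z' + (1 + 2 * Rω) * dist z z' := by
  unfold Arr.tdist
  have h1 : ‖z.1 - z'.1‖ ≤ dist z z' := by
    rw [← dist_eq_norm, Prod.dist_eq]
    exact le_max_left _ _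
  have h2 : |z.2 - z'.2| ≤ dist z z' := by
    rw [← Real.dist_eq, Prod.dist_eq]
    exact le_max_right _ _
  have e : z.1 - A.y α - (2 * z.2) • A.om α = (z'.1 - A.y α - (2 * z'.2) • A.om α) + ((z.1 - z'.1) - (2 * (z.2 - z'.2)) • A.om α) := by
    rw [mul_sub, sub_smul]
    abel
  rw [e]
  have h3 : ‖(2 * (z.2 - z'.2)) • A.om α‖ ≤ 2 * dist z z' * Rω := by
    rw [norm_smul, Real.norm_eq_abs, abs_mul, abs_two]
    exact mul_le_mul (by linarith) hω (norm_nonneg _) (by have := dist_nonneg (x := z) (y := z'); positivity)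
  calc _ ≤ ‖z'.1 - A.y α - (2 * z'.2) • A.om α‖ + ‖(z.1 - z'.1) - (2 * (z.2 - z'.2)) • A.om α‖ := norm_add_le _ _
    _ ≤ ‖z'.1 - A.y α - (2 * z'.2) • A.om α‖ + (‖z.1 - z'.1‖ + ‖(2 * (z.2 - z'.2)) • A.om α‖) := by
        gcongr
        exact norm_sub_le _ _
    _ ≤ _ := by nlinarith

/-- `1 + a/L ≤ (1 + δ)(1 + a'/L)` for `a ≤ a' + δ L`. -/
theorem wh_tw_le (A : Arr n ι) (hL : 0 < A.L) (M : ℕ) (α : ι) {Rω : ℝ} (hω : ‖A.om α‖ ≤ Rω) (z z' : ST n) :
    A.tw M α z' ≤ (1 + (1 + 2 * Rω) * dist z z' / A.L) ^ M * A.tw M α z := by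
  have hR : 0 ≤ Rω := (norm_nonneg _).trans hω
  have h1 := wh_tdist_le A α hω z z'
  have hb := wh_tw_base_pos A hL α z
  have hb' := wh_tw_base_pos A hL α z'
  have hd : 0 ≤ (1 + 2 * Rω) * dist z z' / A.L := by have := dist_nonneg (x := z) (y := z'); positivity
  have h2 : 1 + A.tdist α z / A.L ≤ (1 + (1 + 2 * Rω) * dist z z' / A.L) * (1 + A.tdist α z' / A.L) := by
    have h3 : A.tdist α z / A.L ≤ A.tdist α z' / A.L + (1 + 2 * Rω) * dist z z' / A.L := by
      rw [← add_div]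
      exact div_le_div_of_nonneg_right h1 hL.le
    have h4 : 0 ≤ (1 + 2 * Rω) * dist z z' / A.L * (A.tdist α z' / A.L) := mul_nonneg hd (by linarith)
    nlinarith
  unfold Arr.tw
  rw [zpow_neg, zpow_natCast, zpow_neg, zpow_natCast]
  have h5 : (1 + A.tdist α z / A.L) ^ M ≤ (1 + (1 + 2 * Rω) * dist z z' / A.L) ^ M * (1 + A.tdist α z' / A.L) ^ M := by
    rw [← mul_pow]
    exact pow_le_pow_left₀ (by linarith) h2 M
  have p1 : 0 < (1 + A.tdist α z / A.L) ^ M := by positivity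
  have p2 : 0 < (1 + A.tdist α z' / A.L) ^ M := by positivity
  rw [← div_eq_mul_inv, le_div_iff₀ p1, mul_comm, ← div_eq_mul_inv, div_le_iff₀ p2]
  exact h5

/-- comparison of the weighted mass of a bin at a point and at the centre of its big cube, both directions (`wh_tw_le`, `wh_dist_ctr`). -/
theorem wh_mass_comp (H : WH n ι) {Rω κ : ℝ} (hn : 1 ≤ n) (hR : 0 < H.R) (hL : 0 < H.A.L) (hfreq : ∀ α ∈ H.s, ‖H.A.om α‖ ≤ Rω)
    (hκ : (1 + (1 + 2 * Rω) * (Real.sqrt n * H.R ^ 4 / 2) / H.A.L) ^ H.M ≤ κ) (b : BI n) (z : ST n) :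
    H.mass b z ≤ κ * H.mass b (wctr (H.R ^ 4) (wmac (H.R ^ 4) z)) ∧ H.mass b (wctr (H.R ^ 4) (wmac (H.R ^ 4) z)) ≤ κ * H.mass b z := by
  have hd := wh_dist_ctr (by positivity : 0 < H.R ^ 4) hn z
  have key : ∀ α ∈ H.bin b, ∀ z₁ z₂ : ST n, dist z₁ z₂ ≤ Real.sqrt n * H.R ^ 4 / 2 → H.A.tw H.M α z₂ ≤ κ * H.A.tw H.M α z₁ := by
    intro α hα z₁ z₂ h12
    have hα' : α ∈ H.s := (Finset.mem_filter.1 hα).1
    have hRω : 0 ≤ Rω := (norm_nonneg _).trans (hfreq α hα')
    refine (wh_tw_le H.A hL H.M α (hfreq α hα') z₁ z₂).trans (mul_le_mul_of_nonneg_right (le_trans ?_ hκ) (wh_tw_pos H.A hL _ _ _).le)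
    refine pow_le_pow_left₀ (by have := dist_nonneg (x := z₁) (y := z₂); positivity) ?_ _
    gcongr
  unfold WH.mass
  constructor
  · rw [Finset.mul_sum]
    refine Finset.sum_le_sum fun α hα => ?_
    have := key α hα _ z (by rw [dist_comm]; exact hd)
    calc ‖H.c α‖ ^ 2 * H.A.tw H.M α z ≤ ‖H.c α‖ ^ 2 * (κ * H.A.tw H.M α _) := mul_le_mul_of_nonneg_left this (by positivity)
      _ = _ := by ring
  · rw [Finset.mul_sum]
    refine Finset.sum_le_sum fun α hα => ?_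
    have := key α hα z _ hd
    calc ‖H.c α‖ ^ 2 * H.A.tw H.M α _ ≤ ‖H.c α‖ ^ 2 * (κ * H.A.tw H.M α z) := mul_le_mul_of_nonneg_left this (by positivity)
      _ = _ := by ring

/-! ## LEAF L-257-WH-GEO3 : measurability -/

theorem wh_atom_cont (A : Arr n ι) (α : ι) (hpf : Continuous (A.pf α)) : Continuous (A.atom α) := by
  unfold Arr.atom
  refine (continuous_const.mul ?_).mul (hpf.comp ?_)
  · unfold car
    fun_prop
  · unfold chart
    fun_prop

/-- atoms are continuous (`car` = `cexp` of a continuous function, `chart` continuous, the profile continuous). -/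
theorem wh_fld_cont (A : Arr n ι) (t : Finset ι) (c : ι → ℂ) (hpf : ∀ α ∈ t, Continuous (A.pf α)) : Continuous (A.fld t c) := by
  unfold Arr.fld
  exact continuous_finsetSum _ fun α hα => continuous_const.mul (wh_atom_cont A α (hpf α hα))

theorem wh_meas_wset (A : Arr n ι) (t : Finset ι) (c : ι → ℂ) (hpf : ∀ α ∈ t, Continuous (A.pf α)) (θ : ℝ) :
    MeasurableSet (wset A t c θ) := by
  unfold wset
  exact (isClosed_le continuous_const (wh_fld_cont A t c hpf).norm).measurableSet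

/-- preimage of a subset of a countable discrete space under `wmac`. -/
theorem wh_meas_light (H : WH n ι) (b : BI n) : MeasurableSet (H.light b) := by
  exact wh_meas_wmac (H.R ^ 4) (MeasurableSet.of_discrete (s := {k | b ∉ H.heavy k}))

/-- `{z | P (wmac a z)}` is measurable. -/
theorem wh_meas_mac (a : ℝ) (P : MI n → Prop) : MeasurableSet {z : ST n | P (wmac a z)} := by
  exact wh_meas_wmac a (MeasurableSet.of_discrete (s := {k | P k}))

/-- countable union over the big cubes `k` of `{wmac = k} ∩ {θ ≤ ‖fld (s_k) c z‖}`. -/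
theorem wh_meas_sel (H : WH n ι) (hpf : ∀ α ∈ H.s, Continuous (H.A.pf α)) (S : MI n → Set (BI n)) (θ : ℝ) :
    MeasurableSet {z | θ ≤ ‖H.sel S z‖} := by
  classical
  have e : {z | θ ≤ ‖H.sel S z‖} = ⋃ k : MI n, {z | wmac (H.R ^ 4) z = k} ∩
      wset H.A (H.s.filter fun α => wbin H.R (H.A.om α) ∈ S k) H.c θ := by
    ext z
    simp only [mem_iUnion, mem_inter_iff, mem_ofPred_eq]
    constructor
    · intro hz
      exact ⟨wmac (H.R ^ 4) z, rfl, hz⟩
    · rintro ⟨k, rfl, hz⟩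
      exact hz
  rw [e]
  refine MeasurableSet.iUnion fun k => (wh_meas_mac (H.R ^ 4) fun k' => k' = k).inter ?_
  exact wh_meas_wset _ _ _ (fun α hα => hpf α (Finset.mem_filter.1 hα).1) _

/-- finite sum of (indicator of an open set) × (continuous function): write `far` as `∑ α ∈ s, if ρ L < tdist then .. else 0` (`Finset.sum_filter`, `Measurable.ite`). -/
theorem wh_meas_far (H : WH n ι) (hL : 0 < H.A.L) (ρ : ℝ) : Measurable (H.far ρ) := by
  classical
  unfold WH.far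
  simp only [Finset.sum_filter]
  refine Finset.measurable_sum _ fun α _ => ?_
  refine Measurable.ite ?_ ?_ measurable_const
  · exact (isOpen_lt continuous_const (wh_tdist_cont H.A α)).measurableSet
  · exact (continuous_const.mul (wh_tw_cont H.A hL H.M α)).measurable

end Claimed.Agent.R257
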