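import Claimed.Agent.R257.Weak.AdaptTr
import Claimed.Agent.R257.Wall.Core

/-!
# R257 / Weak / Adapt : ADAPTER (post BP-257-WEAK-ADAPT), part 3: `WallStmt n W` FROM THE WALL BLOCK            (architect helper67)            CONTRACT
EXIT: `wad_main : 2 ≤ n → WallStmt n W`   (`WallStmt` of `Weak/Deep.lean`:  `HrWith ⟹ GeoWith ∧ PlateWith`), from `wall_main : WcStmt n U₀` (`Wall/Core.lean`, helper185).
CHOICES.  `U₀ = wadU W = max 1 (2 Rω)`;  narrow constants `wadN n U₀ = ⟨3n, n B₀, 1⟩`;  bins: `cls α = wbin R ω_α`, `cen b = wadVel (wbinc R b)`, `δ = 1/R`, `τ = wadTau n U₀ R`;  weights `|c_α|²`, labels `{α // α ∈ s}`;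
`Y = Φ '' (Y' ∩ box)`, `ν = wadNu μ m L x₀ (Y' ∩ box)`, `W = Wt`, `r0 = max 1 X^{Cw}`;  ONE slack `K = X^e`, `X = B D ≥ B₀`;  `Cgeo = Cp = e C`, `cg = 1`, `c₀ = 1/8`, `κ₀ = 1/(2 e (C+1))`, `L₀ = max 1 B^{2 e C}`.
Every `sorry` is a leaf `L-WAD-*`.  Statements are frozen (a FALSE statement: one line to helper67); auxiliary lemmas (prefix `wad_`) directly above your theorem; edit only your block.
-/

set_option autoImplicit false

namespace Claimed.Agent.R257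

open MeasureTheory Metric Set
open scoped ENNReal InnerProductSpace

variable {n : ℕ} {ι : Type}

/-- the bound of the velocities -/
noncomputable def wadU (W : WCon) : ℝ := max 1 (2 * W.K.Rω)

/-- the narrow constants chosen by the adapter -/
noncomputable def wadN (n : ℕ) (U₀ : ℝ) : NCon := ⟨3 * n, n * wqB0 n U₀, 1⟩

/-- the box which carries the measure -/
def wadBox (W : WCon) (L : ℝ) (x₀ : E n) : Set (ST n) := {z | ‖z.1 - x₀‖ ≤ W.Cb * L ^ 2 ∧ |z.2| ≤ W.T₀ * L ^ 2}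

/-! ### LEAF L-WAD-BOX -/

/-- (closed set: `isClosed_le`, `IsClosed.inter`) -/
theorem wad_box_meas (W : WCon) (L : ℝ) (x₀ : E n) : MeasurableSet (wadBox W L x₀) := by

  have h1 : IsClosed {z : ST n | ‖z.1 - x₀‖ ≤ W.Cb * L ^ 2} :=
    isClosed_le (by fun_prop) continuous_const
  have h2 : IsClosed {z : ST n | |z.2| ≤ W.T₀ * L ^ 2} :=
    isClosed_le (by fun_prop) continuous_const
  exact (h1.inter h2).measurableSet

/-- `x₀` from `h.adm.box`;  `(wadBox ..)ᶜ ⊆ {Cb L² < ‖z.1 - x₀‖} ∪ {T₀ L² < |z.2|}`, both null (`InBall`, `Slab` = `h.adm.slab`; `measure_union_null`, `measure_mono_null`).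
Finite: `μ univ ≤ μ box + μ boxᶜ`, `box ⊆ closedBall (x₀, 0) ρ` with `ρ = max 1 (max (Cb L²) (T₀ L²))` (sup metric of the product), `h.adm.grow`, `ENNReal.ofReal_lt_top`. -/
theorem wad_box {W : WCon} {X : WExp} {κ v₀ L₀ : ℝ} {A : Arr n ι} {s : Finset ι} {c : ι → ℂ} {μ : Measure (ST n)} {m χ g D : ℝ}
    (h : Act n W X κ v₀ L₀ A s c μ m χ g D) : ∃ x₀ : E n, μ (wadBox W A.L x₀)ᶜ = 0 ∧ μ univ ≠ ⊤ := by

  obtain ⟨x₀, hx₀⟩ := h.adm.box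
  have hslab := h.adm.slab
  have hnull : μ (wadBox W A.L x₀)ᶜ = 0 := by
    refine measure_mono_null ?_ (measure_union_null hx₀ hslab)
    intro z hz
    by_cases h1 : ‖z.1 - x₀‖ ≤ W.Cb * A.L ^ 2
    · right
      by_contra h2
      exact hz ⟨h1, not_lt.1 h2⟩
    · left
      exact not_le.1 h1
  refine ⟨x₀, hnull, ?_⟩
  obtain ⟨ρ, hρ⟩ : ∃ ρ, ρ = max 1 (max (W.Cb * A.L ^ 2) (W.T₀ * A.L ^ 2)) := ⟨_, rfl⟩
  have hsub : wadBox W A.L x₀ ⊆ closedBall ((x₀, 0) : ST n) ρ := by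
    rintro z ⟨h1, h2⟩
    rw [mem_closedBall, Prod.dist_eq]
    refine max_le ?_ ?_
    · rw [dist_eq_norm]
      exact h1.trans (by rw [hρ]; exact (le_max_left _ _).trans (le_max_right _ _))
    · rw [Real.dist_eq, sub_zero]
      exact h2.trans (by rw [hρ]; exact (le_max_right _ _).trans (le_max_right _ _))
  have h3 : μ univ ≤ ENNReal.ofReal (m * ρ ^ (n : ℝ)) := by
    calc μ univ ≤ μ (wadBox W A.L x₀ ∪ (wadBox W A.L x₀)ᶜ) := by rw [union_compl_self]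
      _ ≤ μ (wadBox W A.L x₀) + μ (wadBox W A.L x₀)ᶜ := measure_union_le _ _
      _ = μ (wadBox W A.L x₀) := by rw [hnull, add_zero]
      _ ≤ μ (closedBall ((x₀, 0) : ST n) ρ) := measure_mono hsub
      _ ≤ _ := h.adm.grow _ ρ (by rw [hρ]; exact le_max_left _ _)
  exact ne_top_of_le_ne_top ENNReal.ofReal_ne_top h3

/-! ### LEAF L-WAD-REAL : ENNReal arithmetic -/

/-- `M = MY.toReal > 0`, `MY = ofReal M`, `ofReal (M/2) ≤ μY`;  right side `≥ ofReal (X^{-P₀} m L^{n+1}/M) * (ofReal (m L^n))⁻¹ * ofReal (M/2) = ofReal (X^{-P₀} L / 2)`  (`L^((n:ℝ)+1) = L^n * L`: `Real.rpow_add_one`, `Real.rpow_natCast`;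
`ENNReal.ofReal_mul`, `ENNReal.ofReal_inv_of_pos`);  `1/K ≤ X^{-P₀}/2` from `hK` (`Real.rpow_neg`). -/
theorem wad_weight {m L X P₀ K : ℝ} {MY μY : ℝ≥0∞} (hm : 0 < m) (hL : 0 < L) (hX : 0 < X) (hK : 2 * X ^ P₀ ≤ K) (h0 : MY ≠ 0) (ht : MY ≠ ⊤)
    (hhalf : MY ≤ 2 * μY) :
    ENNReal.ofReal (L / K) ≤ ENNReal.ofReal (X ^ (-P₀) * m * L ^ ((n : ℝ) + 1) / MY.toReal) * ((ENNReal.ofReal (m * L ^ n))⁻¹ * μY) := by

  have hM : 0 < MY.toReal := ENNReal.toReal_pos h0 ht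
  have hc : 0 < m * L ^ n := by positivity
  have hXP : 0 < X ^ P₀ := Real.rpow_pos_of_pos hX _
  have hK0 : 0 < K := by linarith
  have h1 : ENNReal.ofReal (MY.toReal / 2) ≤ μY := by
    rw [ENNReal.ofReal_div_of_pos (by norm_num), ENNReal.ofReal_toReal ht]
    refine ENNReal.div_le_of_le_mul ?_
    rw [mul_comm]
    simpa using hhalf
  calc ENNReal.ofReal (L / K) ≤ ENNReal.ofReal (X ^ (-P₀) * m * L ^ ((n : ℝ) + 1) / MY.toReal * ((m * L ^ n)⁻¹ * (MY.toReal / 2))) := by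
        refine ENNReal.ofReal_le_ofReal ?_
        rw [Real.rpow_add_one hL.ne', Real.rpow_natCast, Real.rpow_neg hX.le]
        have e : (X ^ P₀)⁻¹ * m * (L ^ n * L) / MY.toReal * ((m * L ^ n)⁻¹ * (MY.toReal / 2)) = L / (2 * X ^ P₀) := by
          field_simp
        rw [e]
        exact div_le_div_of_nonneg_left hL.le (by positivity) hK
    _ = ENNReal.ofReal (X ^ (-P₀) * m * L ^ ((n : ℝ) + 1) / MY.toReal) * ((ENNReal.ofReal (m * L ^ n))⁻¹ * ENNReal.ofReal (MY.toReal / 2)) := by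
        rw [ENNReal.ofReal_mul (by positivity), ENNReal.ofReal_mul (by positivity), ENNReal.ofReal_inv_of_pos hc]
    _ ≤ _ := mul_le_mul_right (mul_le_mul_right h1 _) _

/-- (multiply by `ofReal (m L^n)`;  `L^(2*(n:ℝ)) = L^n * L^n`) -/
theorem wad_geo_back {m L KC : ℝ} {μY : ℝ≥0∞} (hm : 0 < m) (hL : 0 < L) (hK : 0 < KC)
    (h : ENNReal.ofReal (L ^ n / KC) ≤ (ENNReal.ofReal (m * L ^ n))⁻¹ * μY) : ENNReal.ofReal (m * L ^ (2 * (n : ℝ)) / KC) ≤ μY := by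

  have hc : 0 < m * L ^ n := by positivity
  have h1 : ENNReal.ofReal (m * L ^ n) * ENNReal.ofReal (L ^ n / KC) ≤ μY := by
    calc ENNReal.ofReal (m * L ^ n) * ENNReal.ofReal (L ^ n / KC)
        ≤ ENNReal.ofReal (m * L ^ n) * ((ENNReal.ofReal (m * L ^ n))⁻¹ * μY) := mul_le_mul_right h _
      _ = μY := by
          rw [← mul_assoc, ENNReal.mul_inv_cancel (by simpa using hc) ENNReal.ofReal_ne_top, one_mul]
  refine le_trans (le_of_eq ?_) h1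
  rw [← ENNReal.ofReal_mul hc.le]
  congr 1
  have e : L ^ (2 * (n : ℝ)) = L ^ n * L ^ n := by
    rw [two_mul, Real.rpow_add hL, Real.rpow_natCast]
  rw [e]
  ring

/-- (`wdK ≥ 1` because `X^(..) > 0`: `Nat.one_le_ceil_iff`/`Nat.ceil_pos`; `one_le_pow₀`) -/
theorem wad_R_one_le {X : ℝ} (hX : 0 < X) (u : ℝ) (Ja : ℕ) : 1 ≤ wdR X u Ja := by

  unfold wdR
  refine one_le_pow₀ ?_
  have h1 : 0 < wdK X u Ja := by
    unfold wdK
    exact Nat.ceil_pos.2 (Real.rpow_pos_of_pos hX _)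
  exact_mod_cast h1

/-- (`wqK0 ≤ 1`, `(1 + n B₀)² ≥ 1`, `R⁻¹ ^ 4 ≤ 1`) -/
theorem wad_tau_le_one (n : ℕ) {U₀ R : ℝ} (hU : 0 ≤ U₀) (hR : 1 ≤ R) : wadTau n U₀ R ≤ 1 := by

  unfold wadTau
  have hB : 0 ≤ wqB0 n U₀ := by unfold wqB0; positivity
  have hG : 1 ≤ wqG n U₀ := by
    unfold wqG
    have : 0 ≤ (n : ℝ) * wqB0 n U₀ ^ 2 := by positivity
    linarith
  have h1 : wqK0 n U₀ ≤ 1 := by
    unfold wqK0
    rw [div_le_one (by positivity)]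
    linarith
  have h0 : 0 ≤ wqK0 n U₀ := by unfold wqK0; positivity
  have h2 : 1 ≤ (1 + n * wqB0 n U₀) ^ 2 := by
    have : 0 ≤ (n : ℝ) * wqB0 n U₀ := by positivity
    nlinarith
  have h3 : wqK0 n U₀ / (1 + n * wqB0 n U₀) ^ 2 ≤ 1 := by
    rw [div_le_one (by positivity)]
    linarith
  have h4 : R⁻¹ ^ 4 ≤ 1 := pow_le_one₀ (by positivity) (inv_le_one_of_one_le₀ hR)
  have h5 : 0 ≤ wqK0 n U₀ / (1 + n * wqB0 n U₀) ^ 2 := by positivity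
  have h6 : 0 ≤ R⁻¹ ^ 4 := by positivity
  nlinarith

/-! ### LEAF L-WAD-BACK : the plates -/

/-- `Pl, Z` from `h`;  `Np = Pl.card`, enumeration `Pl.equivFin.symm`;  `P j` from `wad_plate` (`choose`);  `Y₀ = Y ∩ ⋃ j, {z | (P j).dist z ≤ Kc * L}` (measurable: `wad_plate_meas`, `MeasurableSet.iUnion`).
`Y ⊆ Y₀ ∪ (Y ∩ Φ ⁻¹' Z)`: for `z ∈ Y`, `Φ z ∉ Z` the plate `π` of `h` gives `(P j).dist z ≤ L * Kc`.   `μ (Y ∩ Φ ⁻¹' Z) ≤ ofReal (m L^n) * ν Z ≤ ofReal (m L^n) * (ofReal (3/4) * ν (Φ '' Y)) = ofReal (3/4) * μ Y`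
(`wad_nu_preimage`, `wad_nu_image`, `ENNReal.mul_inv_cancel`).   `μ Y = ofReal (1/4) * μ Y + ofReal (3/4) * μ Y`, cancel the finite term (`ENNReal.add_le_add_iff_right`). -/
theorem wad_plates_back {μ : Measure (ST n)} {m L : ℝ} (hm : 0 < m) (hL : 0 < L) (x₀ : E n) (Y : Set (ST n)) (hY : MeasurableSet Y)
    (hfin : μ Y ≠ ⊤) (Kc : ℝ) (h : WcPlates (wadNu μ m L x₀ Y) (wadPhi L x₀ '' Y) Kc) :
    ∃ (Np : ℕ) (P : Fin Np → Plate n) (Y₀ : Set (ST n)), MeasurableSet Y₀ ∧ Y₀ ⊆ Y ∧ (Np : ℝ) ≤ Kc ∧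
      (∀ j, ‖(P j).nx‖ ^ 2 + (P j).nt ^ 2 = 1) ∧ ENNReal.ofReal (1 / 4) * μ Y ≤ μ Y₀ ∧ ∀ z ∈ Y₀, ∃ j, (P j).dist z ≤ Kc * L := by

  classical
  obtain ⟨Pl, hcard, hnorm, Z, hZ, hcov⟩ := h
  have hc : 0 < m * L ^ n := by positivity
  have hex : ∀ j : Fin Pl.card, ∃ P : Plate n, ‖P.nx‖ ^ 2 + P.nt ^ 2 = 1 ∧
      ∀ z : ST n, P.dist z ≤ L * |∑ i, (Pl.equivFin.symm j).1.1 i * wadPhi L x₀ z i - (Pl.equivFin.symm j).1.2| :=
    fun j => wad_plate hL x₀ _ (hnorm _ (Pl.equivFin.symm j).2)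
  choose P hP1 hP2 using hex
  refine ⟨Pl.card, P, Y ∩ ⋃ j, {z | (P j).dist z ≤ Kc * L}, hY.inter (MeasurableSet.iUnion fun j => wad_plate_meas _ _),
    inter_subset_left, hcard, hP1, ?_, ?_⟩
  · have hsub : Y ⊆ (Y ∩ ⋃ j, {z | (P j).dist z ≤ Kc * L}) ∪ (Y ∩ wadPhi L x₀ ⁻¹' Z) := by
      intro z hz
      by_cases hzZ : wadPhi L x₀ z ∈ Z
      · right; exact ⟨hz, hzZ⟩
      · left
        refine ⟨hz, ?_⟩
        obtain ⟨π, hπ, hle⟩ := hcov _ ⟨z, hz, rfl⟩ hzZ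
        rw [mem_iUnion]
        refine ⟨Pl.equivFin ⟨π, hπ⟩, ?_⟩
        have h1 := hP2 (Pl.equivFin ⟨π, hπ⟩) z
        rw [Equiv.symm_apply_apply] at h1
        refine h1.trans ?_
        rw [mul_comm]
        exact mul_le_mul_of_nonneg_right hle hL.le
    have h2 : μ (Y ∩ wadPhi L x₀ ⁻¹' Z) ≤ ENNReal.ofReal (3 / 4) * μ Y := by
      calc μ (Y ∩ wadPhi L x₀ ⁻¹' Z) ≤ ENNReal.ofReal (m * L ^ n) * wadNu μ m L x₀ Y Z := wad_nu_preimage hm hL x₀ Y Z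
        _ ≤ ENNReal.ofReal (m * L ^ n) * (ENNReal.ofReal (3 / 4) * wadNu μ m L x₀ Y (wadPhi L x₀ '' Y)) := mul_le_mul_right hZ _
        _ = ENNReal.ofReal (3 / 4) * μ Y := by
            rw [wad_nu_image, mul_left_comm, ← mul_assoc (ENNReal.ofReal (m * L ^ n)),
              ENNReal.mul_inv_cancel (by simpa using hc) ENNReal.ofReal_ne_top, one_mul]
    have h3 : μ Y ≤ μ (Y ∩ ⋃ j, {z | (P j).dist z ≤ Kc * L}) + ENNReal.ofReal (3 / 4) * μ Y :=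
      (measure_mono hsub).trans ((measure_union_le _ _).trans (add_le_add le_rfl h2))
    have h4 : μ Y = ENNReal.ofReal (1 / 4) * μ Y + ENNReal.ofReal (3 / 4) * μ Y := by
      rw [← add_mul, ← ENNReal.ofReal_add (by norm_num) (by norm_num)]
      norm_num
    rw [h4] at h3
    have h5 : ENNReal.ofReal (3 / 4) * μ Y ≠ ⊤ := ENNReal.mul_ne_top ENNReal.ofReal_ne_top hfin
    rw [← h4] at h3
    have h6 : ENNReal.ofReal (1 / 4) * μ Y + ENNReal.ofReal (3 / 4) * μ Y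
        ≤ μ (Y ∩ ⋃ j, {z | (P j).dist z ≤ Kc * L}) + ENNReal.ofReal (3 / 4) * μ Y := by
      rw [← h4]; exact h3
    exact (ENNReal.add_le_add_iff_right h5).1 h6
  · rintro z ⟨-, hz⟩
    rw [mem_iUnion] at hz
    exact hz

/-! ### LEAF L-WAD-NUM : the numerology -/

theorem wad_num_R_le {X u : ℝ} (hX : 1 ≤ X) (hu : 0 ≤ u) {Ja : ℕ} (hJ : 1 ≤ Ja) : wdR X u Ja ≤ 2 ^ Ja * X ^ u := by
  have hX0 : 0 ≤ X := by linarith
  have hJR : (0 : ℝ) < Ja := by exact_mod_cast hJ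
  have h1 : 1 ≤ X ^ (u / (Ja : ℝ)) := Real.one_le_rpow hX (by positivity)
  have h2 : ((wdK X u Ja : ℕ) : ℝ) ≤ 2 * X ^ (u / (Ja : ℝ)) := by
    have := (Nat.ceil_lt_add_one (show 0 ≤ X ^ (u / (Ja : ℝ)) by linarith)).le
    unfold wdK
    linarith
  unfold wdR
  calc ((wdK X u Ja : ℕ) : ℝ) ^ Ja ≤ (2 * X ^ (u / (Ja : ℝ))) ^ Ja := pow_le_pow_left₀ (Nat.cast_nonneg _) h2 _
    _ = 2 ^ Ja * X ^ u := by
        rw [mul_pow, ← Real.rpow_natCast (X ^ (u / (Ja : ℝ))), ← Real.rpow_mul hX0, div_mul_cancel₀ _ hJR.ne']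

theorem wad_num_R_pos {X u : ℝ} (hX : 0 < X) (Ja : ℕ) : 0 < wdR X u Ja := by
  unfold wdR wdK
  have : 0 < ⌈X ^ (u / (Ja : ℝ))⌉₊ := Nat.ceil_pos.2 (Real.rpow_pos_of_pos hX _)
  have h2 : (0 : ℝ) < (⌈X ^ (u / (Ja : ℝ))⌉₊ : ℕ) := by exact_mod_cast this
  positivity

/-- `e = 4 u + P₀ + Cw + 1`, `B₀ = 2 + n^n + 2^(4 Ja) (1 + n wqB0)² / wqK0 + |Cb| + |T₀|`.   For `X ≥ B₀ ≥ 1`: `X^e = X * X^(e-1) ≥ B₀ X^(e-1)` and `X^(e-1) ≥ 1, X^(4u), X^P₀, X^Cw` (`Real.rpow_le_rpow_of_exponent_le`).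
`R = wdR X u Ja ≤ (X^(u/Ja) + 1)^Ja ≤ (2 X^(u/Ja))^Ja = 2^Ja X^u` (`Nat.ceil_lt_add_one`, `Real.rpow_natCast`, `← Real.rpow_mul`; cf. `wn_R_le` in `Weak/HrNumA.lean`), `R⁴ ≤ 2^(4Ja) X^(4u)`;
`1 / wadTau = (1 + n wqB0)² R⁴ / wqK0`. -/
theorem wad_num (n : ℕ) (U₀ T₀ Cb : ℝ) (hU : 1 ≤ U₀) (E : DExp) (hE : E.Ok) :
    ∃ e B₀ : ℝ, 1 ≤ e ∧ 1 ≤ B₀ ∧ ∀ X : ℝ, B₀ ≤ X →
      2 ≤ X ^ e ∧ (n : ℝ) ^ n ≤ X ^ e ∧ wdR X E.u E.Ja ≤ X ^ e ∧ 1 / X ^ e ≤ wadTau n U₀ (wdR X E.u E.Ja) ∧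
      Cb ≤ X ^ e ∧ T₀ ≤ X ^ e ∧ 2 * X ^ E.P₀ ≤ X ^ e ∧ X ^ E.Cw ≤ X ^ e := by
  have hu := hE.u
  have hJa := hE.Ja
  have hP₀ := hE.P₀
  have hCw := hE.Cw
  have hn0 : (0 : ℝ) ≤ n := Nat.cast_nonneg n
  have hB0 : 0 < wqB0 n U₀ := by unfold wqB0; positivity
  have hG : 0 < wqG n U₀ := by unfold wqG; positivity
  have hK0 : 0 < wqK0 n U₀ := by unfold wqK0; positivity
  obtain ⟨c, hc⟩ : ∃ c : ℝ, c = (1 + n * wqB0 n U₀) ^ 2 / wqK0 n U₀ := ⟨_, rfl⟩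
  have hc0 : 0 < c := by rw [hc]; positivity
  obtain ⟨e, he⟩ : ∃ e : ℝ, e = 4 * E.u + E.P₀ + E.Cw + 1 := ⟨_, rfl⟩
  obtain ⟨B₀, hB₀⟩ : ∃ B₀ : ℝ, B₀ = 2 + (n : ℝ) ^ n + 2 ^ E.Ja + 2 ^ (4 * E.Ja) * c + |Cb| + |T₀| := ⟨_, rfl⟩
  have hnn : (0 : ℝ) ≤ (n : ℝ) ^ n := by positivity
  have h2J : (0 : ℝ) < 2 ^ E.Ja := by positivity
  have h24 : (0 : ℝ) < 2 ^ (4 * E.Ja) * c := by positivity
  have hB2 : 2 ≤ B₀ := by rw [hB₀]; linarith [abs_nonneg Cb, abs_nonneg T₀]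
  refine ⟨e, B₀, by rw [he]; linarith, by linarith, ?_⟩
  intro X hX
  have hX1 : 1 ≤ X := by linarith
  have hX0 : 0 < X := by linarith
  have hkey : ∀ a f : ℝ, a ≤ B₀ → 0 ≤ f → f ≤ e - 1 → a * X ^ f ≤ X ^ e := by
    intro a f ha hf hfe
    have hXf : 0 < X ^ f := Real.rpow_pos_of_pos hX0 _
    calc a * X ^ f ≤ X * X ^ f := mul_le_mul_of_nonneg_right (ha.trans hX) hXf.le
      _ ≤ X * X ^ (e - 1) := mul_le_mul_of_nonneg_left (Real.rpow_le_rpow_of_exponent_le hX1 hfe) hX0.le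
      _ = X ^ e := by
          nth_rewrite 1 [← Real.rpow_one X]
          rw [← Real.rpow_add hX0]
          congr 1; ring
  have hkey0 : ∀ a : ℝ, a ≤ B₀ → a ≤ X ^ e := by
    intro a ha
    have := hkey a 0 ha le_rfl (by rw [he]; linarith)
    rwa [Real.rpow_zero, mul_one] at this
  have hR := wad_num_R_le hX1 hu.le hJa
  have hRpos : 0 < wdR X E.u E.Ja := wad_num_R_pos hX0 _
  refine ⟨hkey0 2 hB2, hkey0 _ (by rw [hB₀]; linarith [abs_nonneg Cb, abs_nonneg T₀]), ?_, ?_,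
    hkey0 _ (by rw [hB₀]; linarith [abs_nonneg T₀, le_abs_self Cb]),
    hkey0 _ (by rw [hB₀]; linarith [abs_nonneg Cb, le_abs_self T₀]),
    hkey 2 _ hB2 hP₀ (by rw [he]; linarith), ?_⟩
  · exact hR.trans (hkey _ _ (by rw [hB₀]; linarith [abs_nonneg Cb, abs_nonneg T₀]) hu.le (by rw [he]; linarith))
  · obtain ⟨R, hRdef⟩ : ∃ R, R = wdR X E.u E.Ja := ⟨_, rfl⟩
    rw [← hRdef] at hR hRpos ⊢
    have hτ : wadTau n U₀ R = 1 / (c * R ^ 4) := by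
      unfold wadTau
      rw [hc]
      field_simp
    rw [hτ]
    refine one_div_le_one_div_of_le (by positivity) ?_
    have hR4 : R ^ 4 ≤ 2 ^ (4 * E.Ja) * X ^ (4 * E.u) := by
      calc R ^ 4 ≤ (2 ^ E.Ja * X ^ E.u) ^ 4 := pow_le_pow_left₀ hRpos.le hR 4
        _ = 2 ^ (4 * E.Ja) * X ^ (4 * E.u) := by
            rw [mul_pow, ← pow_mul, mul_comm E.Ja 4, ← Real.rpow_natCast (X ^ E.u), ← Real.rpow_mul hX0.le]
            congr 2
            push_cast; ring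
    calc c * R ^ 4 ≤ c * (2 ^ (4 * E.Ja) * X ^ (4 * E.u)) := mul_le_mul_of_nonneg_left hR4 hc0.le
      _ = (2 ^ (4 * E.Ja) * c) * X ^ (4 * E.u) := by ring
      _ ≤ X ^ e := hkey _ _ (by rw [hB₀]; linarith [abs_nonneg Cb, abs_nonneg T₀]) (by linarith) (by rw [he]; linarith)
  · have := hkey 1 _ (by linarith) hCw (by rw [he]; linarith)
    rwa [one_mul] at this

/-- `((B D)^e)^C = B^(eC) D^(eC)`;  `B^(eC) = (B^(2eC))^(1/2) ≤ L^(1/2)`;  `D^(eC) ≤ L^(κ e C) ≤ L^(1/2)` because `κ e C ≤ C/(2(C+1)) ≤ 1/2`. -/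
theorem wad_num_L {e κ B L D : ℝ} (C : ℕ) (he : 1 ≤ e) (hκ0 : 0 < κ) (hκ : κ ≤ 1 / (2 * e * ((C : ℝ) + 1))) (hB : 1 ≤ B)
    (hL : max 1 (B ^ (2 * e * (C : ℝ))) ≤ L) (hD1 : 1 ≤ D) (hD : D < L ^ κ) : ((B * D) ^ e) ^ C ≤ L := by
  have hL1 : 1 ≤ L := (le_max_left _ _).trans hL
  have hBL : B ^ (2 * e * (C : ℝ)) ≤ L := (le_max_right _ _).trans hL
  have hL0 : 0 < L := by linarith
  have hB0 : 0 < B := by linarith
  have hD0 : 0 < D := by linarith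
  have hC0 : (0 : ℝ) ≤ C := Nat.cast_nonneg C
  have he0 : 0 < e := by linarith
  have e1 : ((B * D) ^ e) ^ C = B ^ (e * C) * D ^ (e * C) := by
    rw [← Real.rpow_natCast, ← Real.rpow_mul (by positivity), Real.mul_rpow hB0.le hD0.le]
  rw [e1]
  have h1 : B ^ (e * C) ≤ L ^ (1 / 2 : ℝ) := by
    calc B ^ (e * C) = (B ^ (2 * e * (C : ℝ))) ^ (1 / 2 : ℝ) := by
          rw [← Real.rpow_mul hB0.le]; congr 1; ring
      _ ≤ L ^ (1 / 2 : ℝ) := Real.rpow_le_rpow (Real.rpow_nonneg hB0.le _) hBL (by norm_num)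
  have h2 : D ^ (e * C) ≤ L ^ (1 / 2 : ℝ) := by
    calc D ^ (e * C) ≤ (L ^ κ) ^ (e * C) := Real.rpow_le_rpow hD0.le hD.le (by positivity)
      _ = L ^ (κ * (e * C)) := (Real.rpow_mul hL0.le _ _).symm
      _ ≤ L ^ (1 / 2 : ℝ) := by
          refine Real.rpow_le_rpow_of_exponent_le hL1 ?_
          calc κ * (e * C) ≤ 1 / (2 * e * ((C : ℝ) + 1)) * (e * C) :=
                mul_le_mul_of_nonneg_right hκ (by positivity)
            _ = C / (2 * ((C : ℝ) + 1)) := by field_simp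
            _ ≤ 1 / 2 := by
                rw [div_le_div_iff₀ (by positivity) (by norm_num)]
                linarith
  calc B ^ (e * C) * D ^ (e * C) ≤ L ^ (1 / 2 : ℝ) * L ^ (1 / 2 : ℝ) :=
        mul_le_mul h1 h2 (Real.rpow_nonneg hD0.le _) (Real.rpow_nonneg hL0.le _)
    _ = L := by rw [← Real.rpow_add hL0]; norm_num

/-! ### the assembly -/

/-- **one instance of the active range, with the slack `K`** -/
theorem wad_act (hn : 2 ≤ n) (U₀ : ℝ) (hU : 1 ≤ U₀) (hWc : WcStmt n U₀) :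
    ∃ C : ℕ, ∀ (W : WCon), 2 * W.K.Rω ≤ U₀ → ∀ (X : WExp) (κ v₀ L₀ B : ℝ) (E : DExp) (ι : Type) (A : Arr n ι) (s : Finset ι) (c : ι → ℂ)
      (μ : Measure (ST n)) (m χ g D : ℝ), Act n W X κ v₀ L₀ A s c μ m χ g D → 0 < B →
      ∀ Y', WHOut (wdH n W X.a E B A s c μ m χ g D) ((B * D) ^ E.Cw) (wdNar (wadN n U₀) (wdR (B * D) E.u E.Ja)) Y' →
      ∀ K : ℝ, 2 ≤ K → (n : ℝ) ^ n ≤ K → wdR (B * D) E.u E.Ja ≤ K → 1 / K ≤ wadTau n U₀ (wdR (B * D) E.u E.Ja) →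
        W.Cb ≤ K → W.T₀ ≤ K → 2 * (B * D) ^ E.P₀ ≤ K → (B * D) ^ E.Cw ≤ K → K ^ C ≤ A.L →
        ENNReal.ofReal (m * A.L ^ (2 * (n : ℝ)) / K ^ C) ≤ μ (wset A s c (wlev n X.a χ g A.L)) ∧
        ∃ (Np : ℕ) (P : Fin Np → Plate n) (Y₀ : Set (ST n)), MeasurableSet Y₀ ∧ Y₀ ⊆ wset A s c (wlev n X.a χ g A.L) ∧
          (Np : ℝ) ≤ K ^ C ∧ (∀ j, ‖(P j).nx‖ ^ 2 + (P j).nt ^ 2 = 1) ∧
          ENNReal.ofReal (1 / 8) * μ (wset A s c (wlev n X.a χ g A.L)) ≤ μ Y₀ ∧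
          ∀ z ∈ Y₀, ∃ j, (P j).dist z ≤ K ^ C * A.L := by

  classical
  obtain ⟨C, hC⟩ := hWc
  refine ⟨C, ?_⟩
  intro W hRω X κ v₀ L₀ B E ι A s c μ m χ g D hAct hB Y' hOut K hK2 hKn hKR hKτ hKb hKT hKP hKw hKL
  obtain ⟨x₀, hnull, hfin⟩ := wad_box hAct
  have hL1 : 1 ≤ A.L := hAct.cls.one_le
  have hL0 : 0 < A.L := by linarith
  have hm := hAct.hm
  have hD1 := hAct.hD1
  have hX0 : 0 < B * D := by positivity
  have hK0 : 0 < K := by linarith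
  obtain ⟨R, hR⟩ : ∃ R, R = wdR (B * D) E.u E.Ja := ⟨_, rfl⟩
  rw [← hR] at hOut hKR hKτ
  have hR1 : 1 ≤ R := by rw [hR]; exact wad_R_one_le hX0 _ _
  have hR0 : 0 < R := by linarith
  have hHR : (wdH n W X.a E B A s c μ m χ g D).R = R := hR.symm
  obtain ⟨Yb, hYb⟩ : ∃ Yb, Yb = Y' ∩ wadBox W A.L x₀ := ⟨_, rfl⟩
  have hYbm : MeasurableSet Yb := by rw [hYb]; exact hOut.meas.inter (wad_box_meas _ _ _)
  have hYbY' : Yb ⊆ Y' := by rw [hYb]; exact inter_subset_left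
  have hYbμ : μ Yb = μ Y' := by
    refine le_antisymm (measure_mono hYbY') ?_
    calc μ Y' ≤ μ (Yb ∪ (wadBox W A.L x₀)ᶜ) := measure_mono (by
          intro z hz
          by_cases h : z ∈ wadBox W A.L x₀
          · left; rw [hYb]; exact ⟨hz, h⟩
          · right; exact h)
      _ ≤ μ Yb + μ (wadBox W A.L x₀)ᶜ := measure_union_le _ _
      _ = μ Yb := by rw [hnull, add_zero]
  have hYbfin : μ Yb ≠ ⊤ := ne_top_of_le_ne_top hfin (measure_mono (subset_univ _))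
  have hMYfin : μ (wset A s c (wlev n X.a χ g A.L)) ≠ ⊤ := ne_top_of_le_ne_top hfin (measure_mono (subset_univ _))
  have hMY0 : μ (wset A s c (wlev n X.a χ g A.L)) ≠ 0 := (lt_of_le_of_lt zero_le hAct.big).ne'
  have hhalf : μ (wset A s c (wlev n X.a χ g A.L)) ≤ 2 * μ Yb := by rw [hYbμ]; exact hOut.half
  have hνfin : IsFiniteMeasure (wadNu μ m A.L x₀ Yb) := wad_nu_finite hm hL0 x₀ hYbfin
  have hνY : wadNu μ m A.L x₀ Yb (wadPhi A.L x₀ '' Yb) = (ENNReal.ofReal (m * A.L ^ n))⁻¹ * μ Yb := wad_nu_image _ _ _ _ _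
  have hWt : 0 < (B * D) ^ (-E.P₀) * m * A.L ^ ((n : ℝ) + 1) / (μ (wset A s c (wlev n X.a χ g A.L))).toReal := by
    have := ENNReal.toReal_pos hMY0 hMYfin
    positivity
  have main := hC K A.L hK2 hKL (wadNu μ m A.L x₀ Yb)
    (fun z r hr => (wad_nu_ball (by omega) hm hL1 hAct.adm.grow x₀ Yb z r hr).trans
      (ENNReal.ofReal_le_ofReal (mul_le_mul_of_nonneg_right hKn (by positivity))))
    (ι := {α // α ∈ s}) (β := BI n) (fun α => ‖c α‖ ^ 2) (fun α => by positivity)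
    (by
      rw [Finset.sum_coe_sort s (fun α => ‖c α‖ ^ 2)]
      exact hAct.en.le)
    (fun α => wadPhi A.L x₀ (A.y α, 0)) (fun α => wadVel (A.om α))
    (fun α i => (wad_vel_le _ i).trans (by
      have := hAct.cls.freq α α.2
      linarith))
    (fun α => wbin R (A.om α)) (fun b => wadVel (wbinc R b)) (1 / R) (wadTau n U₀ R)
    (one_div_le_one_div_of_le hR0 hKR) (by rw [div_le_one hR0]; exact hR1) hKτ (wad_tau_le_one n (by linarith) hR1)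
    (fun α i => wad_cen hR0 _ i)
    (wadPhi A.L x₀ '' Yb)
    (by
      rintro _ ⟨z, hz, rfl⟩
      rw [hYb] at hz
      exact wad_phi_box hL0 hK0.le hKb hKT x₀ z hz.2.1 hz.2.2)
    ((B * D) ^ (-E.P₀) * m * A.L ^ ((n : ℝ) + 1) / (μ (wset A s c (wlev n X.a χ g A.L))).toReal) hWt
    (by rw [hνY]; exact wad_weight hm hL0 hX0 hKP hMY0 hMYfin hhalf)
    (max 1 ((B * D) ^ E.Cw)) (le_max_left _ _) (max_le (by linarith) hKw)
    (fun y => (wdH n W X.a E B A s c μ m χ g D).heavy (wmac (R ^ 4) (wadPsi A.L x₀ y)))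
    (by
      rintro _ ⟨z, hz, rfl⟩ b hb
      rw [wad_psi_phi hL0.ne'] at hb
      have h1 := hOut.near z (hYbY' hz) b (by rw [hHR]; exact hb)
      have h2 := wad_H1 (wdH n W X.a E B A s c μ m χ g D) x₀ ((B * D) ^ E.Cw) (max 1 ((B * D) ^ E.Cw)) hL0 (le_max_right _ _) b z
      rw [hHR] at h2
      refine h1.trans (h2.trans (le_of_eq (Finset.sum_congr rfl fun α _ => ?_)))
      congr)
    (by
      rintro _ ⟨z, hz, rfl⟩
      rw [wad_psi_phi hL0.ne']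
      have h1 := hOut.broad z (hYbY' hz)
      rw [hHR] at h1
      have h2 := (wad_not_narrow hn U₀ R (by linarith) hR0 _ h1).1
      rwa [Set.image_image] at h2)
    (by
      rintro _ ⟨z, hz, rfl⟩
      rw [wad_psi_phi hL0.ne']
      have h1 := hOut.broad z (hYbY' hz)
      rw [hHR] at h1
      have h2 := (wad_not_narrow hn U₀ R (by linarith) hR0 _ h1).2
      rwa [Set.image_image] at h2)
  obtain ⟨hgeo, hpl⟩ := main
  have hsub : Yb ⊆ wset A s c (wlev n X.a χ g A.L) := hYbY'.trans hOut.sub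
  constructor
  · rw [hνY] at hgeo
    exact (wad_geo_back hm hL0 (by positivity) hgeo).trans (measure_mono hsub)
  · obtain ⟨Np, P, Y₀, b1, b2, b3, b4, b5, b6⟩ := wad_plates_back hm hL0 x₀ Yb hYbm hYbfin (K ^ C) hpl
    refine ⟨Np, P, Y₀, b1, b2.trans hsub, b3, b4, ?_, b6⟩
    refine le_trans ?_ b5
    calc ENNReal.ofReal (1 / 8) * μ (wset A s c (wlev n X.a χ g A.L))
        ≤ ENNReal.ofReal (1 / 8) * (2 * μ Yb) := mul_le_mul_right hhalf _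
      _ = ENNReal.ofReal (1 / 4) * μ Yb := by
          rw [← mul_assoc]
          congr 1
          rw [show (2 : ℝ≥0∞) = ENNReal.ofReal 2 by simp, ← ENNReal.ofReal_mul (by norm_num)]
          congr 1
          norm_num

/-- **EXIT OF THE ADAPTER** -/
theorem wad_main (hn : 2 ≤ n) (W : WCon) : WallStmt n W := by

  have hU : 1 ≤ wadU W := le_max_left _ _
  obtain ⟨C, hC⟩ := wad_act hn (wadU W) hU (wall_main n hn (wadU W) hU)
  have hNok : (wadN n (wadU W)).Ok := by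
    have hn' : (2 : ℝ) ≤ n := by exact_mod_cast hn
    have hB : 10 ≤ wqB0 n (wadU W) := by
      unfold wqB0
      have : 0 ≤ 8 * (n : ℝ) * wadU W := by positivity
      linarith
    exact ⟨by show (0 : ℝ) ≤ 3 * n; positivity, by show (1 : ℝ) ≤ n * wqB0 n (wadU W); nlinarith, by show (0 : ℝ) < 1; norm_num⟩
  refine ⟨wadN n (wadU W), hNok, fun E hE => ?_⟩
  obtain ⟨e, B₀, he, hB₀, hnum⟩ := wad_num n (wadU W) W.T₀ W.Cb hU E hE
  have he0 : 0 < e := by linarith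
  refine ⟨e * C, e * C, 1, 1 / 8, 1 / (2 * e * ((C : ℝ) + 1)), B₀, by positivity, by positivity, one_pos, by norm_num,
    by positivity, ?_⟩
  intro κ hκ hκ₀ B hB
  have hB1 : 1 ≤ B := hB₀.trans hB
  refine ⟨max 1 (B ^ (2 * e * (C : ℝ))), ?_⟩
  intro J Bp X v₀ L₁ hL₁ hHr
  have key : ∀ (ι : Type) (A : Arr n ι) (s : Finset ι) (c : ι → ℂ) (μ : Measure (ST n)) (m χ g D : ℝ),
      Act n (W.wJB J Bp) X κ v₀ L₁ A s c μ m χ g D →
        ENNReal.ofReal (m * A.L ^ (2 * (n : ℝ)) / ((B * D) ^ e) ^ C) ≤ μ (wset A s c (wlev n X.a χ g A.L)) ∧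
        ∃ (Np : ℕ) (P : Fin Np → Plate n) (Y₀ : Set (ST n)), MeasurableSet Y₀ ∧ Y₀ ⊆ wset A s c (wlev n X.a χ g A.L) ∧
          (Np : ℝ) ≤ ((B * D) ^ e) ^ C ∧ (∀ j, ‖(P j).nx‖ ^ 2 + (P j).nt ^ 2 = 1) ∧
          ENNReal.ofReal (1 / 8) * μ (wset A s c (wlev n X.a χ g A.L)) ≤ μ Y₀ ∧
          ∀ z ∈ Y₀, ∃ j, (P j).dist z ≤ ((B * D) ^ e) ^ C * A.L := by
    intro ι A s c μ m χ g D hAct
    obtain ⟨Y', hY'⟩ := hHr ι A s c μ m χ g D hAct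
    have hD1 := hAct.hD1
    have hX : B₀ ≤ B * D := by nlinarith
    obtain ⟨h1, h2, h3, h4, h5, h6, h7, h8⟩ := hnum (B * D) hX
    have hKL : ((B * D) ^ e) ^ C ≤ A.L := wad_num_L C he hκ hκ₀ hB1 (hL₁.trans hAct.hL.le) hD1 hAct.hDκ
    exact hC (W.wJB J Bp) (le_max_right _ _) X κ v₀ L₁ B E ι A s c μ m χ g D hAct (by linarith) Y' hY' _
      h1 h2 h3 h4 h5 h6 h7 h8 hKL
  have hpow : ∀ D : ℝ, 1 ≤ D → ((B * D) ^ e) ^ C = (B * D) ^ (e * C) := by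
    intro D hD
    rw [← Real.rpow_natCast, ← Real.rpow_mul (by positivity)]
  constructor
  · intro ι A s c μ m χ g D hAct
    have h1 := (key ι A s c μ m χ g D hAct).1
    have hD1 := hAct.hD1
    rw [hpow D hD1] at h1
    refine le_trans (le_of_eq ?_) h1
    congr 1
    rw [Real.rpow_neg (by positivity), one_mul, div_eq_mul_inv]
  · intro ι A s c μ m χ g D hAct
    obtain ⟨Np, P, Y₀, a1, a2, a3, a4, a5, a6⟩ := (key ι A s c μ m χ g D hAct).2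
    rw [hpow D hAct.hD1] at a3 a6
    exact ⟨Np, P, Y₀, a1, a2, a3, a4, a5, a6⟩

end Claimed.Agent.R257
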