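import Claimed.Agent.R257.Weak.HrNumB
import Claimed.Agent.R257.Weak.HeavyMain
import Claimed.Agent.R257.Weak.EasyBox
import Claimed.Agent.R257.Weak.Deep

/-!
# R257 / Weak / HrNum : POST BP-257-WEAK-HRNUM, bridges and assembly            (helper59)

EXIT: `wn_main : AngularStmt n W a pmax → ArrSupStmt n W → HrStmt n W a pmax`   (conventions `2 ≤ n`, `√n/2 ≤ Rω`, `n+2 ≤ M`, `√n ≤ Cb`, `0 < a ≤ 1`, `2 < pmax`).
`wn_core` = the same with explicit constants (all numerical conditions on `B`, `L₀` are hypotheses).   Prefix `wn_`.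
-/

set_option autoImplicit false

namespace Claimed.Agent.R257

open MeasureTheory Metric Set
open scoped ENNReal InnerProductSpace

variable {n : ℕ} {ι : Type}

/-! ## bridges between the vocabulary of HR and of AN -/

open scoped Classical in
/-- the finite prescription attached to a prescription by sets -/
noncomputable def wnSel (H : WH n ι) (S : MI n → Set (BI n)) : (Fin n → ℤ) × ℤ → Finset (Fin n → ℤ) :=
  fun k => H.bins.filter fun b => b ∈ S k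

theorem wn_sel_eq (H : WH n ι) (S : MI n → Set (BI n)) (z : ST n) : H.sel S z = selF H.A H.s H.c H.R (wnSel H S) z := by
  classical
  unfold WH.sel selF selS
  congr 1
  ext α
  simp only [Finset.mem_filter, wnSel]
  constructor
  · rintro ⟨h1, h2⟩
    exact ⟨h1, Finset.mem_image_of_mem _ h1, h2⟩
  · rintro ⟨h1, _, h2⟩
    exact ⟨h1, h2⟩

theorem wn_cover (H : WH n ι) (N : NCon) (S : MI n → Set (BI n)) (hS : ∀ k, wdNar N H.R (S k)) (k : (Fin n → ℤ) × ℤ) :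
    AngCover N.Cw N.Cq N.cq H.R 1 (wnSel H S k) := by
  classical
  refine ⟨fun _ => wbinc H.R '' S k, fun _ => hS k, fun b hb => ⟨0, ?_⟩⟩
  exact mem_image_of_mem _ (Finset.mem_filter.1 hb).2

theorem wn_nar_empty (hn : 2 ≤ n) (N : NCon) (R : ℝ) : wdNar N R (∅ : Set (BI n)) := by
  unfold wdNar
  rw [image_empty]
  refine Or.inl ⟨EuclideanSpace.single ⟨0, by omega⟩ 1, EuclideanSpace.single ⟨1, by omega⟩ 1, 0, 0, ?_, ?_, ?_, fun v hv => hv.elim⟩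
  · simp
  · simp
  · simp [EuclideanSpace.inner_single_left]

/-! ## the constants -/

/-- the constants of the application of w:angular -/
noncomputable def wnG (n : ℕ) (W : WCon) (N : NCon) (pmax : ℝ) : ACon :=
  ⟨N.Cw, N.Cq, N.cq, 1 / 2, eex n + 2, (eex n + 1) * pmax + 2, ww_Cnb n W⟩

/-- `D₁ = X^{P₁}` -/
noncomputable def wnP₁ (n : ℕ) (pmax σ : ℝ) : ℝ := ((n : ℝ) * pmax + σ + 1) / σ

/-- `w₀ = X^{-P₀}` -/
noncomputable def wnP₀ (n : ℕ) (pmax σ a : ℝ) : ℝ := wnP₁ n pmax σ + (1 + ((n : ℝ) / 2 + eex n + a) * pmax) + σ + 1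

/-- the exponents of the heavy reduction -/
noncomputable def wnE (n Ja : ℕ) (pmax σ a : ℝ) : DExp := ⟨1, Ja, wnP₁ n pmax σ, wnP₀ n pmax σ a, wnP₀ n pmax σ a + 1⟩

theorem wn_eex_nonneg (n : ℕ) : 0 ≤ eex n := by unfold eex; positivity

theorem wn_P₁_ge (n : ℕ) {pmax σ : ℝ} (hpm : 0 ≤ pmax) (hσ : 0 < σ) : 1 ≤ wnP₁ n pmax σ := by
  unfold wnP₁
  rw [le_div_iff₀ hσ]
  have : 0 ≤ (n : ℝ) * pmax := by positivity
  linarith

theorem wn_P₀_ge (n : ℕ) {pmax σ a : ℝ} (hpm : 0 ≤ pmax) (hσ : 0 < σ) (ha : 0 ≤ a) : 0 ≤ wnP₀ n pmax σ a := by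
  unfold wnP₀
  have h1 := wn_P₁_ge n hpm hσ
  have h2 := wn_eex_nonneg n
  have : 0 ≤ ((n : ℝ) / 2 + eex n + a) * pmax := by positivity
  linarith

theorem wn_E_ok (n : ℕ) {Ja : ℕ} (hJa : 1 ≤ Ja) {pmax σ a : ℝ} (hpm : 0 ≤ pmax) (hσ : 0 < σ) (ha : 0 ≤ a) : (wnE n Ja pmax σ a).Ok :=
  ⟨one_pos, hJa, le_trans zero_le_one (wn_P₁_ge n hpm hσ), wn_P₀_ge n hpm hσ ha, by
    have := wn_P₀_ge n hpm hσ ha
    show 0 ≤ wnP₀ n pmax σ a + 1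
    linarith⟩

/-! ## `hang` -/

theorem wn_hang {Ja : ℕ} (hJa : 1 ≤ Ja) {W : WCon} {N : NCon} {p σ a Cind pmax v₀ κ L₀ K₀ c₂ Ca CN C₀ B : ℝ}
    (hAng : AngularWith n W ⟨p, σ, a, Cind⟩ (wnG n W N pmax) Ja K₀ c₂ Ca CN) (hSup : ArrSupWith n W.K C₀)
    (hCb : Real.sqrt n ≤ W.Cb) (ha : 0 ≤ a) (hav : a * v₀ ≤ 1) (hp : 2 < p) (hpp : p ≤ pmax) (hσ : 0 < σ) (hσ1 : σ ≤ 1)
    (hσc : σ ≤ c₂ / 2) (hCind : 1 ≤ Cind) (hC₀ : 1 ≤ C₀)
    (hB2 : 2 ≤ B) (hBK : (max K₀ 1) ^ Ja ≤ B) (hBa : (16 * max Ca 0) ^ (2 / c₂) ≤ B)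
    {A : Arr n ι} {s : Finset ι} {c : ι → ℂ} {μ : Measure (ST n)} {m χ g D : ℝ}
    (hAct : Act n W ⟨p, σ, a, Cind⟩ κ v₀ L₀ A s c μ m χ g D)
    (hRL : wdR (B * D) 1 Ja ^ 2 ≤ A.L) (hLN : 16 * max CN 0 * C₀ ^ pmax ≤ A.L)
    (S : MI n → Set (BI n)) (hS : ∀ k, wdNar N (wdR (B * D) 1 Ja) (S k)) :
    μ {z | wlev n a χ g A.L / 2 ≤ ‖(wdH n W a (wnE n Ja pmax σ a) B A s c μ m χ g D).sel S z‖}
      ≤ ENNReal.ofReal (wrhs n ⟨p, σ, a, Cind⟩ m A.L g D 1 / 8) := by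
  set H := wdH n W a (wnE n Ja pmax σ a) B A s c μ m χ g D with hH
  have hL1 : 1 ≤ A.L := hAct.cls.one_le
  have hL0 : 0 < A.L := by linarith
  have hD1 := hAct.hD1
  have hχ0 : 0 < χ := lt_trans (Real.rpow_pos_of_pos hL0 _) hAct.hχ
  have hg0 : 0 < g := lt_of_lt_of_le (by positivity) hAct.hg
  have hc₂ : 0 < c₂ := by linarith
  have hX1 : 1 ≤ B * D := by nlinarith
  have hDX : D ≤ B * D := by nlinarith
  have hBX : B ≤ B * D := by nlinarith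
  have hXR : B * D ≤ wdR (B * D) 1 Ja := wn_R_ge (by linarith) hJa
  have hR2 : 2 ≤ wdR (B * D) 1 Ja := by linarith
  have hR0 : 0 < wdR (B * D) 1 Ja := by linarith
  have hRL' : wdR (B * D) 1 Ja ≤ A.L := by nlinarith
  have hK : K₀ ≤ ((wdK (B * D) 1 Ja : ℕ) : ℝ) := by
    have hm1 : (0 : ℝ) ≤ max K₀ 1 := le_trans zero_le_one (le_max_right _ _)
    calc K₀ ≤ max K₀ 1 := le_max_left _ _
      _ = ((max K₀ 1) ^ Ja) ^ ((1 : ℝ) / (Ja : ℝ)) := by rw [one_div, Real.pow_rpow_inv_natCast hm1 (by omega)]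
      _ ≤ (B * D) ^ ((1 : ℝ) / (Ja : ℝ)) := Real.rpow_le_rpow (by positivity) (hBK.trans hBX) (by positivity)
      _ ≤ _ := wn_K_ge _ _
  have hout : WeakAt0 n W ⟨p, σ, a, Cind⟩ (ww_Cnb n W) (A.L / wdR (B * D) 1 Ja) 1 :=
    ww_nobox (X := ⟨p, σ, a, Cind⟩) hp.le (zero_le_one.trans hCind) zero_le_one hCb
      (hAct.outer _ 1 le_rfl (by rw [le_div_iff₀ hR0]; linarith) (div_le_div_of_nonneg_left hL0.le two_pos hR2))
  have hlev : A.L ^ (-(eex n + 2)) ≤ wlev n a χ g A.L := wn_lev hL1 hAct.hχ ha hav hD1 hAct.hDL hAct.hg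
  have hne : (wset A s c (wlev n a χ g A.L)).Nonempty := by
    by_contra h
    rw [not_nonempty_iff_eq_empty] at h
    have h2 := hAct.big
    have h3 : μ (wset A s c (wlev n a χ g A.L)) = 0 := by rw [h]; exact measure_empty
    exact absurd (lt_of_lt_of_eq h2 h3) not_lt_bot
  have hgl : g ≤ C₀ * A.L ^ (eex n + 1) :=
    wn_g_le hL1 hAct.hχ ha hav (by linarith) (ww_g_le hAct.cls hAct.tc0 hχ0 hAct.en hSup hne)
  have h := hAng ι A s c μ m χ g (wdK (B * D) 1 Ja) 1 (wnSel H S) hK hRL hAct.cls hAct.tc0 hAct.en.le hAct.hm.le hχ0 hAct.hχ1 hg0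
    hAct.adm.grow hAct.adm.slab hAct.adm.dens hAct.adm.box hlev hout (wn_cover H N S hS)
  refine le_trans (measure_mono ?_) (h.trans (ENNReal.ofReal_le_ofReal ?_))
  · intro z hz
    have e := wn_sel_eq H S z
    have hz' : wlev n a χ g A.L / 2 ≤ ‖H.sel S z‖ := hz
    rw [e] at hz'
    show (1 / 2 : ℝ) * wlev n a χ g A.L ≤ ‖selF A s c (wdR (B * D) 1 Ja) (wnSel H S) z‖
    have e2 : (1 / 2 : ℝ) * wlev n a χ g A.L = wlev n a χ g A.L / 2 := by ring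
    rw [e2]
    exact hz'
  · rw [hAct.en]
    have h1 : 16 * max Ca 0 ≤ (B * D) ^ (c₂ / 2) := by
      have h0 : (0 : ℝ) ≤ 16 * max Ca 0 := mul_nonneg (by norm_num) (le_max_right _ _)
      calc 16 * max Ca 0 = ((16 * max Ca 0) ^ (2 / c₂)) ^ (c₂ / 2) := by
            rw [← Real.rpow_mul h0, div_mul_div_comm, mul_comm 2 c₂, div_self (by positivity), Real.rpow_one]
        _ ≤ (B * D) ^ (c₂ / 2) := Real.rpow_le_rpow (Real.rpow_nonneg h0 _) (hBa.trans hBX) (by positivity)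
    have hw0 : 0 ≤ wrhs n ⟨p, σ, a, Cind⟩ m A.L g 1 1 := by
      unfold wrhs
      have := hAct.hm
      have q1 := Real.rpow_nonneg hL0.le (2 * (n : ℝ))
      have q2 := Real.rpow_nonneg hg0.le (-p)
      have : (0 : ℝ) ≤ Cind := by linarith
      simp only [Real.one_rpow, mul_one]
      positivity
    have hq : 0 ≤ ((1 : ℕ) : ℝ) ^ p * wdR (B * D) 1 Ja ^ (-c₂) * wrhs n ⟨p, σ, a, Cind⟩ m A.L g 1 1 :=
      mul_nonneg (mul_nonneg (Real.rpow_nonneg (by positivity) _) (Real.rpow_nonneg hR0.le _)) hw0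
    have hq2 : 0 ≤ m * A.L ^ (-((eex n + 1) * pmax + 2)) := mul_nonneg hAct.hm.le (Real.rpow_nonneg hL0.le _)
    have hnum := wn_ang_num (n := n) (p := p) (σ := σ) (a := a) (Cind := Cind) (m := m) (L := A.L) (g := g) (D := D)
      (R := wdR (B * D) 1 Ja) (X := B * D) (c₂ := c₂) (Ca := max Ca 0) (CN := max CN 0) (C₀ := C₀) (pmax := pmax)
      hCind hAct.hm hL1 hg0 hD1 hAct.hDL hDX hXR (by linarith) hpp hσ hσ1 hσc (le_max_right _ _) (le_max_right _ _) hC₀ hgl h1 hLN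
    refine le_trans ?_ hnum
    have t1 := mul_le_mul_of_nonneg_right (le_max_left Ca 0) hq
    have t2 := mul_le_mul_of_nonneg_right (le_max_left CN 0) hq2
    show Ca * ((1 : ℕ) : ℝ) ^ p * wdR (B * D) 1 Ja ^ (-c₂) * wrhs n ⟨p, σ, a, Cind⟩ m A.L g 1 1
        + CN * m * A.L ^ (-((eex n + 1) * pmax + 2)) ≤ _
    nlinarith [t1, t2]

/-! ## the heavy reduction with explicit constants -/

/-- **w:heavy-reduction in the active range, explicit constants** -/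
theorem wn_core (hn : 2 ≤ n) {Ja : ℕ} (hJa : 1 ≤ Ja) {W : WCon} {N : NCon} {p σ a Cind pmax v₀ κ L₀ K₀ c₂ Ca CN C₀ B : ℝ}
    (hAng : AngularWith n W ⟨p, σ, a, Cind⟩ (wnG n W N pmax) Ja K₀ c₂ Ca CN) (hSup : ArrSupWith n W.K C₀)
    (hRω : Real.sqrt n / 2 ≤ W.K.Rω) (hMn : n + 2 ≤ W.M) (hCb : Real.sqrt n ≤ W.Cb)
    (ha : 0 ≤ a) (hav : a * v₀ ≤ 1) (hp : 2 < p) (hpp : p ≤ pmax) (hσ : 0 < σ) (hσ1 : σ ≤ 1)
    (hσc : σ ≤ c₂ / 2) (hCind : 1 ≤ Cind) (hC₀ : 1 ≤ C₀) (hκ : 0 < κ) (hκE : κ ≤ 1 / (4 * (wnP₁ n pmax σ + 4)))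
    (hB2 : 2 ≤ B) (hBK : (max K₀ 1) ^ Ja ≤ B) (hBa : (16 * max Ca 0) ^ (2 / c₂) ≤ B)
    (hB1 : 8 * (wnQ n W.K.Rω * ((2 : ℝ) ^ Ja) ^ (n : ℝ)) ^ pmax ≤ B)
    (hB3 : 8 * wnA2 n W.K.Rω ((2 : ℝ) ^ Ja) pmax ((n : ℝ) / 2 + eex n + a) (ww_Cnb n W) (whC n W) ≤ B)
    (hB4 : 32 * whFar n W ≤ B)
    (hL1 : (1 * B ^ (wnP₁ n pmax σ + 4)) ^ 2 ≤ L₀) (hL2 : ((4 : ℝ) ^ Ja * B ^ (wnP₁ n pmax σ + 4)) ^ 2 ≤ L₀)
    (hL3 : (2 * (W.M : ℝ) * (1 + 2 * W.K.Rω) * Real.sqrt n * (16 : ℝ) ^ Ja * B ^ (wnP₁ n pmax σ + 4)) ^ 2 ≤ L₀)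
    (hL4 : 16 * max CN 0 * C₀ ^ pmax ≤ L₀) :
    HrWith n W ⟨p, σ, a, Cind⟩ κ v₀ L₀ B (wnE n Ja pmax σ a) N := by
  intro ι A s c μ m χ g D hAct
  have hpm : 0 ≤ pmax := by linarith
  have hP1 := wn_P₁_ge n hpm hσ
  have hP0 := wn_P₀_ge n hpm hσ ha
  set P₁ := wnP₁ n pmax σ with hP₁def
  set P₀ := wnP₀ n pmax σ a with hP₀def
  have hLa : 1 ≤ A.L := hAct.cls.one_le
  have hL0 : 0 < A.L := by linarith
  have hLL : L₀ ≤ A.L := hAct.hL.le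
  have hD1 := hAct.hD1
  have hD0 : 0 < D := by linarith
  have hB1' : 1 ≤ B := by linarith
  have hχ0 : 0 < χ := lt_trans (Real.rpow_pos_of_pos hL0 _) hAct.hχ
  have hg0 : 0 < g := lt_of_lt_of_le (by positivity) hAct.hg
  have hX1 : 1 ≤ B * D := one_le_mul_of_one_le_of_one_le hB1' hD1
  have hX0 : 0 < B * D := by linarith
  have hDX : D ≤ B * D := le_mul_of_one_le_left hD0.le hB1'
  have hBX : B ≤ B * D := le_mul_of_one_le_right (by linarith) hD1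
  have hXR : B * D ≤ wdR (B * D) 1 Ja := wn_R_ge (by linarith) hJa
  have hRT : wdR (B * D) 1 Ja ≤ 2 ^ Ja * (B * D) := wn_R_le hX1 hJa
  have hR1 : 1 ≤ wdR (B * D) 1 Ja := by linarith
  have hR0 : 0 < wdR (B * D) 1 Ja := by linarith
  have hT1 : (1 : ℝ) ≤ 2 ^ Ja := one_le_pow₀ (by norm_num)
  have hRω0 : 0 ≤ W.K.Rω := le_trans (by positivity) hRω
  have hEm : 0 < P₁ + 4 := by linarith
  -- powers of `X` against `L`
  have pw : ∀ e c : ℝ, 0 ≤ e → e ≤ P₁ + 4 → 0 ≤ c → (c * B ^ (P₁ + 4)) ^ 2 ≤ L₀ → c * (B * D) ^ e ≤ A.L := fun e c he heE hc hcL =>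
    wn_pow_le hB1' hD1 hLa hAct.hDκ hκ hEm hκE he heE hc (hcL.trans hLL)
  have hD₁L : (B * D) ^ P₁ ≤ A.L := by
    have := pw P₁ 1 (by linarith) (by linarith) zero_le_one hL1
    linarith
  have hR2L : wdR (B * D) 1 Ja ^ 2 ≤ A.L := by
    have h1 := pw 2 ((4 : ℝ) ^ Ja) (by norm_num) (by linarith) (by positivity) hL2
    calc wdR (B * D) 1 Ja ^ 2 ≤ (2 ^ Ja * (B * D)) ^ 2 := pow_le_pow_left₀ hR0.le hRT 2
      _ = (4 : ℝ) ^ Ja * (B * D) ^ (2 : ℝ) := by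
          rw [mul_pow, ← pow_mul, mul_comm Ja 2, pow_mul, Real.rpow_two]
          norm_num
      _ ≤ A.L := h1
  have hRL : wdR (B * D) 1 Ja ≤ A.L := le_trans (le_self_pow₀ hR1 two_ne_zero) hR2L
  have hκ' : (1 + (1 + 2 * W.K.Rω) * (Real.sqrt n * wdR (B * D) 1 Ja ^ 4 / 2) / A.L) ^ W.M ≤ 4 / 3 := by
    have hsq : 0 ≤ Real.sqrt n := Real.sqrt_nonneg _
    have h1 := pw 4 (2 * (W.M : ℝ) * (1 + 2 * W.K.Rω) * Real.sqrt n * (16 : ℝ) ^ Ja) (by norm_num) (by linarith) (by positivity) hL3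
    have h2 : wdR (B * D) 1 Ja ^ 4 ≤ (16 : ℝ) ^ Ja * (B * D) ^ (4 : ℝ) :=
      calc wdR (B * D) 1 Ja ^ 4 ≤ (2 ^ Ja * (B * D)) ^ 4 := pow_le_pow_left₀ hR0.le hRT 4
        _ = (16 : ℝ) ^ Ja * (B * D) ^ (4 : ℝ) := by
          have e4 : (B * D) ^ (4 : ℝ) = (B * D) ^ (4 : ℕ) := by
            rw [← Real.rpow_natCast]; norm_num
          rw [mul_pow, ← pow_mul, mul_comm Ja 4, pow_mul, e4]
          norm_num
    refine wn_kappa (by positivity) W.M ?_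
    rw [mul_div_assoc', div_le_one hL0]
    have h3 : 0 ≤ 2 * (W.M : ℝ) * (1 + 2 * W.K.Rω) * Real.sqrt n := by positivity
    calc 4 * (W.M : ℝ) * ((1 + 2 * W.K.Rω) * (Real.sqrt n * wdR (B * D) 1 Ja ^ 4 / 2))
        = 2 * (W.M : ℝ) * (1 + 2 * W.K.Rω) * Real.sqrt n * wdR (B * D) 1 Ja ^ 4 := by ring
      _ ≤ 2 * (W.M : ℝ) * (1 + 2 * W.K.Rω) * Real.sqrt n * ((16 : ℝ) ^ Ja * (B * D) ^ (4 : ℝ)) := mul_le_mul_of_nonneg_left h2 h3
      _ = 2 * (W.M : ℝ) * (1 + 2 * W.K.Rω) * Real.sqrt n * (16 : ℝ) ^ Ja * (B * D) ^ (4 : ℝ) := by ring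
      _ ≤ A.L := h1
  have hout : WeakAt0 n W ⟨p, σ, a, Cind⟩ (ww_Cnb n W) (A.L / wdR (B * D) 1 Ja) 1 :=
    ww_nobox (X := ⟨p, σ, a, Cind⟩) hp.le (zero_le_one.trans hCind) zero_le_one hCb
      (hAct.outer _ 1 le_rfl (by rw [le_div_iff₀ hR0]; linarith)
        (div_le_div_of_nonneg_left hL0.le two_pos (by linarith)))
  have hfin : μ (wset A s c (wlev n a χ g A.L)) ≠ ∞ :=
    ne_top_of_le_ne_top ENNReal.ofReal_ne_top ((measure_mono (subset_univ _)).trans (ww_total hLa hAct.adm))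
  have h2D : 2 * D ≤ (B * D) ^ P₁ := by
    calc 2 * D ≤ B * D := mul_le_mul_of_nonneg_right hB2 hD0.le
      _ = (B * D) ^ (1 : ℝ) := (Real.rpow_one _).symm
      _ ≤ (B * D) ^ P₁ := Real.rpow_le_rpow_of_exponent_le hX1 hP1
  have hCnb : 0 ≤ ww_Cnb n W := by unfold ww_Cnb; positivity
  have hCc : 0 ≤ whC n W := by
    unfold whC
    have h1 : (0 : ℝ) ≤ max 1 (whMom n W) := le_trans zero_le_one (le_max_left _ _)
    have h2 : (0 : ℝ) ≤ max (whDen n W) (2 * (1 + 2 * (2 * W.K.Rω)) ^ (n : ℝ)) :=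
      le_trans (mul_nonneg zero_le_two (Real.rpow_nonneg (by positivity) _)) (le_max_right _ _)
    exact mul_nonneg h1 h2
  have hσP : σ * P₁ = (n : ℝ) * pmax + σ + 1 := by
    rw [hP₁def]
    unfold wnP₁
    field_simp
  exact wh_main (by omega) W ⟨p, σ, a, Cind⟩ (wdH n W a (wnE n Ja pmax σ a) B A s c μ m χ g D) (wdNar N (wdR (B * D) 1 Ja))
    (wn_nar_empty hn N _) (C' := ww_Cnb n W) (m := m) (χ := χ) (g := g) (D := D) (D₁ := (B * D) ^ P₁) (w₀ := (B * D) ^ (-P₀))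
    (ρ := (B * D) ^ (P₀ + 1))
    hAct.inner hout hAct.cls hAct.tc0 rfl hAct.en hAct.hm.le hχ0 hAct.hχ1 hg0 hAct.adm rfl hAct.big hfin rfl
    (fun S hS => wn_hang hJa hAng hSup hCb ha hav hp hpp hσ hσ1 hσc hCind hC₀ hB2 hBK hBa hAct hR2L (hL4.trans hLL) S hS)
    hRω hMn hp.le ha (zero_le_one.trans hCind) hCnb hR1 hRL hD0 h2D hD₁L (Real.rpow_pos_of_pos hX0 _)
    (Real.one_le_rpow hX1 (by linarith)) hκ'
    (wn_N1 hRω0 hX1 hR1 hT1 hRT hD1 hDX (by linarith) hpp hσ hσP (hB1.trans hBX))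
    (wn_N2 hRω0 hX1 hR1 hT1 hRT hD1 hDX hp.le hpp hσ ha (wn_eex_nonneg n) hCnb hCc rfl (hB3.trans hBX))
    (wn_N3 (wh_far_spec W hMn).1 hX1 hMn hP0 (hB4.trans hBX))

/-! ## the order of the constants -/

/-- **EXIT OF THE POST BP-257-WEAK-HRNUM** -/
theorem wn_main (hn : 2 ≤ n) {W : WCon} {a pmax : ℝ} (hRω : Real.sqrt n / 2 ≤ W.K.Rω) (hMn : n + 2 ≤ W.M) (hCb : Real.sqrt n ≤ W.Cb)
    (ha : 0 < a) (ha1 : a ≤ 1) (hpm : 2 < pmax) (hAng : AngularStmt n W a pmax) (hSup : ArrSupStmt n W) : HrStmt n W a pmax := by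
  obtain ⟨c₂, Ja, hc₂, hJa, hAng⟩ := hAng
  intro v₀ hv₀ hv₁
  refine ⟨min (c₂ / 2) 1, lt_min (by positivity) one_pos, fun N σ hN hσ hσ₀ => ?_⟩
  have hσc : σ ≤ c₂ / 2 := hσ₀.trans (min_le_left _ _)
  have hσ1 : σ ≤ 1 := hσ₀.trans (min_le_right _ _)
  have hP1 := wn_P₁_ge n (by linarith : 0 ≤ pmax) hσ
  refine ⟨wnE n Ja pmax σ a, wn_E_ok n hJa (by linarith) hσ ha.le, 1 / (4 * (wnP₁ n pmax σ + 4)), by positivity,
    fun κ hκ hκE p hp hpp => ?_⟩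
  obtain ⟨J, hJ⟩ := hAng (wnG n W N pmax) p σ ⟨hN.Cw, hN.Cq, hN.cq, by show (0 : ℝ) < 1 / 2; norm_num, by show 0 ≤ eex n + 2; linarith [wn_eex_nonneg n],
    by show 0 ≤ (eex n + 1) * pmax + 2; have := wn_eex_nonneg n; nlinarith, ww_Cnb_nonneg n W⟩ hp hpp
  refine ⟨J, fun J' hJ' Bp => ?_⟩
  obtain ⟨K₀, Ca, CN, hA⟩ := hJ J' hJ' Bp
  obtain ⟨C₀, hC₀⟩ := hSup Bp
  have hSup' : ArrSupWith n (W.wJB J' Bp).K (max 1 C₀) := wc_sup_mono (Nat.zero_le _) (le_max_right _ _) hC₀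
  have hav : a * v₀ ≤ 1 := by nlinarith
  refine ⟨max 2 (max ((max K₀ 1) ^ Ja) (max ((16 * max Ca 0) ^ (2 / c₂)) (max (8 * (wnQ n W.K.Rω * ((2 : ℝ) ^ Ja) ^ (n : ℝ)) ^ pmax)
    (max (8 * wnA2 n W.K.Rω ((2 : ℝ) ^ Ja) pmax ((n : ℝ) / 2 + eex n + a) (ww_Cnb n W) (whC n W)) (32 * whFar n W))))),
    fun B hB => ?_⟩
  have b1 := (le_max_left _ _).trans hB
  have hB' := (le_max_right _ _).trans hB
  have b2 := (le_max_left _ _).trans hB'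
  have hB'' := (le_max_right _ _).trans hB'
  have b3 := (le_max_left _ _).trans hB''
  have hB3 := (le_max_right _ _).trans hB''
  have b4 := (le_max_left _ _).trans hB3
  have hB4 := (le_max_right _ _).trans hB3
  have b5 := (le_max_left _ _).trans hB4
  have b6 := (le_max_right _ _).trans hB4
  refine ⟨max ((1 * B ^ (wnP₁ n pmax σ + 4)) ^ 2) (max (((4 : ℝ) ^ Ja * B ^ (wnP₁ n pmax σ + 4)) ^ 2)
    (max ((2 * (W.M : ℝ) * (1 + 2 * W.K.Rω) * Real.sqrt n * (16 : ℝ) ^ Ja * B ^ (wnP₁ n pmax σ + 4)) ^ 2)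
      (16 * max CN 0 * (max 1 C₀) ^ pmax))), fun Cind hCind => ?_⟩
  exact wn_core hn hJa (W := W.wJB J' Bp) (hA Cind (by linarith)) hSup' hRω hMn hCb ha.le hav hp hpp hσ hσ1 hσc hCind (le_max_left _ _)
    hκ hκE b1 b2 b3 b4 b5 b6 (le_max_left _ _) ((le_max_left _ _).trans (le_max_right _ _))
    ((le_max_left _ _).trans ((le_max_right _ _).trans (le_max_right _ _)))
    ((le_max_right _ _).trans ((le_max_right _ _).trans (le_max_right _ _)))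

end Claimed.Agent.R257
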