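import Claimed.Agent.R257.Ang.Defs
import Claimed.Agent.R257.Wall.QX
import Claimed.Agent.R257.Wall.Conv

/-!
# R257 / Weak / AdaptNar : ADAPTER (post BP-257-WEAK-ADAPT), part 1: the two notions of NARROW sets            (architect helper67)            CONTRACT
PAPER-FREE, Mathlib + `Ang/Defs` (`Strip2`, `QHyp`, `Narrow`: frequencies `v : E n`, Euclidean) + `Wall/Defs`, `Wall/QX` (`NarrowA`, `NarrowB`, `wqB0`, `wqK0`: velocities `u = 2 v : Fin n → ℝ`, coordinates).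
EXIT: `wad_not_narrow` : not `Narrow` (the output (ii) of the heavy reduction)  ⟹  not `NarrowA`, not `NarrowB` (the hypotheses (H2), (H3) of the wall block).
Every `sorry` is a leaf `L-WAD-*`.  Statements are frozen (a FALSE statement: one line to helper67); auxiliary lemmas (prefix `wad_`) directly above your theorem; edit only your block.
-/

set_option autoImplicit false

namespace Claimed.Agent.R257

open MeasureTheory Metric Set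
open scoped ENNReal InnerProductSpace

variable {n : ℕ}

/-- the velocity `u = 2 v` of the frequency `v`, in coordinates -/
def wadVel (v : E n) : Fin n → ℝ := fun i => 2 * v i

/-- the threshold of the quadratic neighbourhoods in the normalisation of the wall block -/
noncomputable def wadTau (n : ℕ) (U₀ R : ℝ) : ℝ := wqK0 n U₀ / (1 + n * wqB0 n U₀) ^ 2 * R⁻¹ ^ 4

/-- **LEAF L-WAD-PAIR.**   `V = span (range d)` has `finrank ≤ n - 2` (`finrank_range_le_card`, `Fintype.card_fin`), so `finrank Vᗮ ≥ 2` (`Submodule.finrank_add_finrank_orthogonal`, `finrank_euclideanSpace_fin`);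
take two vectors of an orthonormal basis of `Vᗮ` (`stdOrthonormalBasis ℝ Vᗮ`, indices `⟨0, _⟩, ⟨1, _⟩` of `Fin (finrank Vᗮ)`), coerce to `E n`; `Submodule.mem_orthogonal`, `Submodule.subset_span`. -/
theorem wad_orth_pair (hn : 2 ≤ n) (d : Fin (n - 2) → E n) :
    ∃ e₁ e₂ : E n, ‖e₁‖ = 1 ∧ ‖e₂‖ = 1 ∧ ⟪e₁, e₂⟫_ℝ = 0 ∧ ∀ k, ⟪e₁, d k⟫_ℝ = 0 ∧ ⟪e₂, d k⟫_ℝ = 0 := by
  exact wv_pair hn d

/-- **LEAF L-WAD-STRIP: type (a).**   `c₀, d` from `hN`; `e₁, e₂` from `wad_orth_pair` for `k ↦ WithLp.toLp 2 (d k)`; heights `c_j = ⟪e_j, toLp c₀⟫ / 2`.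
For `v ∈ T`: `μ` from `hN (wadVel v)`, `r = 2 • v - toLp c₀ - ∑ k, μ k • toLp (d k)`, `|r i| ≤ h` for all `i`, so `0 ≤ h` and `‖r‖ ≤ √n h ≤ n h` (`EuclideanSpace.norm_eq`, `Real.sqrt_le_sqrt`, or `‖r‖² = ∑ r i² ≤ n h² ≤ (n h)²`);
`⟪e_j, r⟫ = 2 ⟪e_j, v⟫ - ⟪e_j, toLp c₀⟫` (`inner_sub_right`, `inner_sum`, `inner_smul_right`), `|⟪e_j, r⟫| ≤ ‖r‖` (`abs_real_inner_le_norm`). -/
theorem wad_strip (hn : 2 ≤ n) (T : Set (E n)) (h : ℝ) (hN : NarrowA (wadVel '' T) h) : Strip2 (n * h) T := by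
  obtain ⟨e₁, e₂, c₁, c₂, h1, h2, h3, h4⟩ := wv_convA hn T h hN
  refine ⟨e₁, e₂, c₁, c₂, h1, h2, h3, fun v hv => ?_⟩
  have hn' : (1 : ℝ) ≤ n := by exact_mod_cast (by omega : 1 ≤ n)
  have hsq : Real.sqrt n ≤ n := wv_sqrt_le (by omega)
  have hsq0 : 0 < Real.sqrt n := Real.sqrt_pos.2 (by linarith)
  have h5 := h4 v hv
  have h6 : 0 ≤ Real.sqrt n * h / 2 := (abs_nonneg _).trans h5.1
  have hh : 0 ≤ h := by
    by_contra hc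
    push Not at hc
    nlinarith [mul_pos_of_neg_of_neg (neg_lt_zero.2 hsq0) hc]
  have h7 : Real.sqrt n * h / 2 ≤ n * h := by
    have := mul_le_mul_of_nonneg_right hsq hh
    have h8 : 0 ≤ Real.sqrt n * h := by positivity
    linarith
  exact ⟨h5.1.trans h7, h5.2.trans h7⟩

/-- **LEAF L-WAD-OP: a polynomial of degree `≤ 2` in operator form, centred at `o`.**   `A = Matrix.toEuclideanCLM` (or `LinearMap.toContinuousLinearMap` of `Matrix.toLin'` through `WithLp.linearEquiv`) of the symmetric matrix `M i k = 2 (S i k + S k i)`: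
`⟪A y, y'⟫ = ∑ i k, M i k * y k * y' i`.   With `y = x - o`:  `wqPoly S b c0 (2 (o + y)) = 4 S[y,y] + 4 (S[o,y] + S[y,o]) + 2 b·y + wqPoly S b c0 (2 o)`; so `l = 2 • A o + 2 • toLp b`, `q = wqPoly S b c0 (wadVel o)`.
(`EuclideanSpace.inner_eq_star_dotProduct` / `PiLp.inner_apply`, `Finset.sum_comm`, `Finset.mul_sum`, `Finset.sum_add_distrib`, `ring`.) -/
theorem wad_poly_op (S : Fin n → Fin n → ℝ) (b : Fin n → ℝ) (c0 : ℝ) (o : E n) :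
    ∃ (A : E n →L[ℝ] E n) (l : E n) (q : ℝ), (∀ v w, ⟪A v, w⟫_ℝ = ⟪v, A w⟫_ℝ) ∧
      ∀ x : E n, wqPoly S b c0 (wadVel x) = ⟪A (x - o), x - o⟫_ℝ + ⟪l, x - o⟫_ℝ + q := by
  obtain ⟨A, g, hA, hT⟩ := wv_taylor S b c0 o
  refine ⟨A, g, wqPoly S b c0 (wvVel o), hA, fun x => ?_⟩
  have := hT (x - o)
  rw [add_sub_cancel] at this
  exact this

/-- **LEAF L-WAD-QHYP: normal form on the hyperplane.**   `P y = y - ⟪e, y⟫ • e` (as a continuous linear map: `ContinuousLinearMap.id ℝ _ - (innerSL ℝ e).smulRight e`): `P e = 0`, `⟪P y, w⟫ = ⟪y, P w⟫`, `P y = y` if `⟪e, y⟫ = 0`.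
`S' = P ∘L A ∘L P`, `l' = P l`, `Nrm = ‖S'‖ + ‖l'‖ + |q|`.   For `⟪e, x⟫ = h`, `y = x - o ⟂ e`: `⟪S' y, y⟫ + ⟪l', y⟫ + q = ⟪A y, y⟫ + ⟪l, y⟫ + q`.
At `x₀`: `κ ≤ ‖S'‖ r₀² + ‖l'‖ r₀ + |q| ≤ Nrm (1 + r₀)²`, so `Nrm ≥ κ/(1+r₀)² > 0`.   `Q = ⟨e, h, o, Nrm⁻¹ • S', Nrm⁻¹ • l', q / Nrm⟩`: all three coefficient norms are `≤ 1 ≤ Cq` and add up to `1`. -/
theorem wad_qhyp (e o : E n) (h : ℝ) (he : ‖e‖ = 1) (ho : ⟪e, o⟫_ℝ = h) (A : E n →L[ℝ] E n)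
    (hA : ∀ v w, ⟪A v, w⟫_ℝ = ⟪v, A w⟫_ℝ) (l : E n) (q κ r₀ : ℝ) (hκ : 0 < κ) (hr : 0 ≤ r₀) (x₀ : E n)
    (hx₀ : ⟪e, x₀⟫_ℝ = h) (hx₀r : ‖x₀ - o‖ ≤ r₀) (hw : κ ≤ |⟪A (x₀ - o), x₀ - o⟫_ℝ + ⟪l, x₀ - o⟫_ℝ + q|)
    (Cq : ℝ) (hCq : 1 ≤ Cq) (hoC : ‖o‖ ≤ Cq) :
    ∃ Q : QHyp n, Q.Ok Cq 1 ∧ Q.e = e ∧ Q.h = h ∧
      ∀ x : E n, ⟪e, x⟫_ℝ = h → |Q.val x| ≤ |⟪A (x - o), x - o⟫_ℝ + ⟪l, x - o⟫_ℝ + q| * ((1 + r₀) ^ 2 / κ) := by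
  obtain ⟨S', l', hS', hS'e, hl'e, hrestr, -, -⟩ := wv_project e he A hA l
  set Nrm : ℝ := ‖S'‖ + ‖l'‖ + |q| with hNrm
  have hval : ∀ x : E n, ⟪e, x⟫_ℝ = h → ⟪S' (x - o), x - o⟫_ℝ + ⟪l', x - o⟫_ℝ + q
      = ⟪A (x - o), x - o⟫_ℝ + ⟪l, x - o⟫_ℝ + q := by
    intro x hx
    obtain ⟨r1, r2⟩ := hrestr (x - o) (by rw [inner_sub_right, hx, ho, sub_self])
    rw [r1, r2]
  have hX : 0 < (1 + r₀) ^ 2 := by positivity
  have hlow : κ ≤ Nrm * (1 + r₀) ^ 2 := by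
    set r : ℝ := ‖x₀ - o‖ with hr
    have hr0 : 0 ≤ r := norm_nonneg _
    have h4 : |⟪S' (x₀ - o), x₀ - o⟫_ℝ| ≤ ‖S'‖ * r ^ 2 := by
      calc _ ≤ ‖S' (x₀ - o)‖ * ‖x₀ - o‖ := abs_real_inner_le_norm _ _
        _ ≤ (‖S'‖ * ‖x₀ - o‖) * ‖x₀ - o‖ := by
            gcongr
            exact ContinuousLinearMap.le_opNorm _ _
        _ = _ := by rw [hr]; ring
    have h5 : |⟪l', x₀ - o⟫_ℝ| ≤ ‖l'‖ * r := abs_real_inner_le_norm _ _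
    have h6 : κ ≤ ‖S'‖ * r ^ 2 + ‖l'‖ * r + |q| := by
      calc κ ≤ |⟪S' (x₀ - o), x₀ - o⟫_ℝ + ⟪l', x₀ - o⟫_ℝ + q| := by rw [hval x₀ hx₀]; exact hw
        _ ≤ |⟪S' (x₀ - o), x₀ - o⟫_ℝ| + |⟪l', x₀ - o⟫_ℝ| + |q| := abs_add_three _ _ _
        _ ≤ _ := by linarith
    have k1 : r ^ 2 ≤ (1 + r₀) ^ 2 := pow_le_pow_left₀ hr0 (by linarith) 2
    have k2 : r ≤ (1 + r₀) ^ 2 := by nlinarith
    have k3 : 1 ≤ (1 + r₀) ^ 2 := by nlinarith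
    have m1 := mul_le_mul_of_nonneg_left k1 (norm_nonneg S')
    have m2 := mul_le_mul_of_nonneg_left k2 (norm_nonneg l')
    have m3 := mul_le_mul_of_nonneg_left k3 (abs_nonneg q)
    calc κ ≤ ‖S'‖ * r ^ 2 + ‖l'‖ * r + |q| := h6
      _ ≤ ‖S'‖ * (1 + r₀) ^ 2 + ‖l'‖ * (1 + r₀) ^ 2 + |q| * (1 + r₀) ^ 2 := by linarith
      _ = _ := by rw [hNrm]; ring
  have hN0 : 0 < Nrm := by
    by_contra hc
    push Not at hc
    have := mul_nonpos_of_nonpos_of_nonneg hc hX.le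
    linarith
  have hNi : 0 < Nrm⁻¹ := inv_pos.2 hN0
  have hinv : Nrm⁻¹ ≤ (1 + r₀) ^ 2 / κ := by
    rw [inv_eq_one_div, div_le_div_iff₀ hN0 hκ]
    linarith
  have n1 : ‖Nrm⁻¹ • S'‖ = Nrm⁻¹ * ‖S'‖ := by rw [norm_smul, Real.norm_eq_abs, abs_of_pos hNi]
  have n2 : ‖Nrm⁻¹ • l'‖ = Nrm⁻¹ * ‖l'‖ := by rw [norm_smul, Real.norm_eq_abs, abs_of_pos hNi]
  have n3 : |q / Nrm| = Nrm⁻¹ * |q| := by rw [abs_div, abs_of_pos hN0, div_eq_inv_mul]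
  have hone : Nrm⁻¹ * ‖S'‖ + Nrm⁻¹ * ‖l'‖ + Nrm⁻¹ * |q| = 1 := by
    rw [← mul_add, ← mul_add, ← hNrm, inv_mul_cancel₀ hN0.ne']
  have p1 : 0 ≤ Nrm⁻¹ * ‖S'‖ := by positivity
  have p2 : 0 ≤ Nrm⁻¹ * ‖l'‖ := by positivity
  have p3 : 0 ≤ Nrm⁻¹ * |q| := by positivity
  refine ⟨⟨e, h, o, Nrm⁻¹ • S', Nrm⁻¹ • l', q / Nrm⟩, ⟨he, ho, hoC, ?_, ?_, ?_, ?_, ?_, ?_, ?_⟩, rfl, rfl, fun x hx => ?_⟩
  · intro v w
    show ⟪(Nrm⁻¹ • S') v, w⟫_ℝ = ⟪v, (Nrm⁻¹ • S') w⟫_ℝ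
    rw [_root_.smul_apply, _root_.smul_apply, inner_smul_left, inner_smul_right, hS']
    simp only [RCLike.conj_to_real]
  · show (Nrm⁻¹ • S') e = 0
    rw [_root_.smul_apply, hS'e, smul_zero]
  · show ⟪Nrm⁻¹ • l', e⟫_ℝ = 0
    rw [inner_smul_left, hl'e, mul_zero]
  · show ‖Nrm⁻¹ • S'‖ ≤ Cq
    rw [n1]
    linarith
  · show ‖Nrm⁻¹ • l'‖ ≤ Cq
    rw [n2]
    linarith
  · show |q / Nrm| ≤ Cq
    rw [n3]
    linarith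
  · show 1 ≤ ‖Nrm⁻¹ • S'‖ + ‖Nrm⁻¹ • l'‖ + |q / Nrm|
    rw [n1, n2, n3, hone]
  · show |⟪(Nrm⁻¹ • S') (x - o), x - o⟫_ℝ + ⟪Nrm⁻¹ • l', x - o⟫_ℝ + q / Nrm| ≤ _
    have e1 : ⟪(Nrm⁻¹ • S') (x - o), x - o⟫_ℝ + ⟪Nrm⁻¹ • l', x - o⟫_ℝ + q / Nrm
        = (⟪A (x - o), x - o⟫_ℝ + ⟪l, x - o⟫_ℝ + q) * Nrm⁻¹ := by
      rw [← hval x hx, _root_.smul_apply, inner_smul_left, inner_smul_left]
      simp only [RCLike.conj_to_real]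
      ring
    rw [e1, abs_mul, abs_of_pos hNi]
    exact mul_le_mul_of_nonneg_left hinv (abs_nonneg _)

/-- **LEAF L-WAD-NBHD: type (b).**   `a, c, S, b, c0` from `h` (`2 ≤ B₀`).   `e = toLp a` (`‖e‖ = 1`: `EuclideanSpace.norm_eq`, `∑ a i² = 1`), height `c/2`, `o = (c/2) • e` (`‖o‖ = |c|/2 ≤ B₀ ≤ n B₀`), `A, l, q` from `wad_poly_op S b c0 o`.
Witness `x₀ = toLp (fun i => u₀ i / 2)`: `wadVel x₀ = u₀`, `⟪e, x₀⟫ = c/2`, `‖x₀‖ ≤ √n B₀/2 ≤ n B₀/2`, so `‖x₀ - o‖ ≤ n B₀ =: r₀`.   `Q` from `wad_qhyp` (`Cq = n B₀ ≥ 1`).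
For `v ∈ T`: `u'` from the last clause for `wadVel v`, `x = toLp (fun i => u' i / 2)`: `⟪Q.e, x⟫ = Q.h`, `‖x‖ ≤ n B₀`, `|Q.val x| ≤ |wqPoly S b c0 u'| (1+r₀)²/κ₀ ≤ τ (1+r₀)²/κ₀`, `‖v - x‖ ≤ √n δ₂/2 ≤ n δ₂`. -/
theorem wad_nbhd (hn : 1 ≤ n) (T : Set (E n)) (δ₂ τ κ₀ B₀ : ℝ) (hκ : 0 < κ₀) (hδ : 0 ≤ δ₂)
    (h : NarrowB (wadVel '' T) δ₂ τ κ₀ B₀) :
    ∃ Q : QHyp n, Q.Ok (n * B₀) 1 ∧ T ⊆ Q.nbhd (n * B₀) (n * δ₂) (τ * ((1 + n * B₀) ^ 2 / κ₀)) := by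
  obtain ⟨a, c, S, b, c0, ha, hc, -, ⟨u₀, hu₀c, hu₀B, hu₀κ⟩, H3⟩ := h
  have hn' : (1 : ℝ) ≤ n := by exact_mod_cast hn
  have hB2 : 2 ≤ B₀ := by linarith [abs_nonneg c]
  have hB0 : 0 ≤ B₀ := by linarith
  have hsq : Real.sqrt n ≤ n := wv_sqrt_le hn
  have hsq0 : 0 ≤ Real.sqrt n := Real.sqrt_nonneg _
  have hnB : B₀ ≤ n * B₀ := by nlinarith
  have hsB : Real.sqrt n * B₀ ≤ n * B₀ := mul_le_mul_of_nonneg_right hsq hB0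
  set e : E n := WithLp.toLp 2 a with he
  have hee : ⟪e, e⟫_ℝ = 1 := by
    rw [wv_inner, ← ha]
    refine Finset.sum_congr rfl fun i _ => ?_
    simp only [he]
    ring
  have hen : ‖e‖ = 1 := by
    have h1 : ‖e‖ ^ 2 = 1 := by rw [← real_inner_self_eq_norm_sq, hee]
    exact (pow_eq_one_iff_of_nonneg (norm_nonneg e) two_ne_zero).1 h1
  set o : E n := (c / 2) • e with ho
  have heo : ⟪e, o⟫_ℝ = c / 2 := by rw [ho, inner_smul_right, hee, mul_one]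
  have hon : ‖o‖ = |c| / 2 := by rw [ho, norm_smul, hen, mul_one, Real.norm_eq_abs, abs_div, abs_two]
  obtain ⟨A, l, q, hA, hpoly⟩ := wad_poly_op S b c0 o
  have hhalf : ∀ u : Fin n → ℝ, ∑ i, a i * u i = c → ⟪e, (1 / 2 : ℝ) • (WithLp.toLp 2 u : E n)⟫_ℝ = c / 2 := by
    intro u hu
    have := wv_sum_vel a ((1 / 2 : ℝ) • (WithLp.toLp 2 u : E n))
    rw [wv_vel_half, hu] at this
    linarith
  have hpu : ∀ u : Fin n → ℝ, wqPoly S b c0 u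
      = ⟪A ((1 / 2 : ℝ) • (WithLp.toLp 2 u : E n) - o), (1 / 2 : ℝ) • (WithLp.toLp 2 u : E n) - o⟫_ℝ
        + ⟪l, (1 / 2 : ℝ) • (WithLp.toLp 2 u : E n) - o⟫_ℝ + q := by
    intro u
    rw [← hpoly]
    have : wadVel ((1 / 2 : ℝ) • (WithLp.toLp 2 u : E n)) = u := wv_vel_half u
    rw [this]
  have hx₀r : ‖(1 / 2 : ℝ) • (WithLp.toLp 2 u₀ : E n) - o‖ ≤ n * B₀ := by
    have := wv_half_norm u₀ B₀ hB0 hu₀B
    calc _ ≤ ‖(1 / 2 : ℝ) • (WithLp.toLp 2 u₀ : E n)‖ + ‖o‖ := norm_sub_le _ _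
      _ ≤ Real.sqrt n * B₀ / 2 + |c| / 2 := by rw [hon]; linarith
      _ ≤ n * B₀ := by linarith [abs_nonneg c]
  obtain ⟨Q, hQ, hQe, hQh, hQv⟩ := wad_qhyp e o (c / 2) hen heo A hA l q κ₀ (n * B₀) hκ (by positivity)
    ((1 / 2 : ℝ) • (WithLp.toLp 2 u₀ : E n)) (hhalf u₀ hu₀c) hx₀r (by rw [← hpu]; exact hu₀κ) (n * B₀) (by linarith)
    (by rw [hon]; linarith [abs_nonneg c])
  refine ⟨Q, hQ, fun v hv => ?_⟩
  obtain ⟨u', hu'c, hu'B, hu'τ, hu'δ⟩ := H3 (wadVel v) ⟨v, hv, rfl⟩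
  refine ⟨(1 / 2 : ℝ) • (WithLp.toLp 2 u' : E n), ?_, ?_, ?_, ?_⟩
  · rw [hQe, hQh]
    exact hhalf u' hu'c
  · have := wv_half_norm u' B₀ hB0 hu'B
    linarith
  · refine (hQv _ (hhalf u' hu'c)).trans ?_
    rw [← hpu]
    exact mul_le_mul_of_nonneg_right hu'τ (by positivity)
  · have h1 := wv_norm_le (v - (1 / 2 : ℝ) • (WithLp.toLp 2 u' : E n)) (δ₂ / 2) (by positivity) (fun i => by
      have := hu'δ i
      have e1 : (v - (1 / 2 : ℝ) • (WithLp.toLp 2 u' : E n)) i = (wadVel v i - u' i) / 2 := by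
        simp only [wadVel, PiLp.sub_apply, PiLp.smul_apply, smul_eq_mul]
        ring
      rw [e1, abs_div, abs_two]
      linarith)
    have h2 := mul_le_mul_of_nonneg_right hsq hδ
    have h3 : 0 ≤ Real.sqrt n * δ₂ := by positivity
    linarith

/-- **LEAF L-WAD-NN: EXIT of part 1.**   Contrapositive.  (a) `wad_strip` with `h = 3 (1/R)`: `n * (3 * (1/R)) = 3 * n / R`.   (b) `wad_nbhd` with `δ₂ = 2 (1/R)`, `τ = wadTau n U₀ R`, `κ₀ = wqK0 n U₀ > 0`: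
`wadTau * ((1 + n B₀)² / κ₀) = R⁻¹ ^ 4` (`field_simp`); the width `n * (2 * (1/R)) ≤ 3 * n / R` (enlarge the neighbourhood: unfold `QHyp.nbhd`). -/
theorem wad_not_narrow (hn : 2 ≤ n) (U₀ R : ℝ) (hU : 0 ≤ U₀) (hR : 0 < R) (T : Set (E n))
    (h : ¬ Narrow (3 * n) (n * wqB0 n U₀) 1 R T) :
    ¬ NarrowA (wadVel '' T) (3 * (1 / R)) ∧
      ¬ NarrowB (wadVel '' T) (2 * (1 / R)) (wadTau n U₀ R) (wqK0 n U₀) (wqB0 n U₀) := by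
  have hn' : (2 : ℝ) ≤ n := by exact_mod_cast hn
  have hB : 10 ≤ wqB0 n U₀ := by
    unfold wqB0
    have : 0 ≤ 8 * (n : ℝ) * U₀ := by positivity
    linarith
  have hG : 0 < wqG n U₀ := by
    unfold wqG
    positivity
  have hK : 0 < wqK0 n U₀ := by
    unfold wqK0
    positivity
  constructor
  · intro H
    apply h
    left
    have := wad_strip hn T _ H
    have e : 3 * (n : ℝ) / R = n * (3 * (1 / R)) := by ring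
    rw [e]
    exact this
  · intro H
    apply h
    right
    obtain ⟨Q, hQ, hT⟩ := wad_nbhd (by omega) T _ _ _ _ hK (by positivity) H
    refine ⟨Q, hQ, fun v hv => ?_⟩
    obtain ⟨x, h1, h2, h3, h4⟩ := hT hv
    refine ⟨x, h1, h2, ?_, h4.trans ?_⟩
    · have e : wadTau n U₀ R * ((1 + n * wqB0 n U₀) ^ 2 / wqK0 n U₀) = R⁻¹ ^ 4 := by
        unfold wadTau
        have h5 : (1 + (n : ℝ) * wqB0 n U₀) ≠ 0 := by positivity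
        field_simp
      rw [e] at h3
      exact h3
    · have e : 3 * (n : ℝ) / R = 3 * (n * (1 / R)) := by ring
      rw [e]
      have h0 : 0 ≤ (n : ℝ) * (1 / R) := by positivity
      nlinarith

end Claimed.Agent.R257
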