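import Claimed.Agent.R257.Weak.Deep
import Claimed.Agent.R257.Weak.AdaptNar

/-!
# R257 / Weak / AdaptTr : ADAPTER (post BP-257-WEAK-ADAPT), part 2: TUBE COORDINATES (H wall.tex l.99-110)            (architect helper67)            CONTRACT
PAPER-FREE.   `Φ = wadPhi L x₀ : ST n → (Fin (n+1) → ℝ)`, `Φ (x,t) = ((x - x₀)/L, t/L)` (time = LAST coordinate, sup norm), inverse `Ψ = wadPsi L x₀`;
`ν = wadNu μ m L x₀ Y = (m L^n)⁻¹ • (μ|_Y).map Φ`;  the trajectory of `α` becomes the line `Φ (y_α, 0) + ℝ (2 ω_α, 1)`;  plates are transported back.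
Every `sorry` is a leaf `L-WAD-*`.  Statements are frozen (a FALSE statement: one line to helper67); auxiliary lemmas (prefix `wad_`) directly above your theorem; edit only your block.
-/

set_option autoImplicit false

namespace Claimed.Agent.R257

open MeasureTheory Metric Set
open scoped ENNReal InnerProductSpace

variable {n : ℕ} {ι : Type}

/-- tube coordinates -/
noncomputable def wadPhi (L : ℝ) (x₀ : E n) (z : ST n) : Fin (n + 1) → ℝ :=
  Fin.snoc (fun i : Fin n => (z.1 i - x₀ i) / L) (z.2 / L)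

/-- the inverse of the tube coordinates -/
noncomputable def wadPsi (L : ℝ) (x₀ : E n) (y : Fin (n + 1) → ℝ) : ST n :=
  (WithLp.toLp 2 (fun i : Fin n => x₀ i + L * y i.castSucc), L * y (Fin.last n))

/-- the normalised measure in tube coordinates -/
noncomputable def wadNu (μ : Measure (ST n)) (m L : ℝ) (x₀ : E n) (Y : Set (ST n)) : Measure (Fin (n + 1) → ℝ) :=
  (ENNReal.ofReal (m * L ^ n))⁻¹ • (μ.restrict Y).map (wadPhi L x₀)

@[simp] theorem wadPhi_castSucc (L : ℝ) (x₀ : E n) (z : ST n) (i : Fin n) : wadPhi L x₀ z i.castSucc = (z.1 i - x₀ i) / L := by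
  simp [wadPhi]

@[simp] theorem wadPhi_last (L : ℝ) (x₀ : E n) (z : ST n) : wadPhi L x₀ z (Fin.last n) = z.2 / L := by
  simp [wadPhi]

/-! ### LEAF L-WAD-PHI : elementary properties of the coordinates -/

/-- (`continuous_pi`, `Fin.lastCases`, the simp lemmas, `fun_prop`; coordinates of `E n`: `EuclideanSpace.proj` / `PiLp.continuous_apply`) -/
theorem wad_phi_continuous (L : ℝ) (x₀ : E n) : Continuous (wadPhi L x₀) := by

  refine continuous_pi fun i => ?_
  refine Fin.lastCases ?_ (fun i => ?_) i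
  · simp only [wadPhi_last]; fun_prop
  · simp only [wadPhi_castSucc]; fun_prop

theorem wad_psi_phi {L : ℝ} (hL : L ≠ 0) (x₀ : E n) (z : ST n) : wadPsi L x₀ (wadPhi L x₀ z) = z := by

  refine Prod.ext ?_ ?_
  · ext i
    simp only [wadPsi, wadPhi_castSucc]
    field_simp
    ring
  · simp only [wadPsi, wadPhi_last]
    field_simp

theorem wad_phi_psi {L : ℝ} (hL : L ≠ 0) (x₀ : E n) (y : Fin (n + 1) → ℝ) : wadPhi L x₀ (wadPsi L x₀ y) = y := by

  funext i
  refine Fin.lastCases ?_ (fun i => ?_) i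
  · simp only [wadPhi_last, wadPsi]
    field_simp
  · simp only [wadPhi_castSucc, wadPsi]
    field_simp
    ring

/-- the box goes into a cube  (`pi_norm_le_iff_of_nonneg`, `Fin.lastCases`; `|(z.1 - x₀) i| ≤ ‖z.1 - x₀‖`: `PiLp.norm_apply_le` / `EuclideanSpace.norm_eq`; `a L²/L = a L`) -/
theorem wad_phi_box {L K a b : ℝ} (hL : 0 < L) (hK : 0 ≤ K) (ha : a ≤ K) (hb : b ≤ K) (x₀ : E n) (z : ST n)
    (h1 : ‖z.1 - x₀‖ ≤ a * L ^ 2) (h2 : |z.2| ≤ b * L ^ 2) : wadPhi L x₀ z ∈ closedBall (0 : Fin (n + 1) → ℝ) (K * L) := by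

  rw [mem_closedBall, dist_zero_right, pi_norm_le_iff_of_nonneg (by positivity)]
  intro i
  refine Fin.lastCases ?_ (fun i => ?_) i
  · rw [wadPhi_last, Real.norm_eq_abs, abs_div, abs_of_pos hL, div_le_iff₀ hL]
    calc |z.2| ≤ b * L ^ 2 := h2
      _ ≤ K * L ^ 2 := mul_le_mul_of_nonneg_right hb (by positivity)
      _ = K * L * L := by ring
  · rw [wadPhi_castSucc, Real.norm_eq_abs, abs_div, abs_of_pos hL, div_le_iff₀ hL]
    have h3 : |z.1 i - x₀ i| ≤ ‖z.1 - x₀‖ := by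
      have := PiLp.norm_apply_le (z.1 - x₀) i
      simpa using this
    calc |z.1 i - x₀ i| ≤ ‖z.1 - x₀‖ := h3
      _ ≤ a * L ^ 2 := h1
      _ ≤ K * L ^ 2 := mul_le_mul_of_nonneg_right ha (by positivity)
      _ = K * L * L := by ring

/-- preimage of a cube: `z' = wadPsi L x₀ y`;  `‖z.1 - z'.1‖² = ∑ (L ((z.1 i - x₀ i)/L - y i))² ≤ n (L r)² ≤ (n L r)²`;  `|z.2 - z'.2| = L |z.2/L - y last| ≤ L r ≤ n L r`;  the metric of `ST n` is the sup metric (`Prod.dist_eq`, `max_le`). -/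
theorem wad_phi_preimage {L : ℝ} (hn : 1 ≤ n) (hL : 0 < L) (x₀ : E n) (y : Fin (n + 1) → ℝ) (r : ℝ) :
    wadPhi L x₀ ⁻¹' closedBall y r ⊆ closedBall (wadPsi L x₀ y) (n * L * r) := by

  intro z hz
  rw [mem_preimage, mem_closedBall, dist_eq_norm] at hz
  have hr : 0 ≤ r := (norm_nonneg _).trans hz
  rw [pi_norm_le_iff_of_nonneg hr] at hz
  have hn1 : (1 : ℝ) ≤ n := by exact_mod_cast hn
  have hLr : 0 ≤ L * r := by positivity
  rw [mem_closedBall, Prod.dist_eq]
  refine max_le ?_ ?_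
  · rw [dist_eq_norm, EuclideanSpace.norm_eq]
    have h1 : ∀ i : Fin n, ‖(z.1 - (wadPsi L x₀ y).1) i‖ ^ 2 ≤ (L * r) ^ 2 := by
      intro i
      have h2 := hz i.castSucc
      rw [Pi.sub_apply, wadPhi_castSucc, Real.norm_eq_abs] at h2
      have e : (z.1 - (wadPsi L x₀ y).1) i = L * ((z.1 i - x₀ i) / L - y i.castSucc) := by
        simp only [wadPsi, PiLp.sub_apply]
        field_simp
        ring
      rw [e, Real.norm_eq_abs, abs_mul, abs_of_pos hL]
      exact pow_le_pow_left₀ (by positivity) (mul_le_mul_of_nonneg_left h2 hL.le) 2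
    calc Real.sqrt (∑ i, ‖(z.1 - (wadPsi L x₀ y).1) i‖ ^ 2) ≤ Real.sqrt (∑ _i : Fin n, (L * r) ^ 2) :=
          Real.sqrt_le_sqrt (Finset.sum_le_sum fun i _ => h1 i)
      _ = Real.sqrt (n * (L * r) ^ 2) := by rw [Finset.sum_const, Finset.card_univ, Fintype.card_fin, nsmul_eq_mul]
      _ ≤ Real.sqrt ((n * L * r) ^ 2) := by
          refine Real.sqrt_le_sqrt ?_
          have : (n * L * r) ^ 2 = (n : ℝ) * (n * (L * r) ^ 2) := by ring
          rw [this]
          have h3 : 0 ≤ (n : ℝ) * (L * r) ^ 2 := by positivity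
          nlinarith
      _ = n * L * r := Real.sqrt_sq (by positivity)
  · have h2 := hz (Fin.last n)
    rw [Pi.sub_apply, wadPhi_last, Real.norm_eq_abs] at h2
    rw [Real.dist_eq]
    have e : z.2 - (wadPsi L x₀ y).2 = L * (z.2 / L - y (Fin.last n)) := by
      simp only [wadPsi]
      field_simp
    rw [e, abs_mul, abs_of_pos hL]
    calc L * |z.2 / L - y (Fin.last n)| ≤ L * r := mul_le_mul_of_nonneg_left h2 hL.le
      _ ≤ n * L * r := by nlinarith

/-! ### LEAF L-WAD-NU : the normalised measure -/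

/-- (`Measure.smul_apply`, `Measure.map_apply` (`wad_phi_continuous`, `measurableSet_closedBall`), `Measure.restrict_le_self`, `wad_phi_preimage`, `hG` at the radius `n L r ≥ 1`;
`(n L r)^(n:ℝ) = n^n L^n r^n` (`Real.rpow_natCast`, `mul_pow`); `(ofReal (m L^n))⁻¹ * ofReal (m L^n * (n^n r^n)) = ofReal (n^n r^n)` (`ENNReal.ofReal_mul`, `ENNReal.inv_mul_cancel`)) -/
theorem wad_nu_ball {μ : Measure (ST n)} {m L : ℝ} (hn : 1 ≤ n) (hm : 0 < m) (hL : 1 ≤ L) (hG : Grow μ m n) (x₀ : E n) (Y : Set (ST n))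
    (y : Fin (n + 1) → ℝ) (r : ℝ) (hr : 1 ≤ r) : wadNu μ m L x₀ Y (closedBall y r) ≤ ENNReal.ofReal ((n : ℝ) ^ n * r ^ n) := by

  have hL0 : 0 < L := by linarith
  have hc : 0 < m * L ^ n := by positivity
  have hn1 : (1 : ℝ) ≤ n := by exact_mod_cast hn
  have hrad : 1 ≤ n * L * r := by
    have : 1 ≤ (n : ℝ) * L := by nlinarith
    nlinarith
  unfold wadNu
  rw [Measure.smul_apply, smul_eq_mul, Measure.map_apply (wad_phi_continuous L x₀).measurable measurableSet_closedBall]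
  calc (ENNReal.ofReal (m * L ^ n))⁻¹ * (μ.restrict Y) (wadPhi L x₀ ⁻¹' closedBall y r)
      ≤ (ENNReal.ofReal (m * L ^ n))⁻¹ * ENNReal.ofReal (m * (n * L * r) ^ (n : ℝ)) := by
        refine mul_le_mul_right ?_ _
        exact (Measure.restrict_le_self _).trans ((measure_mono (wad_phi_preimage hn hL0 x₀ y r)).trans (hG _ _ hrad))
    _ = ENNReal.ofReal ((n : ℝ) ^ n * r ^ n) := by
        rw [← ENNReal.ofReal_inv_of_pos hc, ← ENNReal.ofReal_mul (by positivity)]
        congr 1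
        rw [Real.rpow_natCast, mul_pow, mul_pow]
        field_simp

/-- (total mass `(ofReal (m L^n))⁻¹ * μ Y`) -/
theorem wad_nu_finite {μ : Measure (ST n)} {m L : ℝ} (hm : 0 < m) (hL : 0 < L) (x₀ : E n) {Y : Set (ST n)} (hY : μ Y ≠ ⊤) :
    IsFiniteMeasure (wadNu μ m L x₀ Y) := by

  have hc : 0 < m * L ^ n := by positivity
  refine ⟨?_⟩
  unfold wadNu
  rw [Measure.smul_apply, smul_eq_mul, Measure.map_apply (wad_phi_continuous L x₀).measurable MeasurableSet.univ,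
    preimage_univ, Measure.restrict_apply_univ]
  refine ENNReal.mul_lt_top ?_ (lt_top_iff_ne_top.2 hY)
  rw [ENNReal.inv_lt_top]
  simpa using hc

/-- `Y` need not be measurable.   `≤`: `measure_mono (subset_univ _)`, `Measure.map_apply .. MeasurableSet.univ`, `Measure.restrict_apply_univ`.   `≥`: `Measure.le_map_apply`, `subset_preimage_image`, `Measure.restrict_apply_self`. -/
theorem wad_nu_image (μ : Measure (ST n)) (m L : ℝ) (x₀ : E n) (Y : Set (ST n)) :
    wadNu μ m L x₀ Y (wadPhi L x₀ '' Y) = (ENNReal.ofReal (m * L ^ n))⁻¹ * μ Y := by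

  unfold wadNu
  rw [Measure.smul_apply, smul_eq_mul]
  congr 1
  refine le_antisymm ?_ ?_
  · calc (μ.restrict Y).map (wadPhi L x₀) (wadPhi L x₀ '' Y) ≤ (μ.restrict Y).map (wadPhi L x₀) univ := measure_mono (subset_univ _)
      _ = μ Y := by
          rw [Measure.map_apply (wad_phi_continuous L x₀).measurable MeasurableSet.univ, preimage_univ,
            Measure.restrict_apply_univ]
  · calc μ Y = (μ.restrict Y) Y := (Measure.restrict_apply_self _ _).symm
      _ ≤ (μ.restrict Y) (wadPhi L x₀ ⁻¹' (wadPhi L x₀ '' Y)) := measure_mono (subset_preimage_image _ _)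
      _ ≤ _ := Measure.le_map_apply (wad_phi_continuous L x₀).measurable.aemeasurable _

/-- `Z` need not be measurable.   (`Measure.le_restrict_apply`, `Measure.le_map_apply`, `ENNReal.mul_inv_cancel`) -/
theorem wad_nu_preimage {μ : Measure (ST n)} {m L : ℝ} (hm : 0 < m) (hL : 0 < L) (x₀ : E n) (Y : Set (ST n)) (Z : Set (Fin (n + 1) → ℝ)) :
    μ (Y ∩ wadPhi L x₀ ⁻¹' Z) ≤ ENNReal.ofReal (m * L ^ n) * wadNu μ m L x₀ Y Z := by

  have hc : 0 < m * L ^ n := by positivity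
  unfold wadNu
  rw [Measure.smul_apply, smul_eq_mul, ← mul_assoc, ENNReal.mul_inv_cancel (by simpa using hc) ENNReal.ofReal_ne_top, one_mul]
  calc μ (Y ∩ wadPhi L x₀ ⁻¹' Z) = μ (wadPhi L x₀ ⁻¹' Z ∩ Y) := by rw [inter_comm]
    _ ≤ (μ.restrict Y) (wadPhi L x₀ ⁻¹' Z) := Measure.le_restrict_apply _ _
    _ ≤ _ := Measure.le_map_apply (wad_phi_continuous L x₀).measurable.aemeasurable _

/-! ### LEAF L-WAD-INC : lines, bins, incidences -/

/-- time parameter `t = z.2 / L`:  the spatial coordinates of `Φ z - Φ (y_α,0) - t • (2ω_α, 1)` are `(z.1 - y_α - (2 z.2) • ω_α) i / L`, the last one is `0`;  `0 ≤ ρ` follows from `h`. -/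
theorem wad_tube (A : Arr n ι) (α : ι) (x₀ : E n) (z : ST n) (ρ : ℝ) (hL : 0 < A.L) (h : A.tdist α z ≤ ρ * A.L) :
    wadPhi A.L x₀ z ∈ MK.tube (wadPhi A.L x₀ (A.y α, 0)) (wqDir (wadVel (A.om α))) ρ := by

  have hρ : 0 ≤ ρ := by
    have h0 : 0 ≤ A.tdist α z := norm_nonneg _
    by_contra hneg
    push Not at hneg
    have := mul_neg_of_neg_of_pos hneg hL
    linarith
  refine ⟨z.2 / A.L, ?_⟩
  rw [pi_norm_le_iff_of_nonneg hρ]
  intro i
  refine Fin.lastCases ?_ (fun i => ?_) i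
  · simp only [Pi.sub_apply, Pi.smul_apply, wadPhi_last, wqDir, Fin.snoc_last, smul_eq_mul]
    simpa using hρ
  · simp only [Pi.sub_apply, Pi.smul_apply, wadPhi_castSucc, wqDir, Fin.snoc_castSucc, smul_eq_mul, wadVel]
    have e : (z.1 i - x₀ i) / A.L - (A.y α i - x₀ i) / A.L - z.2 / A.L * (2 * A.om α i)
        = (z.1 - A.y α - (2 * z.2) • A.om α) i / A.L := by
      simp only [PiLp.sub_apply, PiLp.smul_apply, smul_eq_mul]
      field_simp
      ring
    rw [e, Real.norm_eq_abs, abs_div, abs_of_pos hL, div_le_iff₀ hL]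
    have h3 : |(z.1 - A.y α - (2 * z.2) • A.om α) i| ≤ ‖z.1 - A.y α - (2 * z.2) • A.om α‖ := by
      have := PiLp.norm_apply_le (z.1 - A.y α - (2 * z.2) • A.om α) i
      simpa using this
    exact h3.trans h

/-- (`Int.floor_le`, `Int.lt_floor_add_one`: `|R w i - ⌊R w i⌋ - 1/2| ≤ 1/2`) -/
theorem wad_cen {R : ℝ} (hR : 0 < R) (w : E n) (i : Fin n) : |wadVel w i - wadVel (wbinc R (wbin R w)) i| ≤ 1 / R := by

  have h1 := Int.floor_le (R * w i)
  have h2 := Int.lt_floor_add_one (R * w i)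
  have e : wadVel w i - wadVel (wbinc R (wbin R w)) i = 2 * (R * w i - ⌊R * w i⌋ - 1 / 2) / R := by
    simp only [wadVel, wbinc, wbin]
    field_simp
    ring
  rw [e, abs_div, abs_of_pos hR]
  refine div_le_div_of_nonneg_right ?_ hR.le
  rw [abs_le]
  constructor <;> linarith

theorem wad_vel_le (w : E n) (i : Fin n) : |wadVel w i| ≤ 2 * ‖w‖ := by

  have h3 : |w i| ≤ ‖w‖ := by
    have := PiLp.norm_apply_le w i
    simpa using this
  unfold wadVel
  rw [abs_mul, abs_of_pos (by norm_num : (0 : ℝ) < 2)]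
  linarith


theorem wad_tube_mono {N : ℕ} (a v : Fin N → ℝ) {r r' : ℝ} (h : r ≤ r') : MK.tube a v r ⊆ MK.tube a v r' := by
  rintro x ⟨t, ht⟩
  exact ⟨t, ht.trans h⟩

theorem wad_tw_le_one (A : Arr n ι) (M : ℕ) (α : ι) (z : ST n) (hL : 0 < A.L) : A.tw M α z ≤ 1 := by
  unfold Arr.tw
  have h0 : 0 ≤ A.tdist α z := norm_nonneg _
  have h1 : 1 ≤ 1 + A.tdist α z / A.L := by
    have : 0 ≤ A.tdist α z / A.L := by positivity
    linarith
  rw [zpow_neg, zpow_natCast]
  exact inv_le_one_of_one_le₀ (one_le_pow₀ h1)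

open Classical in
/-- **(iii) ⟹ (H1).**   `tw ≤ 1` (`zpow` of a number `≥ 1` with a nonpositive exponent);  `wad_tube` and monotonicity of tubes in the radius;  sum over the subtype: `Finset.sum_coe_sort`/`Finset.sum_attach`, `Finset.sum_filter`, `Finset.sum_le_sum`. -/
theorem wad_H1 (H : WH n ι) (x₀ : E n) (ρ r0 : ℝ) (hL : 0 < H.A.L) (hρ : ρ ≤ r0) (b : BI n) (z : ST n) :
    H.near ρ b z ≤ ∑ α : {α // α ∈ H.s}, if wbin H.R (H.A.om α) = b ∧
      wadPhi H.A.L x₀ z ∈ MK.tube (wadPhi H.A.L x₀ (H.A.y α, 0)) (wqDir (wadVel (H.A.om α))) r0 then ‖H.c α‖ ^ 2 else 0 := by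

  rw [Finset.sum_coe_sort H.s (fun α => if wbin H.R (H.A.om α) = b ∧
      wadPhi H.A.L x₀ z ∈ MK.tube (wadPhi H.A.L x₀ (H.A.y α, 0)) (wqDir (wadVel (H.A.om α))) r0 then ‖H.c α‖ ^ 2 else 0)]
  unfold WH.near WH.bin
  rw [Finset.filter_filter, Finset.sum_filter]
  refine Finset.sum_le_sum fun α _ => ?_
  by_cases h1 : wbin H.R (H.A.om α) = b ∧ H.A.tdist α z ≤ ρ * H.A.L
  · rw [if_pos h1, if_pos ⟨h1.1, wad_tube_mono _ _ hρ (wad_tube H.A α x₀ z ρ hL h1.2)⟩]
    have h2 := wad_tw_le_one H.A H.M α z hL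
    have h3 : 0 ≤ ‖H.c α‖ ^ 2 := by positivity
    nlinarith
  · rw [if_neg h1]
    split_ifs
    · positivity
    · exact le_rfl

/-! ### LEAF L-WAD-PLATE : plates back to the original coordinates -/

/-- `p = π.1`, `σ = √(∑ p i²) ≥ ‖p‖ ≥ 1` (sup norm `≤` Euclidean norm: `pi_norm_le_iff_of_nonneg`, `Finset.single_le_sum`, `Real.le_sqrt`);  `nx = toLp (fun i => p i.castSucc / σ)`, `nt = p last / σ`, `a = (L π.2 + ∑ i, p i.castSucc * x₀ i) / σ`.
`‖nx‖² + nt² = (∑ p i²)/σ² = 1` (`EuclideanSpace.norm_eq`/`real_inner_self_eq_norm_sq`, `Fin.sum_univ_castSucc`);  `⟪nx, z.1⟫ + nt z.2 - a = (L/σ) (∑ i, p i * Φ z i - π.2)`. -/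
theorem wad_plate {L : ℝ} (hL : 0 < L) (x₀ : E n) (π : (Fin (n + 1) → ℝ) × ℝ) (hπ : 1 ≤ ‖π.1‖) :
    ∃ P : Plate n, ‖P.nx‖ ^ 2 + P.nt ^ 2 = 1 ∧ ∀ z : ST n, P.dist z ≤ L * |∑ i, π.1 i * wadPhi L x₀ z i - π.2| := by

  obtain ⟨p, a⟩ := π
  simp only at hπ ⊢
  obtain ⟨σ, hσ⟩ : ∃ σ, σ = Real.sqrt (∑ i, p i ^ 2) := ⟨_, rfl⟩
  have hsum0 : 0 ≤ ∑ i, p i ^ 2 := Finset.sum_nonneg fun i _ => sq_nonneg _
  have hσ2 : σ ^ 2 = ∑ i, p i ^ 2 := by rw [hσ, Real.sq_sqrt hsum0]
  have hσ0 : 0 ≤ σ := by rw [hσ]; exact Real.sqrt_nonneg _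
  have hpσ : ‖p‖ ≤ σ := by
    rw [pi_norm_le_iff_of_nonneg hσ0]
    intro i
    rw [hσ, Real.norm_eq_abs]
    refine Real.abs_le_sqrt ?_
    exact Finset.single_le_sum (f := fun i => p i ^ 2) (fun i _ => sq_nonneg _) (Finset.mem_univ i)
  have hσ1 : 1 ≤ σ := hπ.trans hpσ
  have hσpos : 0 < σ := by linarith
  refine ⟨⟨WithLp.toLp 2 (fun i : Fin n => p i.castSucc / σ), p (Fin.last n) / σ,
    (L * a + ∑ i : Fin n, p i.castSucc * x₀ i) / σ⟩, ?_, ?_⟩
  · simp only
    rw [EuclideanSpace.norm_sq_eq]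
    simp only [Real.norm_eq_abs, sq_abs, div_pow]
    rw [← Finset.sum_div, ← add_div, hσ2, Fin.sum_univ_castSucc]
    refine div_self ?_
    rw [← Fin.sum_univ_castSucc (f := fun i => p i ^ 2), ← hσ2]
    positivity
  · intro z
    unfold Plate.dist
    simp only
    have e : ⟪(WithLp.toLp 2 (fun i : Fin n => p i.castSucc / σ) : E n), z.1⟫_ℝ + p (Fin.last n) / σ * z.2
        - (L * a + ∑ i : Fin n, p i.castSucc * x₀ i) / σ = L * (∑ i, p i * wadPhi L x₀ z i - a) / σ := by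
      rw [Fin.sum_univ_castSucc]
      simp only [wadPhi_castSucc, wadPhi_last, PiLp.inner_apply, RCLike.inner_apply, conj_trivial]
      have e1 : ∑ i : Fin n, p i.castSucc * ((z.1 i - x₀ i) / L) = (∑ i : Fin n, p i.castSucc * z.1 i - ∑ i : Fin n, p i.castSucc * x₀ i) / L := by
        rw [← Finset.sum_sub_distrib, Finset.sum_div]
        refine Finset.sum_congr rfl fun i _ => ?_
        ring
      have e2 : ∑ i : Fin n, z.1 i * (p i.castSucc / σ) = (∑ i : Fin n, p i.castSucc * z.1 i) / σ := by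
        rw [Finset.sum_div]
        refine Finset.sum_congr rfl fun i _ => ?_
        ring
      rw [e1, e2]
      field_simp
      ring
    rw [e, abs_div, abs_of_pos hσpos, abs_mul, abs_of_pos hL]
    exact div_le_self (by positivity) hσ1

/-- the set of the points near a plate is closed (`Plate.dist` is continuous) -/
theorem wad_plate_meas (P : Plate n) (r : ℝ) : MeasurableSet {z : ST n | P.dist z ≤ r} := by

  have h1 : Continuous fun z : ST n => P.dist z := by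
    unfold Plate.dist
    fun_prop
  exact (isClosed_le h1 continuous_const).measurableSet

end Claimed.Agent.R257
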