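import Claimed.Agent.R257.Weak.Defs

/-!
# R257 / Weak / Easy : POST BP-257-WEAK-EASY, part 1        (architect helper212, captain helper244)

H weak.tex l.36-150.  Prefix `ww_`.  Everything is paper free and has explicit constants.

* `ww_induct`   the double induction: `Step` with `WOuter`, `WInner`  ⟹  `WeakAt` for all `1 ≤ D ≤ L`
* `WeakAtE`, `ww_norm`     reduction to coefficient energy `1`
* `ww_cube_le`  `Dens μ m χ ⟹ μ (cube k) ≤ n^n m χ`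
* `ww_cheb`     Chebyshev through the fractal square functional
* `ww_total`    total mass of an admissible measure
* `ww_easy_core`, `ww_g1 .. ww_g4`     the easy ranges
* `WEasyNum`, `WActive`, `ww_reduce`, `ww_main`   what is left: THE ACTIVE RANGE (w:eq-active)
The removal of the spatial box (`ww_nobox`) is in `Weak/EasyBox.lean`.
-/

set_option autoImplicit false

namespace Claimed.Agent.R257

open MeasureTheory Metric Set
open scoped ENNReal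

variable {n : ℕ} {ι : Type}

/-! ## (a) the double induction -/

/-- **the double induction of w:weak** (outer: dyadic range of `L`; inner: number of doublings of `D` up to `L`) -/
theorem ww_induct {W : WCon} {X : WExp}
    (step : ∀ L D : ℝ, 1 ≤ D → D ≤ L → WOuter n W X L → WInner n W X L D → WeakAt n W X L D) :
    ∀ L D : ℝ, 1 ≤ D → D ≤ L → WeakAt n W X L D := by
  have outer : ∀ N : ℕ, ∀ L D : ℝ, L < 2 ^ N → 1 ≤ D → D ≤ L → WeakAt n W X L D := by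
    intro N
    induction N with
    | zero =>
      intro L D hL hD hDL
      exfalso
      simp only [pow_zero] at hL
      linarith
    | succ N ih =>
      intro L D hL hD hDL
      have hout : WOuter n W X L := by
        intro L' D' h1 h2 h3
        refine ih L' D' ?_ h1 h2
        rw [pow_succ] at hL
        linarith
      have inner : ∀ k : ℕ, ∀ D : ℝ, L < 2 ^ k * D → 1 ≤ D → D ≤ L → WeakAt n W X L D := by
        intro k
        induction k with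
        | zero =>
          intro D h1 h2 h3
          exfalso
          simp only [pow_zero, one_mul] at h1
          linarith
        | succ k ihk =>
          intro D h1 h2 h3
          refine step L D h2 h3 hout ?_
          intro D' h4 h5
          refine ihk D' ?_ (by linarith) h5
          rw [pow_succ] at h1
          have : (0 : ℝ) < 2 ^ k := by positivity
          nlinarith
      refine inner (N + 1) D ?_ hD hDL
      have : (0 : ℝ) < 2 ^ (N + 1) := by positivity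
      nlinarith
  intro L D hD hDL
  obtain ⟨N, hN⟩ := pow_unbounded_of_one_lt L (one_lt_two : (1 : ℝ) < 2)
  exact outer N L D hN hD hDL

/-! ## (b) normalisation of the energy -/

/-- w:weak at `(L, D)` for arrays of coefficient energy `1` -/
def WeakAtE (n : ℕ) (W : WCon) (X : WExp) (L D : ℝ) : Prop :=
  ∀ (ι : Type) (A : Arr n ι) (s : Finset ι) (c : ι → ℂ) (μ : Measure (ST n)) (m χ g : ℝ),
    A.L = L → A.In s W.K → (∀ α ∈ s, A.tc α = 0) → 0 ≤ m → 0 < χ → χ ≤ 1 → 0 < g → Adm W A s μ m χ D → energy s c = 1 →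
    μ (wset A s c (wlev n X.a χ g L)) ≤ ENNReal.ofReal (wrhs n X m L g D 1)

theorem ww_energy_nonneg (s : Finset ι) (c : ι → ℂ) : 0 ≤ energy s c :=
  Finset.sum_nonneg fun _ _ => by positivity

theorem ww_wlev_pos {a χ g L : ℝ} (hχ : 0 < χ) (hg : 0 < g) (hL : 0 < L) : 0 < wlev n a χ g L := by
  unfold wlev
  have h1 := Real.rpow_pos_of_pos hχ a
  have h2 := Real.rpow_pos_of_pos hL (-eex n)
  positivity

theorem ww_fld_smul (A : Arr n ι) (s : Finset ι) (c : ι → ℂ) (r : ℂ) (z : ST n) :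
    A.fld s (fun α => r * c α) z = r * A.fld s c z := by
  unfold Arr.fld
  rw [Finset.mul_sum]
  exact Finset.sum_congr rfl fun α _ => by ring

theorem ww_energy_smul (s : Finset ι) (c : ι → ℂ) (r : ℂ) :
    energy s (fun α => r * c α) = ‖r‖ ^ 2 * energy s c := by
  unfold energy
  rw [Finset.mul_sum]
  exact Finset.sum_congr rfl fun α _ => by rw [norm_mul, mul_pow]

theorem ww_fld_zero_of_energy {A : Arr n ι} {s : Finset ι} {c : ι → ℂ} (h : energy s c = 0) (z : ST n) :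
    A.fld s c z = 0 := by
  unfold energy at h
  rw [Finset.sum_eq_zero_iff_of_nonneg (fun _ _ => by positivity)] at h
  unfold Arr.fld
  refine Finset.sum_eq_zero fun α hα => ?_
  have := h α hα
  have h0 : c α = 0 := by simpa using this
  rw [h0, zero_mul]

/-- **normalisation**: it suffices to treat the coefficient energy `1` -/
theorem ww_norm {W : WCon} {X : WExp} {L D : ℝ} (h : WeakAtE n W X L D) : WeakAt n W X L D := by
  intro ι A s c μ m χ g hAL hIn htc hm hχ hχ1 hg hadm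
  have hL : 0 < L := by
    have := hIn.one_le
    rw [hAL] at this
    linarith
  have hlam := ww_wlev_pos (n := n) (a := X.a) hχ hg hL
  rcases (ww_energy_nonneg s c).eq_or_lt with hE | hE
  · have : wset A s c (wlev n X.a χ g L) = ∅ := by
      ext z
      simp only [wset, mem_ofPred_eq, mem_empty_iff_false, iff_false, not_le]
      rw [ww_fld_zero_of_energy hE.symm, norm_zero]
      exact hlam
    rw [this, measure_empty]
    exact zero_le
  · set En := energy s c with hEn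
    set r : ℝ := (Real.sqrt En)⁻¹ with hr
    have hsq : 0 < Real.sqrt En := Real.sqrt_pos.2 hE
    have hr0 : 0 < r := inv_pos.2 hsq
    have h1 := h ι A s (fun α => (r : ℂ) * c α) μ m χ (g * r) hAL hIn htc hm hχ hχ1 (mul_pos hg hr0) hadm (by
      rw [ww_energy_smul, Complex.norm_real, Real.norm_eq_abs, abs_of_pos hr0, hr, inv_pow, Real.sq_sqrt hE.le]
      exact inv_mul_cancel₀ hE.ne')
    have hset : wset A s (fun α => (r : ℂ) * c α) (wlev n X.a χ (g * r) L) = wset A s c (wlev n X.a χ g L) := by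
      ext z
      simp only [wset, mem_ofPred_eq]
      rw [ww_fld_smul, norm_mul, Complex.norm_real, Real.norm_eq_abs, abs_of_pos hr0]
      have : wlev n X.a χ (g * r) L = r * wlev n X.a χ g L := by
        unfold wlev
        ring
      rw [this]
      exact mul_le_mul_iff_right₀ hr0
    rw [hset] at h1
    refine h1.trans (le_of_eq ?_)
    congr 1
    unfold wrhs
    have e1 : (g * r) ^ (-X.p) = g ^ (-X.p) * En ^ (X.p / 2) := by
      rw [Real.mul_rpow hg.le hr0.le, hr, Real.inv_rpow hsq.le, Real.rpow_neg hsq.le, inv_inv, Real.sqrt_eq_rpow,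
        ← Real.rpow_mul hE.le]
      congr 2
      ring
    rw [e1, Real.one_rpow]
    ring

/-! ## (d) unit cubes -/

theorem ww_norm_le_coord (x : E n) (r : ℝ) (hr : 0 ≤ r) (h : ∀ i, |x i| ≤ r) : ‖x‖ ≤ Real.sqrt n * r := by
  rw [EuclideanSpace.norm_eq]
  have h1 : ∑ i, ‖x i‖ ^ 2 ≤ (n : ℝ) * r ^ 2 := by
    calc ∑ i, ‖x i‖ ^ 2 ≤ ∑ _i : Fin n, r ^ 2 := by
          refine Finset.sum_le_sum fun i _ => ?_
          rw [Real.norm_eq_abs]
          exact pow_le_pow_left₀ (abs_nonneg _) (h i) 2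
      _ = (n : ℝ) * r ^ 2 := by simp
  calc Real.sqrt (∑ i, ‖x i‖ ^ 2) ≤ Real.sqrt ((n : ℝ) * r ^ 2) := Real.sqrt_le_sqrt h1
    _ = Real.sqrt n * r := by rw [Real.sqrt_mul (Nat.cast_nonneg n), Real.sqrt_sq hr]

/-- the unit cubes cover space-time -/
theorem ww_mem_cube (z : ST n) : z ∈ cube (n := n) (fun i => ⌊z.1 i⌋, ⌊z.2⌋) :=
  ⟨fun _ => ⟨Int.floor_le _, Int.lt_floor_add_one _⟩, Int.floor_le _, Int.lt_floor_add_one _⟩

/-- a unit cube is covered by `n^n` unit balls of the sup metric of `E n × ℝ` -/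
theorem ww_cube_cover (k : (Fin n → ℤ) × ℤ) :
    cube k ⊆ ⋃ j : Fin n → Fin n,
      closedBall ((WithLp.toLp 2 fun i => (k.1 i : ℝ) + ((j i : ℕ) : ℝ) / n, (k.2 : ℝ)) : ST n) 1 := by
  intro z hz
  have hj : ∀ i : Fin n, ⌊(z.1 i - k.1 i) * n⌋₊ < n := by
    intro i
    have hn : (0 : ℝ) < n := by
      have := i.pos
      exact_mod_cast this
    have h1 := (hz.1 i).1
    have h2 := (hz.1 i).2
    rw [Nat.floor_lt (by nlinarith)]
    nlinarith
  refine mem_iUnion.2 ⟨fun i => ⟨⌊(z.1 i - k.1 i) * n⌋₊, hj i⟩, ?_⟩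
  rw [mem_closedBall, Prod.dist_eq]
  refine max_le ?_ ?_
  · rw [dist_eq_norm]
    rcases Nat.eq_zero_or_pos n with h0 | hpos
    · subst h0
      rw [EuclideanSpace.norm_eq]
      simp
    have hn : (0 : ℝ) < n := by exact_mod_cast hpos
    have hn1 : (1 : ℝ) ≤ n := by exact_mod_cast hpos
    have h3 := ww_norm_le_coord (z.1 - WithLp.toLp 2 fun i => (k.1 i : ℝ) + ((⌊(z.1 i - k.1 i) * n⌋₊ : ℕ) : ℝ) / n) (1 / n) (by positivity) ?_
    · refine h3.trans ?_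
      rw [mul_one_div, div_le_one hn]
      calc Real.sqrt n ≤ Real.sqrt ((n : ℝ) ^ 2) := Real.sqrt_le_sqrt (by nlinarith)
        _ = n := Real.sqrt_sq hn.le
    · intro i
      have e : (z.1 - WithLp.toLp 2 fun i => (k.1 i : ℝ) + ((⌊(z.1 i - k.1 i) * n⌋₊ : ℕ) : ℝ) / n) i
          = z.1 i - ((k.1 i : ℝ) + ((⌊(z.1 i - k.1 i) * n⌋₊ : ℕ) : ℝ) / n) := rfl
      rw [e]
      have h1 := (hz.1 i).1
      have hu : 0 ≤ (z.1 i - k.1 i) * n := by nlinarith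
      have f1 := Nat.floor_le hu
      have f2 := Nat.lt_floor_add_one ((z.1 i - k.1 i) * n)
      have e2 : z.1 i - ((k.1 i : ℝ) + ((⌊(z.1 i - k.1 i) * n⌋₊ : ℕ) : ℝ) / n)
          = ((z.1 i - k.1 i) * n - ((⌊(z.1 i - k.1 i) * n⌋₊ : ℕ) : ℝ)) / n := by
        field_simp
        ring
      rw [e2, abs_le]
      constructor
      · rw [le_div_iff₀ hn]
        have : -(1 / (n : ℝ)) * n = -1 := by field_simp
        linarith
      · rw [div_le_div_iff_of_pos_right hn]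
        linarith
  · rw [Real.dist_eq, abs_le]
    constructor <;> linarith [hz.2.1, hz.2.2]

/-- **(d)**: the unit density controls the mass of the unit cubes -/
theorem ww_cube_le {μ : Measure (ST n)} {m χ : ℝ} (h : Dens μ m χ) (k : (Fin n → ℤ) × ℤ) :
    μ (cube k) ≤ ENNReal.ofReal ((n : ℝ) ^ n * (m * χ)) := by
  refine (measure_mono (ww_cube_cover k)).trans ((measure_iUnion_fintype_le μ _).trans ?_)
  refine (Finset.sum_le_sum fun j _ => h _).trans (le_of_eq ?_)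
  rw [Finset.sum_const, Finset.card_univ, Fintype.card_fun, Fintype.card_fin, nsmul_eq_mul,
    ENNReal.ofReal_mul (p := (n : ℝ) ^ n) (by positivity), ENNReal.ofReal_pow (Nat.cast_nonneg n), ENNReal.ofReal_natCast]
  push_cast
  rfl

/-! ## (e) Chebyshev through the fractal square functional -/

/-- **(e)**: if all unit cubes have mass `≤ Q` then `μ {|U| ≥ lam} ≤ Q^{1-β} lam^{-2} ∑_q μ(q)^β sup_q |U|²` -/
theorem ww_cheb {μ : Measure (ST n)} {U : ST n → ℂ} {β Q lam : ℝ} (hβ1 : β ≤ 1) (hlam : 0 < lam)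
    (hQ : ∀ k, μ (cube k) ≤ ENNReal.ofReal Q) :
    μ {z | lam ≤ ‖U z‖} ≤ ENNReal.ofReal Q ^ (1 - β) * ENNReal.ofReal (lam ^ (-2 : ℝ)) * supN β μ U := by
  set S : Set (ST n) := {z | lam ≤ ‖U z‖} with hS
  have hcov : S ⊆ ⋃ k : (Fin n → ℤ) × ℤ, cube k ∩ S := fun z hz => mem_iUnion.2 ⟨_, ww_mem_cube z, hz⟩
  refine (measure_mono hcov).trans ((measure_iUnion_le _).trans ?_)
  unfold supN
  rw [← ENNReal.tsum_mul_left]
  refine ENNReal.tsum_le_tsum fun k => ?_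
  rcases (cube k ∩ S).eq_empty_or_nonempty with he | ⟨z, hzk, hzS⟩
  · rw [he, measure_empty]
    exact zero_le
  have hsup : ENNReal.ofReal lam ≤ ⨆ z ∈ cube k, ‖U z‖ₑ := by
    refine le_trans ?_ (le_iSup₂ (f := fun z (_ : z ∈ cube k) => ‖U z‖ₑ) z hzk)
    rw [← ofReal_norm]
    exact ENNReal.ofReal_le_ofReal hzS
  have h1 : (1 : ℝ≥0∞) ≤ ENNReal.ofReal (lam ^ (-2 : ℝ)) * (⨆ z ∈ cube k, ‖U z‖ₑ) ^ 2 := by
    calc (1 : ℝ≥0∞) = ENNReal.ofReal (lam ^ (-2 : ℝ)) * ENNReal.ofReal lam ^ 2 := by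
          rw [← ENNReal.ofReal_pow hlam.le, ← ENNReal.ofReal_mul (by positivity), Real.rpow_neg hlam.le]
          have : (lam ^ (2 : ℝ))⁻¹ * lam ^ 2 = 1 := by
            rw [Real.rpow_two]
            exact inv_mul_cancel₀ (by positivity)
          rw [this, ENNReal.ofReal_one]
      _ ≤ _ := by gcongr
  have h2 : μ (cube k) ≤ μ (cube k) ^ β * ENNReal.ofReal Q ^ (1 - β) := by
    rcases eq_or_ne (μ (cube k)) 0 with h0 | h0
    · rw [h0]
      exact zero_le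
    have ht : μ (cube k) ≠ ⊤ := ne_top_of_le_ne_top ENNReal.ofReal_ne_top (hQ k)
    calc μ (cube k) = μ (cube k) ^ β * μ (cube k) ^ (1 - β) := by
          rw [← ENNReal.rpow_add _ _ h0 ht]
          simp
      _ ≤ _ := mul_le_mul_right (ENNReal.rpow_le_rpow (hQ k) (by linarith)) _
  calc μ (cube k ∩ S) ≤ μ (cube k) := measure_mono inter_subset_left
    _ ≤ μ (cube k) ^ β * ENNReal.ofReal Q ^ (1 - β) * 1 := by rw [mul_one]; exact h2
    _ ≤ μ (cube k) ^ β * ENNReal.ofReal Q ^ (1 - β) * (ENNReal.ofReal (lam ^ (-2 : ℝ)) * (⨆ z ∈ cube k, ‖U z‖ₑ) ^ 2) := by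
        gcongr
    _ = _ := by ring

/-! ## (f) total mass -/

/-- the constant of the total mass -/
noncomputable def ww_Ctot (n : ℕ) (W : WCon) : ℝ := (max 1 (max W.T₀ W.Cb)) ^ (n : ℝ)

theorem ww_Ctot_pos (n : ℕ) (W : WCon) : 0 < ww_Ctot n W :=
  Real.rpow_pos_of_pos (lt_of_lt_of_le one_pos (le_max_left _ _)) _

/-- **(f)**: total mass of an admissible measure -/
theorem ww_total {W : WCon} {A : Arr n ι} {s : Finset ι} {μ : Measure (ST n)} {m χ D : ℝ} (hL : 1 ≤ A.L)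
    (h : Adm W A s μ m χ D) : μ univ ≤ ENNReal.ofReal (ww_Ctot n W * m * A.L ^ (2 * (n : ℝ))) := by
  obtain ⟨c, hc⟩ := h.box
  set ρ : ℝ := max 1 (max W.T₀ W.Cb) with hρ
  have hρ1 : 1 ≤ ρ := le_max_left _ _
  have hL2 : 1 ≤ A.L ^ 2 := one_le_pow₀ hL
  have hr : 1 ≤ ρ * A.L ^ 2 := by nlinarith
  have hcov : (univ : Set (ST n)) ⊆ closedBall ((c, 0) : ST n) (ρ * A.L ^ 2) ∪ ({z | W.T₀ * A.L ^ 2 < |z.2|} ∪ {z | W.Cb * A.L ^ 2 < ‖z.1 - c‖}) := by
    intro z _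
    by_cases h1 : W.T₀ * A.L ^ 2 < |z.2|
    · exact Or.inr (Or.inl h1)
    by_cases h2 : W.Cb * A.L ^ 2 < ‖z.1 - c‖
    · exact Or.inr (Or.inr h2)
    left
    rw [mem_closedBall, Prod.dist_eq]
    push Not at h1 h2
    refine max_le ?_ ?_
    · rw [dist_eq_norm]
      refine h2.trans (mul_le_mul_of_nonneg_right ?_ (by positivity))
      exact (le_max_right _ _).trans (le_max_right _ _)
    · rw [Real.dist_eq, sub_zero]
      refine h1.trans (mul_le_mul_of_nonneg_right ?_ (by positivity))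
      exact (le_max_left _ _).trans (le_max_right _ _)
  refine (measure_mono hcov).trans ((measure_union_le _ _).trans ?_)
  have hz : μ ({z | W.T₀ * A.L ^ 2 < |z.2|} ∪ {z | W.Cb * A.L ^ 2 < ‖z.1 - c‖}) = 0 :=
    measure_union_null h.slab hc
  rw [hz, add_zero]
  refine (h.grow _ _ hr).trans (le_of_eq ?_)
  congr 1
  rw [Real.mul_rpow (by positivity) (by positivity), ← Real.rpow_natCast A.L 2, ← Real.rpow_mul (by positivity)]
  unfold ww_Ctot
  push_cast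
  ring

/-! ## (g) the easy ranges -/

theorem ww_bet_le_one (hn : 1 ≤ n) : bet n ≤ 1 := by
  unfold bet
  have : (1 : ℝ) ≤ n := by exact_mod_cast hn
  rw [div_le_one (by linarith)]
  linarith

theorem ww_bet_pos (n : ℕ) : 0 < bet n := by
  unfold bet
  positivity

theorem ww_eex_nonneg (n : ℕ) : 0 ≤ eex n := by
  unfold eex
  positivity

/-- `2e + 2n/(n+1) = 2n` -/
theorem ww_eex_add (n : ℕ) : 2 * eex n + 2 * (n : ℝ) / ((n : ℝ) + 1) = 2 * (n : ℝ) := by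
  unfold eex
  have : (n : ℝ) + 1 ≠ 0 := by positivity
  field_simp

/-- the constant of the unit cubes, to the power `1 - β` -/
noncomputable def ww_Cq (n : ℕ) : ℝ := ((n : ℝ) ^ n) ^ (1 - bet n)

theorem ww_Cq_nonneg (n : ℕ) : 0 ≤ ww_Cq n := Real.rpow_nonneg (by positivity) _

/-- Chebyshev (w:eq-largeD): a bound `S m^β L^{2n/(n+1)}` of the fractal square functional gives `μ {|U| ≥ λ} ≤ C_q S m L^{2n} χ^ζ g^{-2}` -/
theorem ww_cheb2 {A : Arr n ι} {s : Finset ι} {c : ι → ℂ} {μ : Measure (ST n)} {m χ g a S : ℝ} (hn : 1 ≤ n) (hL : 1 ≤ A.L)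
    (hm : 0 ≤ m) (hχ : 0 < χ) (hg : 0 < g) (hd : Dens μ m χ)
    (hsup : supN (bet n) μ (A.fld s c) ≤ ENNReal.ofReal (S * m ^ bet n * A.L ^ (2 * (n : ℝ) / ((n : ℝ) + 1)))) :
    μ (wset A s c (wlev n a χ g A.L))
      ≤ ENNReal.ofReal (ww_Cq n * S * m * A.L ^ (2 * (n : ℝ)) * χ ^ (1 - bet n - 2 * a) * g ^ (-2 : ℝ)) := by
  have hL0 : 0 < A.L := by linarith
  have hlam := ww_wlev_pos (n := n) (a := a) hχ hg hL0
  have hβ := ww_bet_le_one hn
  have h1 := ww_cheb (U := A.fld s c) hβ hlam (ww_cube_le hd)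
  have hQ0 : 0 ≤ (n : ℝ) ^ n * (m * χ) := by positivity
  refine (h1.trans (mul_le_mul_right hsup _)).trans (le_of_eq ?_)
  rw [ENNReal.ofReal_rpow_of_nonneg hQ0 (by linarith), ← ENNReal.ofReal_mul (by positivity),
    ← ENNReal.ofReal_mul (by positivity)]
  congr 1
  have e1 : ((n : ℝ) ^ n * (m * χ)) ^ (1 - bet n) = ww_Cq n * (m ^ (1 - bet n) * χ ^ (1 - bet n)) := by
    rw [Real.mul_rpow (by positivity) (by positivity), Real.mul_rpow hm hχ.le]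
    rfl
  have e2 : wlev n a χ g A.L ^ (-2 : ℝ) = χ ^ (-(2 * a)) * g ^ (-2 : ℝ) * A.L ^ (2 * eex n) := by
    unfold wlev
    rw [Real.mul_rpow (by positivity) (by positivity), Real.mul_rpow (by positivity) hg.le, ← Real.rpow_mul hχ.le,
      ← Real.rpow_mul hL0.le]
    congr 2
    · congr 1
      ring
    · ring
  have e3 : m ^ (1 - bet n) * m ^ bet n = m := by
    rw [← Real.rpow_add' hm (by simp)]
    simp
  have e4 : χ ^ (1 - bet n) * χ ^ (-(2 * a)) = χ ^ (1 - bet n - 2 * a) := by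
    rw [← Real.rpow_add hχ]
    congr 1
  have e5 : A.L ^ (2 * eex n) * A.L ^ (2 * (n : ℝ) / ((n : ℝ) + 1)) = A.L ^ (2 * (n : ℝ)) := by
    rw [← Real.rpow_add hL0, ww_eex_add]
  rw [e1, e2]
  calc _ = ww_Cq n * S * (m ^ (1 - bet n) * m ^ bet n) * (A.L ^ (2 * eex n) * A.L ^ (2 * (n : ℝ) / ((n : ℝ) + 1)))
        * (χ ^ (1 - bet n) * χ ^ (-(2 * a))) * g ^ (-2 : ℝ) := by ring
    _ = _ := by rw [e3, e4, e5]

/-- (w:eq-gtrivial): a nonempty level set has `g ≤ C₀ L^e χ^{-a}` -/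
theorem ww_g_le {K : Cls} {A : Arr n ι} {s : Finset ι} {c : ι → ℂ} {χ g a C₀ : ℝ} (hIn : A.In s K) (htc : ∀ α ∈ s, A.tc α = 0)
    (hχ : 0 < χ) (hE : energy s c = 1) (hA : ArrSupWith n K C₀) (hne : (wset A s c (wlev n a χ g A.L)).Nonempty) :
    g ≤ C₀ * A.L ^ eex n * χ ^ (-a) := by
  obtain ⟨z, hz⟩ := hne
  have hL0 : 0 < A.L := by linarith [hIn.one_le]
  have h1 := hA ι A s c z hIn htc
  rw [hE, Real.sqrt_one, mul_one] at h1
  have h2 : wlev n a χ g A.L ≤ C₀ := le_trans hz h1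
  unfold wlev at h2
  have p1 := Real.rpow_pos_of_pos hχ a
  have p2 := Real.rpow_pos_of_pos hL0 (eex n)
  rw [Real.rpow_neg hL0.le] at h2
  rw [Real.rpow_neg hχ.le]
  have h3 : g = χ ^ a * g * (A.L ^ eex n)⁻¹ * (A.L ^ eex n * (χ ^ a)⁻¹) := by
    field_simp
  rw [h3]
  calc χ ^ a * g * (A.L ^ eex n)⁻¹ * (A.L ^ eex n * (χ ^ a)⁻¹) ≤ C₀ * (A.L ^ eex n * (χ ^ a)⁻¹) :=
        mul_le_mul_of_nonneg_right h2 (by positivity)
    _ = _ := by ring

/-- **the common core of the ranges (g2), (g3), (g4)** -/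
theorem ww_easy_core {W : WCon} {X : WExp} {A : Arr n ι} {s : Finset ι} {c : ι → ℂ} {μ : Measure (ST n)} {m χ g D S C₀ : ℝ}
    (hn : 1 ≤ n) (hIn : A.In s W.K) (htc : ∀ α ∈ s, A.tc α = 0) (hm : 0 ≤ m) (hχ : 0 < χ) (hg : 0 < g) (hD : 0 < D) (hS : 0 ≤ S)
    (hp : 2 ≤ X.p) (hd : Dens μ m χ) (hE : energy s c = 1) (hA : ArrSupWith n W.K C₀)
    (hsup : supN (bet n) μ (A.fld s c) ≤ ENNReal.ofReal (S * m ^ bet n * A.L ^ (2 * (n : ℝ) / ((n : ℝ) + 1))))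
    (hnum : ww_Cq n * S * C₀ ^ (X.p - 2) * A.L ^ (eex n * (X.p - 2)) * χ ^ (1 - bet n - 2 * X.a - X.a * (X.p - 2)) * D ^ X.σ ≤ X.Cind) :
    μ (wset A s c (wlev n X.a χ g A.L)) ≤ ENNReal.ofReal (wrhs n X m A.L g D 1) := by
  rcases (wset A s c (wlev n X.a χ g A.L)).eq_empty_or_nonempty with he | hne
  · rw [he, measure_empty]
    exact zero_le
  have hL := hIn.one_le
  have hL0 : 0 < A.L := by linarith
  have hgle := ww_g_le hIn htc hχ hE hA hne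
  refine (ww_cheb2 hn hL hm hχ hg hd hsup).trans (ENNReal.ofReal_le_ofReal ?_)
  set t := X.p - 2 with ht
  have ht0 : 0 ≤ t := by linarith
  have pL := Real.rpow_pos_of_pos hL0 (eex n)
  have pχ := Real.rpow_pos_of_pos hχ (-X.a)
  have hC0 : 0 ≤ C₀ := by
    by_contra hneg
    push Not at hneg
    have : C₀ * A.L ^ eex n * χ ^ (-X.a) < 0 := by
      have : 0 < A.L ^ eex n * χ ^ (-X.a) := by positivity
      nlinarith
    linarith
  have hgt : g ^ t ≤ C₀ ^ t * A.L ^ (eex n * t) * χ ^ (-(X.a * t)) := by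
    calc g ^ t ≤ (C₀ * A.L ^ eex n * χ ^ (-X.a)) ^ t := Real.rpow_le_rpow hg.le hgle ht0
      _ = _ := by
        rw [Real.mul_rpow (by positivity) pχ.le, Real.mul_rpow hC0 pL.le, ← Real.rpow_mul hL0.le, ← Real.rpow_mul hχ.le]
        congr 2
        ring
  have pz := Real.rpow_pos_of_pos hχ (1 - bet n - 2 * X.a)
  have pD := Real.rpow_pos_of_pos hD X.σ
  have hq := ww_Cq_nonneg n
  have key : ww_Cq n * S * χ ^ (1 - bet n - 2 * X.a) * g ^ t * D ^ X.σ ≤ X.Cind := by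
    refine le_trans ?_ hnum
    have e : χ ^ (1 - bet n - 2 * X.a - X.a * t) = χ ^ (1 - bet n - 2 * X.a) * χ ^ (-(X.a * t)) := by
      rw [← Real.rpow_add hχ]
      congr 1
    rw [e]
    calc ww_Cq n * S * χ ^ (1 - bet n - 2 * X.a) * g ^ t * D ^ X.σ
        ≤ ww_Cq n * S * χ ^ (1 - bet n - 2 * X.a) * (C₀ ^ t * A.L ^ (eex n * t) * χ ^ (-(X.a * t))) * D ^ X.σ := by
          gcongr
      _ = _ := by ring
  have e1 : g ^ (-2 : ℝ) = g ^ t * g ^ (-X.p) := by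
    rw [← Real.rpow_add hg]
    congr 1
    rw [ht]
    ring
  have e2 : D ^ X.σ * D ^ (-X.σ) = 1 := by
    rw [← Real.rpow_add hD]
    simp
  unfold wrhs
  rw [Real.one_rpow, mul_one, e1]
  have pg := Real.rpow_pos_of_pos hg (-X.p)
  have pD' := Real.rpow_pos_of_pos hD (-X.σ)
  have pL2 := Real.rpow_pos_of_pos hL0 (2 * (n : ℝ))
  calc ww_Cq n * S * m * A.L ^ (2 * (n : ℝ)) * χ ^ (1 - bet n - 2 * X.a) * (g ^ t * g ^ (-X.p))
      = (ww_Cq n * S * χ ^ (1 - bet n - 2 * X.a) * g ^ t * D ^ X.σ) * (m * A.L ^ (2 * (n : ℝ)) * g ^ (-X.p) * D ^ (-X.σ)) := by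
        calc _ = ww_Cq n * S * m * A.L ^ (2 * (n : ℝ)) * χ ^ (1 - bet n - 2 * X.a) * (g ^ t * g ^ (-X.p)) * (D ^ X.σ * D ^ (-X.σ)) := by
              rw [e2, mul_one]
          _ = _ := by ring
    _ ≤ X.Cind * (m * A.L ^ (2 * (n : ℝ)) * g ^ (-X.p) * D ^ (-X.σ)) := mul_le_mul_of_nonneg_right key (by positivity)
    _ = _ := by ring

/-- **(g1)** `g ≤ 1/D`: the total mass is enough -/
theorem ww_g1 {W : WCon} {X : WExp} {A : Arr n ι} {s : Finset ι} {c : ι → ℂ} {μ : Measure (ST n)} {m χ g D lam : ℝ}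
    (hL : 1 ≤ A.L) (hm : 0 ≤ m) (hg : 0 < g) (hD : 1 ≤ D) (hgD : g ≤ 1 / D) (hadm : Adm W A s μ m χ D)
    (hp : 0 ≤ X.p) (hσ : X.σ ≤ X.p) (hC : ww_Ctot n W ≤ X.Cind) :
    μ (wset A s c lam) ≤ ENNReal.ofReal (wrhs n X m A.L g D 1) := by
  refine (measure_mono (subset_univ _)).trans ((ww_total hL hadm).trans (ENNReal.ofReal_le_ofReal ?_))
  have hD0 : 0 < D := by linarith
  have hL0 : 0 < A.L := by linarith
  have h1 : D ^ X.p ≤ g ^ (-X.p) := by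
    have := Real.rpow_le_rpow_of_nonpos hg hgD (by linarith : -X.p ≤ 0)
    rwa [one_div, Real.inv_rpow hD0.le, Real.rpow_neg hD0.le, inv_inv] at this
  have pD' := Real.rpow_pos_of_pos hD0 (-X.σ)
  have h2 : 1 ≤ g ^ (-X.p) * D ^ (-X.σ) := by
    calc (1 : ℝ) ≤ D ^ (X.p - X.σ) := Real.one_le_rpow hD (by linarith)
      _ = D ^ X.p * D ^ (-X.σ) := by
        rw [← Real.rpow_add hD0]
        congr 1
      _ ≤ _ := mul_le_mul_of_nonneg_right h1 pD'.le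
  have pL2 := Real.rpow_pos_of_pos hL0 (2 * (n : ℝ))
  have hC0 := ww_Ctot_pos n W
  unfold wrhs
  rw [Real.one_rpow, mul_one]
  calc ww_Ctot n W * m * A.L ^ (2 * (n : ℝ)) = ww_Ctot n W * m * A.L ^ (2 * (n : ℝ)) * 1 := by ring
    _ ≤ X.Cind * m * A.L ^ (2 * (n : ℝ)) * (g ^ (-X.p) * D ^ (-X.σ)) := by
      have hCi : 0 ≤ X.Cind := hC0.le.trans hC
      gcongr
    _ = _ := by ring

/-- arithmetic: a product of a constant `≤ Cind` and of factors whose product is `≤ 1` -/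
theorem ww_mul_le {K x Cind : ℝ} (hK : 0 ≤ K) (hx : x ≤ 1) (h : K ≤ Cind) : K * x ≤ Cind :=
  (mul_le_of_le_one_right hK hx).trans h

/-- **(g2)** `L^κ ≤ D`: s:sparse -/
theorem ww_g2 {W : WCon} {X : WExp} {A : Arr n ι} {s : Finset ι} {c : ι → ℂ} {μ : Measure (ST n)} {m χ g D cs κ C₁ C₀ : ℝ}
    (hn : 1 ≤ n) (hIn : A.In s W.K) (htc : ∀ α ∈ s, A.tc α = 0) (hm : 0 ≤ m) (hχ : 0 < χ) (hχ1 : χ ≤ 1) (hg : 0 < g)
    (hκD : A.L ^ κ ≤ D) (hDL : D ≤ A.L) (hadm : Adm W A s μ m χ D) (hE : energy s c = 1)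
    (hS : SparseWith n W cs κ C₁) (hA : ArrSupWith n W.K C₀)
    (hp : 2 ≤ X.p) (hC₀ : 0 ≤ C₀) (hC₁ : 0 ≤ C₁) (hσ : X.σ ≤ cs)
    (h1 : eex n * (X.p - 2) ≤ κ * (cs - X.σ)) (h2 : X.a * (X.p - 2) ≤ 1 - bet n - 2 * X.a)
    (hC : ww_Cq n * C₁ * C₀ ^ (X.p - 2) ≤ X.Cind) :
    μ (wset A s c (wlev n X.a χ g A.L)) ≤ ENNReal.ofReal (wrhs n X m A.L g D 1) := by
  have hL := hIn.one_le
  have hL0 : 0 < A.L := by linarith
  have hD0 : 0 < D := lt_of_lt_of_le (Real.rpow_pos_of_pos hL0 κ) hκD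
  have pcs := Real.rpow_pos_of_pos hD0 (-cs)
  refine ww_easy_core (S := C₁ * D ^ (-cs)) hn hIn htc hm hχ hg hD0 (by positivity) hp hadm.dens hE hA ?_ ?_
  · refine (hS ι A s c μ m D hIn htc hm hadm.grow hadm.slab hadm.mom hκD hDL).trans (le_of_eq ?_)
    congr 1
    rw [hE]
    ring
  · have hq := ww_Cq_nonneg n
    have hc0 := Real.rpow_nonneg hC₀ (X.p - 2)
    have a1 : D ^ (-cs) * D ^ X.σ ≤ A.L ^ (-(κ * (cs - X.σ))) := by
      rw [← Real.rpow_add hD0]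
      calc D ^ (-cs + X.σ) ≤ (A.L ^ κ) ^ (-cs + X.σ) :=
            Real.rpow_le_rpow_of_nonpos (Real.rpow_pos_of_pos hL0 κ) hκD (by linarith)
        _ = _ := by
          rw [← Real.rpow_mul hL0.le]
          congr 1
          ring
    have a2 : A.L ^ (eex n * (X.p - 2)) * A.L ^ (-(κ * (cs - X.σ))) ≤ 1 := by
      rw [← Real.rpow_add hL0]
      exact Real.rpow_le_one_of_one_le_of_nonpos hL (by linarith)
    have a3 : χ ^ (1 - bet n - 2 * X.a - X.a * (X.p - 2)) ≤ 1 := Real.rpow_le_one hχ.le hχ1 (by linarith)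
    have pL := Real.rpow_pos_of_pos hL0 (eex n * (X.p - 2))
    have pχ := Real.rpow_pos_of_pos hχ (1 - bet n - 2 * X.a - X.a * (X.p - 2))
    calc ww_Cq n * (C₁ * D ^ (-cs)) * C₀ ^ (X.p - 2) * A.L ^ (eex n * (X.p - 2)) * χ ^ (1 - bet n - 2 * X.a - X.a * (X.p - 2)) * D ^ X.σ
        = (ww_Cq n * C₁ * C₀ ^ (X.p - 2)) * ((A.L ^ (eex n * (X.p - 2)) * (D ^ (-cs) * D ^ X.σ)) * χ ^ (1 - bet n - 2 * X.a - X.a * (X.p - 2))) := by ring
      _ ≤ X.Cind := by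
        refine ww_mul_le (by positivity) ?_ hC
        refine mul_le_one₀ ((mul_le_mul_of_nonneg_left a1 pL.le).trans a2) pχ.le a3

/-- the common part of (g3), (g4): d:power-loss -/
theorem ww_g34 {W : WCon} {X : WExp} {A : Arr n ι} {s : Finset ι} {c : ι → ℂ} {μ : Measure (ST n)} {m χ g D ε C₂ C₀ : ℝ}
    (hn : 1 ≤ n) (hIn : A.In s W.K) (htc : ∀ α ∈ s, A.tc α = 0) (hm : 0 ≤ m) (hχ : 0 < χ) (hg : 0 < g) (hD : 0 < D)
    (hadm : Adm W A s μ m χ D) (hE : energy s c = 1) (hP : PowerLossWith n W ε C₂) (hA : ArrSupWith n W.K C₀)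
    (hp : 2 ≤ X.p) (hC₂ : 0 ≤ C₂)
    (hnum : ww_Cq n * C₂ * C₀ ^ (X.p - 2) * (A.L ^ (ε + eex n * (X.p - 2)) * χ ^ (1 - bet n - 2 * X.a - X.a * (X.p - 2)) * D ^ X.σ) ≤ X.Cind) :
    μ (wset A s c (wlev n X.a χ g A.L)) ≤ ENNReal.ofReal (wrhs n X m A.L g D 1) := by
  have hL := hIn.one_le
  have hL0 : 0 < A.L := by linarith
  have pε := Real.rpow_pos_of_pos hL0 ε
  refine ww_easy_core (S := C₂ * A.L ^ ε) hn hIn htc hm hχ hg hD (by positivity) hp hadm.dens hE hA ?_ ?_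
  · refine (hP ι A s c μ m hIn htc hm hadm.grow hadm.slab).trans (le_of_eq ?_)
    congr 1
    rw [hE, Real.rpow_add hL0]
    ring
  · refine le_trans (le_of_eq ?_) hnum
    rw [Real.rpow_add hL0]
    ring

/-- **(g3)** `D ≤ L^κ`, `χ ≤ L^{-v₀}`: d:power-loss and the positive power of the density -/
theorem ww_g3 {W : WCon} {X : WExp} {A : Arr n ι} {s : Finset ι} {c : ι → ℂ} {μ : Measure (ST n)} {m χ g D κ v₀ ε C₂ C₀ : ℝ}
    (hn : 1 ≤ n) (hIn : A.In s W.K) (htc : ∀ α ∈ s, A.tc α = 0) (hm : 0 ≤ m) (hχ : 0 < χ) (hg : 0 < g) (hD : 0 < D)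
    (hDκ : D ≤ A.L ^ κ) (hχv : χ ≤ A.L ^ (-v₀)) (hadm : Adm W A s μ m χ D) (hE : energy s c = 1)
    (hP : PowerLossWith n W ε C₂) (hA : ArrSupWith n W.K C₀)
    (hp : 2 ≤ X.p) (hC₀ : 0 ≤ C₀) (hC₂ : 0 ≤ C₂) (hσ : 0 ≤ X.σ)
    (h2 : X.a * (X.p - 2) ≤ 1 - bet n - 2 * X.a)
    (h3 : ε + κ * X.σ + eex n * (X.p - 2) ≤ v₀ * (1 - bet n - 2 * X.a - X.a * (X.p - 2)))
    (hC : ww_Cq n * C₂ * C₀ ^ (X.p - 2) ≤ X.Cind) :
    μ (wset A s c (wlev n X.a χ g A.L)) ≤ ENNReal.ofReal (wrhs n X m A.L g D 1) := by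
  have hL := hIn.one_le
  have hL0 : 0 < A.L := by linarith
  refine ww_g34 hn hIn htc hm hχ hg hD hadm hE hP hA hp hC₂ ?_
  have hq := ww_Cq_nonneg n
  have hc0 := Real.rpow_nonneg hC₀ (X.p - 2)
  refine ww_mul_le (by positivity) ?_ hC
  set w := 1 - bet n - 2 * X.a - X.a * (X.p - 2) with hw
  have hw0 : 0 ≤ w := by linarith
  have a1 : χ ^ w ≤ A.L ^ (-(v₀ * w)) := by
    calc χ ^ w ≤ (A.L ^ (-v₀)) ^ w := Real.rpow_le_rpow hχ.le hχv hw0
      _ = _ := by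
        rw [← Real.rpow_mul hL0.le]
        congr 1
        ring
  have a2 : D ^ X.σ ≤ A.L ^ (κ * X.σ) := by
    calc D ^ X.σ ≤ (A.L ^ κ) ^ X.σ := Real.rpow_le_rpow hD.le hDκ hσ
      _ = _ := by rw [← Real.rpow_mul hL0.le]
  have pL := Real.rpow_pos_of_pos hL0 (ε + eex n * (X.p - 2))
  have pχ := Real.rpow_pos_of_pos hχ w
  have pD := Real.rpow_pos_of_pos hD X.σ
  calc A.L ^ (ε + eex n * (X.p - 2)) * χ ^ w * D ^ X.σ
      ≤ A.L ^ (ε + eex n * (X.p - 2)) * A.L ^ (-(v₀ * w)) * A.L ^ (κ * X.σ) := by gcongr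
    _ = A.L ^ (ε + eex n * (X.p - 2) + -(v₀ * w) + κ * X.σ) := by
      rw [Real.rpow_add hL0 _ (κ * X.σ), Real.rpow_add hL0 _ (-(v₀ * w))]
    _ ≤ 1 := Real.rpow_le_one_of_one_le_of_nonpos hL (by linarith)

/-- **(g4)** `L ≤ L₀`: bounded scales -/
theorem ww_g4 {W : WCon} {X : WExp} {A : Arr n ι} {s : Finset ι} {c : ι → ℂ} {μ : Measure (ST n)} {m χ g D L₀ ε C₂ C₀ : ℝ}
    (hn : 1 ≤ n) (hIn : A.In s W.K) (htc : ∀ α ∈ s, A.tc α = 0) (hm : 0 ≤ m) (hχ : 0 < χ) (hχ1 : χ ≤ 1) (hg : 0 < g) (hD : 0 < D)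
    (hDL : D ≤ A.L) (hL₀ : A.L ≤ L₀) (hadm : Adm W A s μ m χ D) (hE : energy s c = 1)
    (hP : PowerLossWith n W ε C₂) (hA : ArrSupWith n W.K C₀)
    (hp : 2 ≤ X.p) (hC₀ : 0 ≤ C₀) (hC₂ : 0 ≤ C₂) (hσ : 0 ≤ X.σ) (hε : 0 ≤ ε)
    (h2 : X.a * (X.p - 2) ≤ 1 - bet n - 2 * X.a)
    (hC : ww_Cq n * C₂ * C₀ ^ (X.p - 2) * L₀ ^ (ε + X.σ + eex n * (X.p - 2)) ≤ X.Cind) :
    μ (wset A s c (wlev n X.a χ g A.L)) ≤ ENNReal.ofReal (wrhs n X m A.L g D 1) := by
  have hL := hIn.one_le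
  have hL0 : 0 < A.L := by linarith
  have hL₀0 : 0 < L₀ := by linarith
  refine ww_g34 hn hIn htc hm hχ hg hD hadm hE hP hA hp hC₂ (le_trans ?_ hC)
  have hq := ww_Cq_nonneg n
  have hc0 := Real.rpow_nonneg hC₀ (X.p - 2)
  refine mul_le_mul_of_nonneg_left ?_ (by positivity)
  have he := ww_eex_nonneg n
  have a1 : χ ^ (1 - bet n - 2 * X.a - X.a * (X.p - 2)) ≤ 1 := Real.rpow_le_one hχ.le hχ1 (by linarith)
  have a2 : D ^ X.σ ≤ L₀ ^ X.σ := Real.rpow_le_rpow hD.le (hDL.trans hL₀) hσ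
  have a3 : A.L ^ (ε + eex n * (X.p - 2)) ≤ L₀ ^ (ε + eex n * (X.p - 2)) :=
    Real.rpow_le_rpow hL0.le hL₀ (by nlinarith)
  have pL := Real.rpow_pos_of_pos hL0 (ε + eex n * (X.p - 2))
  have pχ := Real.rpow_pos_of_pos hχ (1 - bet n - 2 * X.a - X.a * (X.p - 2))
  have pD := Real.rpow_pos_of_pos hD X.σ
  calc A.L ^ (ε + eex n * (X.p - 2)) * χ ^ (1 - bet n - 2 * X.a - X.a * (X.p - 2)) * D ^ X.σ
      ≤ L₀ ^ (ε + eex n * (X.p - 2)) * 1 * L₀ ^ X.σ := by gcongr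
    _ = _ := by
      rw [mul_one, ← Real.rpow_add hL₀0]
      congr 1
      ring

/-! ## what is left: the active range -/

/-- **the numerical hypotheses of the easy ranges** (to be met in `Weak/Choice.lean`); `ζ = 1 - β - 2a` -/
structure WEasyNum (n : ℕ) (W : WCon) (X : WExp) (cs κ C₁ ε C₂ C₀ v₀ L₀ : ℝ) : Prop where
  n1 : 1 ≤ n
  p2 : 2 ≤ X.p
  σ0 : 0 ≤ X.σ
  σp : X.σ ≤ X.p
  σcs : X.σ ≤ cs
  ε0 : 0 ≤ ε
  C₀0 : 0 ≤ C₀
  C₁0 : 0 ≤ C₁
  C₂0 : 0 ≤ C₂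
  /-- (g2) -/
  e2 : eex n * (X.p - 2) ≤ κ * (cs - X.σ)
  /-- (g2), (g3), (g4) -/
  ea : X.a * (X.p - 2) ≤ 1 - bet n - 2 * X.a
  /-- (g3) -/
  e3 : ε + κ * X.σ + eex n * (X.p - 2) ≤ v₀ * (1 - bet n - 2 * X.a - X.a * (X.p - 2))
  /-- (g1) -/
  c1 : ww_Ctot n W ≤ X.Cind
  /-- (g2) -/
  c2 : ww_Cq n * C₁ * C₀ ^ (X.p - 2) ≤ X.Cind
  /-- (g3) -/
  c3 : ww_Cq n * C₂ * C₀ ^ (X.p - 2) ≤ X.Cind
  /-- (g4) -/
  c4 : ww_Cq n * C₂ * C₀ ^ (X.p - 2) * L₀ ^ (ε + X.σ + eex n * (X.p - 2)) ≤ X.Cind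

/-- **THE ACTIVE RANGE** (w:eq-active): energy `1`, `m > 0`, `L₀ < L`, `D < L^κ`, `L^{-v₀} < χ`, `1/D < g ≤ C₀ L^e χ^{-a}`, nonempty level set -/
def WActive (n : ℕ) (W : WCon) (X : WExp) (κ C₀ v₀ L₀ L D : ℝ) : Prop :=
  ∀ (ι : Type) (A : Arr n ι) (s : Finset ι) (c : ι → ℂ) (μ : Measure (ST n)) (m χ g : ℝ),
    A.L = L → A.In s W.K → (∀ α ∈ s, A.tc α = 0) → 0 < m → 0 < χ → χ ≤ 1 → 0 < g → Adm W A s μ m χ D → energy s c = 1 →
    L₀ < L → D < L ^ κ → L ^ (-v₀) < χ → 1 / D < g → g ≤ C₀ * L ^ eex n * χ ^ (-X.a) →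
    μ (wset A s c (wlev n X.a χ g L)) ≤ ENNReal.ofReal (wrhs n X m L g D 1)

/-- a zero measure parameter is harmless -/
theorem ww_m_zero {W : WCon} {A : Arr n ι} {s : Finset ι} {μ : Measure (ST n)} {χ D : ℝ} (hL : 1 ≤ A.L)
    (h : Adm W A s μ 0 χ D) (S : Set (ST n)) : μ S = 0 := by
  have h1 := ww_total hL h
  rw [mul_zero, zero_mul, ENNReal.ofReal_zero] at h1
  exact le_antisymm ((measure_mono (subset_univ S)).trans h1) zero_le

/-- **REDUCTION TO THE ACTIVE RANGE** (H weak.tex l.112-150) -/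
theorem ww_reduce {W : WCon} {X : WExp} {cs κ C₁ ε C₂ C₀ v₀ L₀ L D : ℝ} (N : WEasyNum n W X cs κ C₁ ε C₂ C₀ v₀ L₀)
    (hS : SparseWith n W cs κ C₁) (hP : PowerLossWith n W ε C₂) (hA : ArrSupWith n W.K C₀) (hD : 1 ≤ D) (hDL : D ≤ L)
    (hact : WActive n W X κ C₀ v₀ L₀ L D) : WeakAtE n W X L D := by
  intro ι A s c μ m χ g hAL hIn htc hm hχ hχ1 hg hadm hE
  subst hAL
  have hD0 : 0 < D := by linarith
  rcases hm.eq_or_lt with hm0 | hm0
  · subst hm0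
    rw [ww_m_zero hIn.one_le hadm]
    exact zero_le
  rcases le_or_gt g (1 / D) with h1 | h1
  · exact ww_g1 hIn.one_le hm hg hD h1 hadm (by linarith [N.p2]) N.σp N.c1
  rcases le_or_gt (A.L ^ κ) D with h2 | h2
  · exact ww_g2 N.n1 hIn htc hm hχ hχ1 hg h2 hDL hadm hE hS hA N.p2 N.C₀0 N.C₁0 N.σcs N.e2 N.ea N.c2
  rcases le_or_gt A.L L₀ with h4 | h4
  · exact ww_g4 N.n1 hIn htc hm hχ hχ1 hg hD0 hDL h4 hadm hE hP hA N.p2 N.C₀0 N.C₂0 N.σ0 N.ε0 N.ea N.c4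
  rcases le_or_gt χ (A.L ^ (-v₀)) with h3 | h3
  · exact ww_g3 N.n1 hIn htc hm hχ hg hD0 h2.le h3 hadm hE hP hA N.p2 N.C₀0 N.C₂0 N.σ0 N.ea N.e3 N.c3
  rcases (wset A s c (wlev n X.a χ g A.L)).eq_empty_or_nonempty with he | hne
  · rw [he, measure_empty]
    exact zero_le
  exact hact ι A s c μ m χ g rfl hIn htc hm0 hχ hχ1 hg hadm hE h4 h2 h3 h1 (ww_g_le hIn htc hχ hE hA hne)


/-- **THE HUB**: w:weak for all `1 ≤ D ≤ L` from the step of the double induction in the active range -/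
theorem ww_main {W : WCon} {X : WExp} {cs κ C₁ ε C₂ C₀ v₀ L₀ : ℝ} (N : WEasyNum n W X cs κ C₁ ε C₂ C₀ v₀ L₀)
    (hS : SparseWith n W cs κ C₁) (hP : PowerLossWith n W ε C₂) (hA : ArrSupWith n W.K C₀)
    (step : ∀ L D : ℝ, 1 ≤ D → D ≤ L → WOuter n W X L → WInner n W X L D → WActive n W X κ C₀ v₀ L₀ L D) :
    ∀ L D : ℝ, 1 ≤ D → D ≤ L → WeakAt n W X L D :=
  ww_induct fun L D h1 h2 ho hi => ww_norm (ww_reduce N hS hP hA h1 h2 (step L D h1 h2 ho hi))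

end Claimed.Agent.R257
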