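import Claimed.Agent.R257.Weak.HeavyGeo
import Claimed.Agent.R257.Infra.Alg

/-!
# R257 / Weak / HeavyCap : far trajectories and the outer step for ONE bin (H wall.tex l.61-70, l.79-86), on top of INFRA U0 (`Infra/Alg.lean`, helper53)            (architect helper273)            CONTRACT
INFRA gives (possibly still sorried: cite as black boxes): `pmap`, `Arr.resc`, `inf_fld_resc_norm`, `inf_in_resc`, `inf_grow_push`, `inf_dens_push`, `inf_slab_push`, `inf_tubeMom_of_grow`, `inf_tubeMom_far`.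
The constants of INFRA are existential; `whFar n W`, `whMom n W`, `whDen n W`, `whC n W` NAME them (they depend only on `n` and the conventions `W`).
Every `sorry` is a leaf `L-257-WH-*`.  Statements are frozen (a FALSE statement: one line to helper273); auxiliary lemmas directly above your theorem, prefix `wh_`; edit only your block.
-/

set_option autoImplicit false

namespace Claimed.Agent.R257

open MeasureTheory Metric Set
open scoped ENNReal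

variable {n : ℕ} {ι : Type}

/-- the constant of `inf_tubeMom_far` -/
noncomputable def whFar (n : ℕ) (W : WCon) : ℝ :=
  if h : n + 2 ≤ W.M then Classical.choose (inf_tubeMom_far n W.M h W.T₀ W.K.Rω) else 0

/-- the constant of `inf_tubeMom_of_grow` -/
noncomputable def whMom (n : ℕ) (W : WCon) : ℝ :=
  if h : n + 2 ≤ W.M then Classical.choose (inf_tubeMom_of_grow n W.M h W.T₀ W.K.Rω) else 0

/-- the constant of `inf_dens_push` for caps with centre of norm `≤ 2 Rω` -/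
noncomputable def whDen (n : ℕ) (W : WCon) : ℝ := Classical.choose (inf_dens_push n (2 * W.K.Rω))

/-- the constant of the outer step: the pushed measure is admissible with the parameter `whC n W * m * R^{n+1}` -/
noncomputable def whC (n : ℕ) (W : WCon) : ℝ := max 1 (whMom n W) * max (whDen n W) (2 * (1 + 2 * (2 * W.K.Rω)) ^ (n : ℝ))

theorem wh_far_spec (W : WCon) (h : n + 2 ≤ W.M) : 0 ≤ whFar n W ∧ ∀ (ι : Type) (μ : Measure (ST n)) (A : Arr n ι) (α : ι) (m Λ : ℝ), 0 ≤ m → 1 ≤ Λ →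
    Grow μ m n → Slab μ (W.T₀ * A.L ^ 2) → 1 ≤ A.L → ‖A.om α‖ ≤ W.K.Rω →
    ∫⁻ z in {z | Λ * A.L < A.tdist α z}, ENNReal.ofReal ((1 + A.tdist α z / A.L) ^ (-(W.M : ℤ))) ∂μ
      ≤ ENNReal.ofReal (whFar n W * m * A.L ^ ((n : ℝ) + 1) * Λ ^ (-((W.M : ℝ) - n - 1))) := by
  unfold whFar
  rw [dif_pos h]
  exact Classical.choose_spec (inf_tubeMom_far n W.M h W.T₀ W.K.Rω)

theorem wh_mom_spec (W : WCon) (h : n + 2 ≤ W.M) : 0 ≤ whMom n W ∧ ∀ (ι : Type) (μ : Measure (ST n)) (A : Arr n ι) (s : Finset ι) (m : ℝ), 0 ≤ m →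
    Grow μ m n → Slab μ (W.T₀ * A.L ^ 2) → 1 ≤ A.L → (∀ α ∈ s, ‖A.om α‖ ≤ W.K.Rω) → TubeMom μ A s (whMom n W * m) 1 W.M := by
  unfold whMom
  rw [dif_pos h]
  exact Classical.choose_spec (inf_tubeMom_of_grow n W.M h W.T₀ W.K.Rω)

theorem wh_den_spec (n : ℕ) (W : WCon) : 0 ≤ whDen n W ∧ ∀ (μ : Measure (ST n)) (m χ H : ℝ) (v : E n), Dens μ m χ → 0 ≤ m → 0 ≤ χ → 1 ≤ H →
    ‖v‖ ≤ 2 * W.K.Rω → Dens (μ.map (pmap H v)) (whDen n W * m * H ^ ((n : ℝ) + 1)) (χ * H) :=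
  Classical.choose_spec (inf_dens_push n (2 * W.K.Rω))

/-- **LEAF L-257-WH-FAR.**  The integral of the far mass: sum `wh_far_spec` with `|c_α|²`  (`H.far` = `∑ α ∈ s, if ρ L < tdist then .. else 0` by `Finset.sum_filter`; `ENNReal.ofReal_sum_of_nonneg`, `lintegral_finset_sum`,
`lintegral_const_mul`, indicator ↔ set integral `lintegral_indicator`; the set `{ρ L < tdist}` is open: `wh_tdist_cont`). -/
theorem wh_far_int (H : WH n ι) (W : WCon) {m : ℝ} (hMn : n + 2 ≤ W.M) (hM : H.M = W.M) (hm : 0 ≤ m) (hL : 1 ≤ H.A.L) (hg : Grow H.μ m n)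
    (hs : Slab H.μ (W.T₀ * H.A.L ^ 2)) (hfreq : ∀ α ∈ H.s, ‖H.A.om α‖ ≤ W.K.Rω) (ρ : ℝ) (hρ : 1 ≤ ρ) :
    ∫⁻ z, ENNReal.ofReal (H.far ρ z) ∂H.μ
      ≤ ENNReal.ofReal (whFar n W * m * H.A.L ^ ((n : ℝ) + 1) * ρ ^ (-((W.M : ℝ) - n - 1)) * energy H.s H.c) := by
  classical
  have hL0 : 0 < H.A.L := by linarith
  obtain ⟨hF0, hF⟩ := wh_far_spec (n := n) W hMn
  have hopen : ∀ α, MeasurableSet {z | ρ * H.A.L < H.A.tdist α z} := fun α =>
    (isOpen_lt continuous_const (wh_tdist_cont H.A α)).measurableSet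
  have e1 : ∀ z, ENNReal.ofReal (H.far ρ z) = ∑ α ∈ H.s, ENNReal.ofReal (‖H.c α‖ ^ 2) *
      ({z | ρ * H.A.L < H.A.tdist α z}.indicator (fun z => ENNReal.ofReal (H.A.tw H.M α z)) z) := by
    intro z
    unfold WH.far
    rw [Finset.sum_filter, ENNReal.ofReal_sum_of_nonneg]
    · refine Finset.sum_congr rfl fun α _ => ?_
      by_cases h : ρ * H.A.L < H.A.tdist α z
      · rw [if_pos h, indicator_of_mem (show z ∈ {z | ρ * H.A.L < H.A.tdist α z} from h), ENNReal.ofReal_mul (by positivity)]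
      · rw [if_neg h, indicator_of_notMem (show z ∉ {z | ρ * H.A.L < H.A.tdist α z} from h)]
        simp
    · intro α _
      split_ifs
      · exact mul_nonneg (by positivity) (wh_tw_pos H.A hL0 _ _ _).le
      · exact le_rfl
  simp only [e1]
  have hmeas : ∀ α, Measurable fun z => ({z | ρ * H.A.L < H.A.tdist α z}.indicator (fun z => ENNReal.ofReal (H.A.tw H.M α z)) z) :=
    fun α => ((wh_tw_cont H.A hL0 H.M α).measurable.ennreal_ofReal).indicator (hopen α)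
  rw [lintegral_finsetSum _ fun α _ => (hmeas α).const_mul _]
  have e2 : whFar n W * m * H.A.L ^ ((n : ℝ) + 1) * ρ ^ (-((W.M : ℝ) - n - 1)) * energy H.s H.c
      = ∑ α ∈ H.s, ‖H.c α‖ ^ 2 * (whFar n W * m * H.A.L ^ ((n : ℝ) + 1) * ρ ^ (-((W.M : ℝ) - n - 1))) := by
    unfold energy
    rw [← Finset.sum_mul, mul_comm]
  have hK : 0 ≤ whFar n W * m * H.A.L ^ ((n : ℝ) + 1) * ρ ^ (-((W.M : ℝ) - n - 1)) :=
    mul_nonneg (mul_nonneg (mul_nonneg hF0 hm) (Real.rpow_nonneg hL0.le _)) (Real.rpow_nonneg (by linarith) _)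
  rw [e2, ENNReal.ofReal_sum_of_nonneg fun α _ => mul_nonneg (by positivity) hK]
  refine Finset.sum_le_sum fun α hα => ?_
  rw [lintegral_const_mul _ (hmeas α), lintegral_indicator (hopen α), ENNReal.ofReal_mul (by positivity)]
  refine mul_le_mul_right ?_ _
  have := hF ι H.μ H.A α m ρ hm hρ hg hs hL (hfreq α hα)
  unfold Arr.tw
  rw [hM]
  exact this

/-! ## LEAF L-257-WH-CAP1 : the pushed measure is admissible -/

/-- monotonicity in the ball parameter -/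
theorem wh_grow_mono {μ : Measure (ST n)} {m m' a : ℝ} (h : m ≤ m') (hg : Grow μ m a) : Grow μ m' a := by
  intro z r hr
  refine (hg z r hr).trans (ENNReal.ofReal_le_ofReal ?_)
  exact mul_le_mul_of_nonneg_right h (Real.rpow_nonneg (by linarith) _)

theorem wh_tubeMom_mono {μ : Measure (ST n)} {A : Arr n ι} {s : Finset ι} {m m' D : ℝ} {M : ℕ} (hL : 0 ≤ A.L) (hD : 0 ≤ D) (h : m ≤ m')
    (ht : TubeMom μ A s m D M) : TubeMom μ A s m' D M := by
  intro α hα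
  refine (ht α hα).trans (ENNReal.ofReal_le_ofReal ?_)
  exact div_le_div_of_nonneg_right (mul_le_mul_of_nonneg_right h (Real.rpow_nonneg hL _)) hD

/-- level sets in parabolic coordinates (`inf_fld_resc_norm`; `R^{n/2} R^{-n/2} = 1`). -/
theorem wh_wset_resc (A : Arr n ι) {R : ℝ} (hR : 0 < R) (hL : 0 < A.L) (v : E n) (t : Finset ι) (c : ι → ℂ) (θ : ℝ) :
    wset A t c θ = pmap R v ⁻¹' wset (A.resc R v) t c (R ^ ((n : ℝ) / 2) * θ) := by
  ext z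
  unfold wset
  simp only [mem_ofPred_eq, mem_preimage]
  rw [inf_fld_resc_norm A hL hR v t c z, neg_div, Real.rpow_neg hR.le]
  exact le_inv_mul_iff₀ (Real.rpow_pos_of_pos hR _)

/-- **PLAN.**  `m₁ = max (whDen) (2 (1 + 4Rω)^n) m R^{n+1}`.   `Grow ν' m₁`: `inf_grow_push` (`a = n`, `Rv = 2 Rω`) + `wh_grow_mono`.   Unit balls: `ν' B ≤ ofReal (whDen m R^{n+1} (χ R))` (`wh_den_spec`) and `≤ ofReal m₁` (growth, `r = 1`), so
`≤ ofReal (m₁ min(1, χR))`.   `Slab`: `inf_slab_push`, `T₀ L²/R² = T₀ (L/R)²`.   `TubeMom ν' A' t (whMom m₁) 1 M`: `wh_mom_spec` (frequencies of `A'`: `hfreq`).   Finally enlarge `m₁`, `whMom m₁` to `max 1 whMom * m₁ = whC m R^{n+1}`. -/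
theorem wh_adm_push (W : WCon) {A : Arr n ι} {t : Finset ι} {ν : Measure (ST n)} {m χ R : ℝ} (v : E n) (hR : 1 ≤ R) (hRL : R ≤ A.L)
    (hRω : 0 ≤ W.K.Rω) (hv : ‖v‖ ≤ 2 * W.K.Rω) (hfreq : ∀ α ∈ t, R * ‖A.om α - v‖ ≤ W.K.Rω) (hM : n + 2 ≤ W.M)
    (hg : Grow ν m n) (hs : Slab ν (W.T₀ * A.L ^ 2)) (hd : Dens ν m χ) (hm : 0 ≤ m) (hχ : 0 ≤ χ) :
    Adm0 W (A.resc R v) t (ν.map (pmap R v)) (whC n W * m * R ^ ((n : ℝ) + 1)) (min 1 (χ * R)) 1 := by
  have hR0 : 0 < R := by linarith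
  have hRp : 0 ≤ R ^ ((n : ℝ) + 1) := Real.rpow_nonneg hR0.le _
  have hmR : 0 ≤ m * R ^ ((n : ℝ) + 1) := mul_nonneg hm hRp
  obtain ⟨hD0, hDs⟩ := wh_den_spec n W
  obtain ⟨hM0, hMs⟩ := wh_mom_spec (n := n) W hM
  obtain ⟨c1, hc1⟩ : ∃ c1, c1 = max (whDen n W) (2 * (1 + 2 * (2 * W.K.Rω)) ^ (n : ℝ)) := ⟨_, rfl⟩
  have hc1D : whDen n W ≤ c1 := hc1 ▸ le_max_left _ _
  have hc1G : 2 * (1 + 2 * (2 * W.K.Rω)) ^ (n : ℝ) ≤ c1 := hc1 ▸ le_max_right _ _
  have hc10 : 0 ≤ c1 := hD0.trans hc1D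
  obtain ⟨m1, hm1⟩ : ∃ m1, m1 = c1 * m * R ^ ((n : ℝ) + 1) := ⟨_, rfl⟩
  have hm10 : 0 ≤ m1 := by rw [hm1, mul_assoc]; exact mul_nonneg hc10 hmR
  have hmF : whC n W * m * R ^ ((n : ℝ) + 1) = max 1 (whMom n W) * m1 := by
    unfold whC
    rw [← hc1, hm1]
    ring
  have hm1F : m1 ≤ max 1 (whMom n W) * m1 := by
    have := mul_le_mul_of_nonneg_right (le_max_left 1 (whMom n W)) hm10
    rwa [one_mul] at this
  have hL' : (A.resc R v).L = A.L / R := rfl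
  have hL1 : 1 ≤ (A.resc R v).L := by rw [hL', one_le_div hR0]; exact hRL
  have hgrow1 : Grow (ν.map (pmap R v)) m1 n := by
    refine wh_grow_mono ?_ (inf_grow_push hg hm (Nat.cast_nonneg n) hR hv)
    rw [hm1, mul_assoc, mul_assoc c1]
    exact mul_le_mul_of_nonneg_right hc1G hmR
  have hslab : Slab (ν.map (pmap R v)) (W.T₀ * (A.resc R v).L ^ 2) := by
    have := inf_slab_push hs hR0 v
    rwa [hL', div_pow, ← mul_div_assoc]
  rw [hmF]
  refine ⟨wh_grow_mono hm1F hgrow1, hslab, fun z => ?_, ?_⟩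
  · rcases le_total 1 (χ * R) with h1 | h1
    · rw [min_eq_left h1, mul_one]
      have := wh_grow_mono hm1F hgrow1 z 1 le_rfl
      rwa [Real.one_rpow, mul_one] at this
    · rw [min_eq_right h1]
      refine (hDs ν m χ R v hd hm hχ hR hv z).trans (ENNReal.ofReal_le_ofReal ?_)
      refine mul_le_mul_of_nonneg_right ?_ (mul_nonneg hχ hR0.le)
      refine le_trans ?_ hm1F
      rw [hm1, mul_assoc, mul_assoc c1]
      exact mul_le_mul_of_nonneg_right hc1D hmR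
  · refine wh_tubeMom_mono (by linarith) zero_le_one (mul_le_mul_of_nonneg_right (le_max_right 1 (whMom n W)) hm10)
      (hMs ι (ν.map (pmap R v)) (A.resc R v) t m1 hm10 hgrow1 hslab hL1 fun α hα => ?_)
    have : (A.resc R v).om α = R • (A.om α - v) := rfl
    rw [this, norm_smul, Real.norm_of_nonneg hR0.le]
    exact hfreq α hα

/-! ## LEAF L-257-WH-CAP2 : the outer step for one bin -/

/-- **The outer step for one bin** (any measure `ν` with growth, slab, unit density; any subarray `t` with frequencies in the cap of centre `v`).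
PLAN.  `A' = A.resc R v`, `ν' = ν.map (pmap R v)`, `m' = whC n W m R^{n+1}`, `χ' = min 1 (χ R)`, `g'` defined by `wlev n a χ' g' (L/R) = R^{n/2} θ`.   `wh_adm_push`;  `inf_in_resc` with `ρ = K.Rω` (`{K with Rω := K.Rω} = K` by `rfl`/eta).
`ν (wset A t c θ) = ν' (wset A' t c (R^{n/2} θ))`: `wh_wset_resc`, `Measure.map_apply` (`inf_pmap_continuous`, `wh_meas_wset`; profiles continuous by `Prof.smooth`). -/
theorem wh_outer_bin (W : WCon) (X : WExp) (C' : ℝ) {A : Arr n ι} {t : Finset ι} {c : ι → ℂ} {ν : Measure (ST n)} {m χ R θ : ℝ}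
    (v : E n) (hout : WeakAt0 n W X C' (A.L / R) 1) (hA : A.In t W.K) (htc : ∀ α ∈ t, A.tc α = 0) (hR : 1 ≤ R) (hRL : R ≤ A.L)
    (hRω : 0 ≤ W.K.Rω) (hv : ‖v‖ ≤ 2 * W.K.Rω) (hfreq : ∀ α ∈ t, R * ‖A.om α - v‖ ≤ W.K.Rω) (hM : n + 2 ≤ W.M)
    (hg : Grow ν m n) (hs : Slab ν (W.T₀ * A.L ^ 2)) (hd : Dens ν m χ) (hm : 0 ≤ m) (hχ : 0 < χ) (hθ : 0 < θ) :
    ν (wset A t c θ) ≤ ENNReal.ofReal (C' * wrhs n X (whC n W * m * R ^ ((n : ℝ) + 1)) (A.L / R)
      (R ^ ((n : ℝ) / 2) * θ / (min 1 (χ * R) ^ X.a * (A.L / R) ^ (-eex n))) 1 (energy t c)) := by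
  have hR0 : 0 < R := by linarith
  have hL0 : 0 < A.L := by linarith [hA.one_le]
  have hχ' : 0 < min 1 (χ * R) := lt_min one_pos (mul_pos hχ hR0)
  have p1 := Real.rpow_pos_of_pos hχ' X.a
  have p2 := Real.rpow_pos_of_pos (div_pos hL0 hR0) (-eex n)
  have p3 := Real.rpow_pos_of_pos hR0 ((n : ℝ) / 2)
  have hCc : 0 ≤ whC n W := by
    unfold whC
    have h1 : (0 : ℝ) ≤ max 1 (whMom n W) := le_trans zero_le_one (le_max_left _ _)
    have h2 : (0 : ℝ) ≤ max (whDen n W) (2 * (1 + 2 * (2 * W.K.Rω)) ^ (n : ℝ)) :=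
      le_trans (mul_nonneg zero_le_two (Real.rpow_nonneg (by positivity) _)) (le_max_right _ _)
    exact mul_nonneg h1 h2
  have p4 := Real.rpow_pos_of_pos hR0 ((n : ℝ) + 1)
  have hIn : (A.resc R v).In t W.K := inf_in_resc (ρ := W.K.Rω) hA htc hR0 hRL v fun α hα => by
    rw [le_div_iff₀ hR0, mul_comm]
    exact hfreq α hα
  have h1 := hout ι (A.resc R v) t c (ν.map (pmap R v)) (whC n W * m * R ^ ((n : ℝ) + 1)) (min 1 (χ * R))
    (R ^ ((n : ℝ) / 2) * θ / (min 1 (χ * R) ^ X.a * (A.L / R) ^ (-eex n))) rfl hIn htc (by positivity) hχ' (min_le_left _ _)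
    (by positivity) (wh_adm_push W v hR hRL hRω hv hfreq hM hg hs hd hm hχ.le)
  have e1 : wlev n X.a (min 1 (χ * R)) (R ^ ((n : ℝ) / 2) * θ / (min 1 (χ * R) ^ X.a * (A.L / R) ^ (-eex n))) (A.L / R)
      = R ^ ((n : ℝ) / 2) * θ := by
    unfold wlev
    field_simp
  rw [e1, Measure.map_apply (inf_pmap_continuous R v).measurable
    (wh_meas_wset (A.resc R v) t c (fun α hα => (hA.prof α hα).smooth.continuous) _), ← wh_wset_resc A hR0 hL0 v t c θ] at h1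
  exact h1

/-- **LEAF L-257-WH-CAP3** (arithmetic of (w:eq-light-outer)).  With `θ = wlev n a χ g L / N`:  `g' = g (χ/χ')^a R^{n/2 - e} / N ≥ g R^{n/2 - e - a} / N` because `χ' ≤ χ R`;  `g ↦ g^{-p}` is antitone;
`(L/R)^{2n} R^{n+1} = L^{2n} R^{1-n}`;  `En ↦ En^{p/2}` is monotone. -/
theorem wh_outer_arith (X : WExp) {Cc m L R χ g N En Eb : ℝ} (hCc : 0 ≤ Cc) (hC : 0 ≤ X.Cind) (hp : 0 ≤ X.p) (ha : 0 ≤ X.a) (hm : 0 ≤ m) (hL : 0 < L)
    (hR : 1 ≤ R) (hχ : 0 < χ) (hg : 0 < g) (hN : 0 < N) (hEn : 0 ≤ En) (hEb : En ≤ Eb) :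
    wrhs n X (Cc * m * R ^ ((n : ℝ) + 1)) (L / R) (R ^ ((n : ℝ) / 2) * (wlev n X.a χ g L / N) / (min 1 (χ * R) ^ X.a * (L / R) ^ (-eex n))) 1 En
      ≤ X.Cind * m * L ^ (2 * (n : ℝ)) * g ^ (-X.p) * (Cc * R ^ (1 - (n : ℝ)) * (N * R ^ (eex n + X.a - (n : ℝ) / 2)) ^ X.p * Eb ^ (X.p / 2)) := by
  have hR0 : 0 < R := by linarith
  have hχ' : 0 < min 1 (χ * R) := lt_min one_pos (by positivity)
  -- lower bound of g'
  have hlow : g / (N * R ^ (eex n + X.a - (n : ℝ) / 2))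
      ≤ R ^ ((n : ℝ) / 2) * (wlev n X.a χ g L / N) / (min 1 (χ * R) ^ X.a * (L / R) ^ (-eex n)) := by
    unfold wlev
    have e1 : (L / R) ^ (-eex n) = L ^ (-eex n) * R ^ (eex n) := by
      rw [Real.div_rpow hL.le hR0.le, Real.rpow_neg hR0.le, div_inv_eq_mul]
    have e2 : R ^ (eex n + X.a - (n : ℝ) / 2) = R ^ (eex n) * R ^ X.a / R ^ ((n : ℝ) / 2) := by
      rw [Real.rpow_sub hR0, Real.rpow_add hR0]
    have h1 : min 1 (χ * R) ^ X.a ≤ χ ^ X.a * R ^ X.a := by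
      rw [← Real.mul_rpow hχ.le hR0.le]
      exact Real.rpow_le_rpow hχ'.le (min_le_right _ _) ha
    have p1 : 0 < L ^ (-eex n) := Real.rpow_pos_of_pos hL _
    have p2 : 0 < R ^ (eex n) := Real.rpow_pos_of_pos hR0 _
    have p3 : 0 < R ^ X.a := Real.rpow_pos_of_pos hR0 _
    have p4 : 0 < R ^ ((n : ℝ) / 2) := Real.rpow_pos_of_pos hR0 _
    have p5 : 0 < χ ^ X.a := Real.rpow_pos_of_pos hχ _
    have p6 : 0 < min 1 (χ * R) ^ X.a := Real.rpow_pos_of_pos hχ' _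
    rw [e1, e2, div_le_div_iff₀ (by positivity) (by positivity)]
    have h2 : g * (min 1 (χ * R) ^ X.a * (L ^ (-eex n) * R ^ eex n)) ≤ g * ((χ ^ X.a * R ^ X.a) * (L ^ (-eex n) * R ^ eex n)) := by
      gcongr
    calc g * (min 1 (χ * R) ^ X.a * (L ^ (-eex n) * R ^ eex n)) ≤ g * ((χ ^ X.a * R ^ X.a) * (L ^ (-eex n) * R ^ eex n)) := h2
      _ = R ^ ((n : ℝ) / 2) * (χ ^ X.a * g * L ^ (-eex n) / N) * (N * (R ^ eex n * R ^ X.a / R ^ ((n : ℝ) / 2))) := by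
          field_simp
  have hq0 : 0 < N * R ^ (eex n + X.a - (n : ℝ) / 2) := mul_pos hN (Real.rpow_pos_of_pos hR0 _)
  have hgq : 0 < g / (N * R ^ (eex n + X.a - (n : ℝ) / 2)) := div_pos hg hq0
  have hpow : (R ^ ((n : ℝ) / 2) * (wlev n X.a χ g L / N) / (min 1 (χ * R) ^ X.a * (L / R) ^ (-eex n))) ^ (-X.p)
      ≤ g ^ (-X.p) * (N * R ^ (eex n + X.a - (n : ℝ) / 2)) ^ X.p := by
    calc _ ≤ (g / (N * R ^ (eex n + X.a - (n : ℝ) / 2))) ^ (-X.p) :=
          Real.rpow_le_rpow_of_nonpos hgq hlow (by linarith)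
      _ = _ := by rw [Real.div_rpow hg.le hq0.le, Real.rpow_neg hq0.le, div_inv_eq_mul]
  have hE : En ^ (X.p / 2) ≤ Eb ^ (X.p / 2) := Real.rpow_le_rpow hEn hEb (by linarith)
  have hLR : R ^ ((n : ℝ) + 1) * (L / R) ^ (2 * (n : ℝ)) = L ^ (2 * (n : ℝ)) * R ^ (1 - (n : ℝ)) := by
    rw [Real.div_rpow hL.le hR0.le]
    have : R ^ (1 - (n : ℝ)) = R ^ ((n : ℝ) + 1) / R ^ (2 * (n : ℝ)) := by
      rw [← Real.rpow_sub hR0]
      congr 1
      ring
    rw [this]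
    ring
  unfold wrhs
  rw [Real.one_rpow, mul_one]
  have q1 : 0 ≤ L ^ (2 * (n : ℝ)) := Real.rpow_nonneg hL.le _
  have q2 : 0 ≤ R ^ (1 - (n : ℝ)) := Real.rpow_nonneg hR0.le _
  have q3 : 0 ≤ g ^ (-X.p) * (N * R ^ (eex n + X.a - (n : ℝ) / 2)) ^ X.p :=
    mul_nonneg (Real.rpow_nonneg hg.le _) (Real.rpow_nonneg hq0.le _)
  have q4 : 0 ≤ En ^ (X.p / 2) := Real.rpow_nonneg hEn _
  calc X.Cind * (Cc * m * R ^ ((n : ℝ) + 1)) * (L / R) ^ (2 * (n : ℝ)) *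
        (R ^ ((n : ℝ) / 2) * (wlev n X.a χ g L / N) / (min 1 (χ * R) ^ X.a * (L / R) ^ (-eex n))) ^ (-X.p) * En ^ (X.p / 2)
      = (X.Cind * Cc * m * (R ^ ((n : ℝ) + 1) * (L / R) ^ (2 * (n : ℝ)))) *
        ((R ^ ((n : ℝ) / 2) * (wlev n X.a χ g L / N) / (min 1 (χ * R) ^ X.a * (L / R) ^ (-eex n))) ^ (-X.p) * En ^ (X.p / 2)) := by ring
    _ ≤ (X.Cind * Cc * m * (L ^ (2 * (n : ℝ)) * R ^ (1 - (n : ℝ)))) *
        ((g ^ (-X.p) * (N * R ^ (eex n + X.a - (n : ℝ) / 2)) ^ X.p) * Eb ^ (X.p / 2)) := by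
        rw [hLR]
        refine mul_le_mul_of_nonneg_left (mul_le_mul hpow hE q4 q3) ?_
        positivity
    _ = _ := by ring

end Claimed.Agent.R257
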