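import Claimed.Agent.R257.Weak.HeavyCap

/-!
# R257 / Weak / HeavyLight : the light bins (H wall.tex l.36-76): part (i) of w:heavy-reduction            (architect helper273)            CONTRACT
`τ = m L^{n+1}/D₁` the moment threshold, `θ = λ/(4 N)`, `N ≥` number of occupied bins.
`Y ∩ {|heavy field| < λ/2} ⊆ ⋃_b (Y ∩ light b) ∩ ({|U_{small b}| ≥ θ} ∪ {|U_{large b}| ≥ θ})`;   small: inner induction at `D₁`;   large: energy `≤ κ D₁ w₀`, outer induction at `L/R`.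
Every `sorry` is a leaf `L-257-WH-*`.  Statements are frozen (a FALSE statement: one line to helper273); auxiliary lemmas directly above your theorem, prefix `wh_`; edit only your block.
-/

set_option autoImplicit false

namespace Claimed.Agent.R257

open MeasureTheory Metric Set
open scoped ENNReal

variable {n : ℕ} {ι : Type}

/-! ## LEAF L-257-WH-LT1 : energy × moment of a light bin -/

/-- **PLAN.**  `∑_α ofReal |c_α|² ∫⁻ ofReal tw_α d(mu b) = ∫⁻ ofReal (mass b z) d(mu b)` (`lintegral_finset_sum`, `lintegral_const_mul`, `ENNReal.ofReal_mul`, `ENNReal.ofReal_sum_of_nonneg`).   On `light b`: `mass b z ≤ κ mass b (centre) < κ Wt`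
(`wh_mass_comp`).   `setLIntegral_mono`-type bound on the measurable set `Y ∩ light b` (`wh_meas_wset`, `wh_meas_light`), total mass `≤ μ Y`. -/
theorem wh_light_mom (H : WH n ι) {Rω κ : ℝ} (hn : 1 ≤ n) (hR : 0 < H.R) (hL : 0 < H.A.L) (hfreq : ∀ α ∈ H.s, ‖H.A.om α‖ ≤ Rω)
    (hpf : ∀ α ∈ H.s, Continuous (H.A.pf α))
    (hκ : (1 + (1 + 2 * Rω) * (Real.sqrt n * H.R ^ 4 / 2) / H.A.L) ^ H.M ≤ κ) (b : BI n) :
    ∑ α ∈ H.bin b, ENNReal.ofReal (‖H.c α‖ ^ 2) * H.mom b α ≤ ENNReal.ofReal (κ * H.Wt) * H.μ H.Y := by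
  classical
  rcases (H.bin b).eq_empty_or_nonempty with he | ⟨α₀, hα₀⟩
  · rw [he, Finset.sum_empty]
    exact zero_le
  have hsub : H.bin b ⊆ H.s := by
    unfold WH.bin
    exact Finset.filter_subset _ _
  have hRω : 0 ≤ Rω := (norm_nonneg _).trans (hfreq α₀ (hsub hα₀))
  have hκ0 : 0 ≤ κ := le_trans (by positivity) hκ
  have hmeas : MeasurableSet (H.Y ∩ H.light b) := (wh_meas_wset H.A H.s H.c hpf H.lam).inter (wh_meas_light H b)
  have e1 : ∑ α ∈ H.bin b, ENNReal.ofReal (‖H.c α‖ ^ 2) * H.mom b α = ∫⁻ z, ENNReal.ofReal (H.mass b z) ∂(H.mu b) := by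
    unfold WH.mom WH.mass
    have : ∀ z, ENNReal.ofReal (∑ α ∈ H.bin b, ‖H.c α‖ ^ 2 * H.A.tw H.M α z)
        = ∑ α ∈ H.bin b, ENNReal.ofReal (‖H.c α‖ ^ 2) * ENNReal.ofReal (H.A.tw H.M α z) := by
      intro z
      rw [ENNReal.ofReal_sum_of_nonneg (fun α _ => mul_nonneg (by positivity) (wh_tw_pos H.A hL H.M α z).le)]
      exact Finset.sum_congr rfl fun α _ => ENNReal.ofReal_mul (by positivity)
    simp_rw [this]
    rw [lintegral_finsetSum _ (fun α _ => ((wh_tw_cont H.A hL H.M α).measurable.ennreal_ofReal).const_mul _)]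
    exact Finset.sum_congr rfl fun α _ => (lintegral_const_mul' _ _ ENNReal.ofReal_ne_top).symm
  rw [e1]
  unfold WH.mu
  calc ∫⁻ z in H.Y ∩ H.light b, ENNReal.ofReal (H.mass b z) ∂H.μ
      ≤ ∫⁻ _z in H.Y ∩ H.light b, ENNReal.ofReal (κ * H.Wt) ∂H.μ := by
        refine setLIntegral_mono' hmeas fun z hz => ENNReal.ofReal_le_ofReal ?_
        have h1 := (wh_mass_comp H hn hR hL hfreq hκ b z).1
        have h2 : ¬ H.Wt ≤ H.mass b (wctr (H.R ^ 4) (wmac (H.R ^ 4) z)) := hz.2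
        exact h1.trans (mul_le_mul_of_nonneg_left (not_le.1 h2).le hκ0)
    _ = ENNReal.ofReal (κ * H.Wt) * H.μ (H.Y ∩ H.light b) := by
        rw [lintegral_const, Measure.restrict_apply MeasurableSet.univ, univ_inter]
    _ ≤ _ := mul_le_mul_right (measure_mono inter_subset_left) _

/-- Chebyshev on the labels: `ofReal τ * ofReal (energy large) ≤ ∑_{large} ofReal |c|² mom ≤ wh_light_mom`. -/
theorem wh_large_energy (H : WH n ι) {Rω κ τ : ℝ} (hn : 1 ≤ n) (hR : 0 < H.R) (hL : 0 < H.A.L) (hfreq : ∀ α ∈ H.s, ‖H.A.om α‖ ≤ Rω)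
    (hpf : ∀ α ∈ H.s, Continuous (H.A.pf α))
    (hκ : (1 + (1 + 2 * Rω) * (Real.sqrt n * H.R ^ 4 / 2) / H.A.L) ^ H.M ≤ κ) (hκ0 : 0 ≤ κ) (hW : 0 ≤ H.Wt) (hτ : 0 < τ)
    (hfin : H.μ H.Y ≠ ∞) (b : BI n) :
    energy (H.large τ b) H.c ≤ κ * H.Wt * (H.μ H.Y).toReal / τ := by
  classical
  have h1 := wh_light_mom H hn hR hL hfreq hpf hκ b
  have hsub : H.large τ b ⊆ H.bin b := by
    unfold WH.large
    exact Finset.filter_subset _ _
  have h2 : ENNReal.ofReal τ * ENNReal.ofReal (energy (H.large τ b) H.c)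
      ≤ ∑ α ∈ H.bin b, ENNReal.ofReal (‖H.c α‖ ^ 2) * H.mom b α := by
    unfold energy
    rw [ENNReal.ofReal_sum_of_nonneg (fun _ _ => by positivity), Finset.mul_sum]
    refine le_trans (Finset.sum_le_sum fun α hα => ?_) (Finset.sum_le_sum_of_subset hsub)
    have hα' : ¬ H.mom b α ≤ ENNReal.ofReal τ := by
      unfold WH.large at hα
      exact (Finset.mem_filter.1 hα).2
    rw [mul_comm]
    exact mul_le_mul_right (not_le.1 hα').le _
  have h3 := h2.trans h1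
  rw [← ENNReal.ofReal_toReal hfin, ← ENNReal.ofReal_mul hτ.le, ← ENNReal.ofReal_mul (by positivity)] at h3
  have h4 := (ENNReal.ofReal_le_ofReal_iff (by positivity)).1 h3
  rw [le_div_iff₀ hτ]
  linarith

/-! ## LEAF L-257-WH-LT2 : restrictions of admissible measures, subarrays -/

/-- (`inf_in_mono`) -/
theorem wh_in_mono {A : Arr n ι} {s t : Finset ι} {K : Cls} (h : A.In s K) (hts : t ⊆ s) : A.In t K :=
  inf_in_mono h hts le_rfl le_rfl le_rfl le_rfl le_rfl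

theorem wh_slab_restrict {μ : Measure (ST n)} {T : ℝ} (S : Set (ST n)) (h : Slab μ T) : Slab (μ.restrict S) T :=
  le_antisymm ((Measure.restrict_apply_le _ _).trans_eq h) zero_le

theorem wh_dens_restrict {μ : Measure (ST n)} {m χ : ℝ} (S : Set (ST n)) (h : Dens μ m χ) : Dens (μ.restrict S) m χ :=
  fun z => (Measure.restrict_apply_le _ _).trans (h z)

theorem wh_inBall_restrict {μ : Measure (ST n)} {c : E n} {r : ℝ} (S : Set (ST n)) (h : InBall μ c r) : InBall (μ.restrict S) c r :=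
  le_antisymm ((Measure.restrict_apply_le _ _).trans_eq h) zero_le

/-- the bins are disjoint: `∑_b energy (bin b) = energy s` (`Finset.sum_fiberwise_of_maps_to` / `Finset.sum_image'`). -/
theorem wh_energy_bins (H : WH n ι) : ∑ b ∈ H.bins, energy (H.bin b) H.c = energy H.s H.c := by
  classical
  unfold energy WH.bin WH.bins
  exact Finset.sum_fiberwise_of_maps_to (fun α hα => Finset.mem_image_of_mem _ hα) _

/-- `∑ x^q ≤ (∑ x)^q`, `q ≥ 1`, `x ≥ 0`. -/
theorem wh_sum_rpow_le {κ : Type} (S : Finset κ) (x : κ → ℝ) (hx : ∀ k ∈ S, 0 ≤ x k) (q : ℝ) (hq : 1 ≤ q) :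
    ∑ k ∈ S, x k ^ q ≤ (∑ k ∈ S, x k) ^ q := by
  have hT : 0 ≤ ∑ k ∈ S, x k := Finset.sum_nonneg hx
  have hpw : ∀ y : ℝ, 0 ≤ y → y ^ q = y ^ (q - 1) * y := by
    intro y hy
    have : y ^ (q - 1 + 1) = y ^ (q - 1) * y ^ (1 : ℝ) := Real.rpow_add' hy (by linarith)
    rw [Real.rpow_one] at this
    rw [← this]
    congr 1
    ring
  rw [hpw _ hT, Finset.mul_sum]
  refine Finset.sum_le_sum fun k hk => ?_
  rw [hpw _ (hx k hk)]
  refine mul_le_mul_of_nonneg_right ?_ (hx k hk)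
  exact Real.rpow_le_rpow (hx k hk) (Finset.single_le_sum hx hk) (by linarith)

/-! ## LEAF L-257-WH-LT3 : the inner step (w:eq-light-inner) -/

/-- **PLAN.**  For each `b`: `Adm W A (small τ b) (mu b) m χ D₁`: restrictions (LT2, `inf_grow_restrict`), `TubeMom` = definition of `small` with `τ = m L^{n+1}/D₁` (`A.tw` unfolds to the integrand of `TubeMom`, `H.M = W.M`).   `hin` gives
`mu b (wset ..) ≤ ofReal (wrhs n X m L g₁ D₁ (energy (small τ b)))`.   Sum: `wrhs` is `K * En^{p/2}` with `K ≥ 0`; `energy (small τ b) ≤ energy (bin b)`; `wh_sum_rpow_le` (`q = p/2 ≥ 1`), `wh_energy_bins`; `ENNReal.ofReal_sum_of_nonneg`. -/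
theorem wh_inner (H : WH n ι) (W : WCon) (X : WExp) {m χ g₁ D D₁ : ℝ} (hin : WeakAt n W X H.A.L D₁) (hA : H.A.In H.s W.K)
    (htc : ∀ α ∈ H.s, H.A.tc α = 0) (hM : H.M = W.M) (hm : 0 ≤ m) (hχ : 0 < χ) (hχ1 : χ ≤ 1) (hg : 0 < g₁) (hD₁ : 0 < D₁)
    (hadm : Adm W H.A H.s H.μ m χ D) (hp : 2 ≤ X.p) (hC : 0 ≤ X.Cind) :
    ∑ b ∈ H.bins, H.mu b (wset H.A (H.small (m * H.A.L ^ ((n : ℝ) + 1) / D₁) b) H.c (wlev n X.a χ g₁ H.A.L))
      ≤ ENNReal.ofReal (wrhs n X m H.A.L g₁ D₁ (energy H.s H.c)) := by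
  classical
  have hL0 : 0 < H.A.L := by linarith [hA.one_le]
  set τ := m * H.A.L ^ ((n : ℝ) + 1) / D₁ with hτ
  set K := X.Cind * m * H.A.L ^ (2 * (n : ℝ)) * g₁ ^ (-X.p) * D₁ ^ (-X.σ) with hK
  have hK0 : 0 ≤ K := by
    have p1 := Real.rpow_nonneg hL0.le (2 * (n : ℝ))
    have p2 := Real.rpow_nonneg hg.le (-X.p)
    have p3 := Real.rpow_nonneg hD₁.le (-X.σ)
    positivity
  have hw : ∀ En : ℝ, wrhs n X m H.A.L g₁ D₁ En = K * En ^ (X.p / 2) := fun _ => rfl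
  have hen0 : ∀ t : Finset ι, 0 ≤ energy t H.c := fun t => Finset.sum_nonneg fun _ _ => by positivity
  have hsb : ∀ b, H.small τ b ⊆ H.bin b := by
    intro b
    unfold WH.small
    exact Finset.filter_subset _ _
  have hbs : ∀ b, H.bin b ⊆ H.s := by
    intro b
    unfold WH.bin
    exact Finset.filter_subset _ _
  have hb : ∀ b ∈ H.bins, H.mu b (wset H.A (H.small τ b) H.c (wlev n X.a χ g₁ H.A.L))
      ≤ ENNReal.ofReal (K * energy (H.bin b) H.c ^ (X.p / 2)) := by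
    intro b _
    have hts : H.small τ b ⊆ H.s := (hsb b).trans (hbs b)
    obtain ⟨c₀, hc₀⟩ := hadm.box
    have hadm' : Adm W H.A (H.small τ b) (H.mu b) m χ D₁ := by
      refine ⟨⟨inf_grow_restrict hadm.grow _, wh_slab_restrict _ hadm.slab, wh_dens_restrict _ hadm.dens, ?_⟩,
        ⟨c₀, wh_inBall_restrict _ hc₀⟩⟩
      intro α hα
      have hα' : H.mom b α ≤ ENNReal.ofReal τ := by
        unfold WH.small at hα
        exact (Finset.mem_filter.1 hα).2
      unfold WH.mom Arr.tw at hα'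
      rw [hM] at hα'
      exact hα'
    refine (hin ι H.A (H.small τ b) H.c (H.mu b) m χ g₁ rfl (wh_in_mono hA hts) (fun α hα => htc α (hts hα)) hm hχ hχ1 hg hadm').trans
      (ENNReal.ofReal_le_ofReal ?_)
    rw [hw]
    refine mul_le_mul_of_nonneg_left (Real.rpow_le_rpow (hen0 _) ?_ (by linarith)) hK0
    exact Finset.sum_le_sum_of_subset_of_nonneg (hsb b) fun _ _ _ => by positivity
  refine (Finset.sum_le_sum hb).trans ?_
  rw [← ENNReal.ofReal_sum_of_nonneg (fun b _ => mul_nonneg hK0 (Real.rpow_nonneg (hen0 _) _)), hw, ← Finset.mul_sum]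
  refine ENNReal.ofReal_le_ofReal (mul_le_mul_of_nonneg_left ?_ hK0)
  rw [← wh_energy_bins H]
  exact wh_sum_rpow_le _ _ (fun b _ => hen0 _) _ (by linarith)

/-! ## LEAF L-257-WH-LT4 : the outer step, all bins (w:eq-light-outer) -/

/-- **PLAN.**  For each occupied `b`: `wh_outer_bin` with `v = wbinc R b`, `t = large τ b`, `ν = mu b`, `θ = wlev n a χ g L / N`.   `R ‖ω_α - v‖ ≤ √n/2 ≤ K.Rω` (`wh_dist_binc`), `‖v‖ ≤ ‖ω_α‖ + ‖ω_α - v‖ ≤ 2 K.Rω` (`b` occupied, `R ≥ 1`).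
Then `wh_outer_arith` with `En = energy (large τ b)`, `hEb`; `H.bins.card ≤ N` bins. -/
theorem wh_outer (H : WH n ι) (W : WCon) (X : WExp) {C' m χ g D τ N Eb : ℝ} (hout : WeakAt0 n W X C' (H.A.L / H.R) 1)
    (hA : H.A.In H.s W.K) (htc : ∀ α ∈ H.s, H.A.tc α = 0) (hR : 1 ≤ H.R) (hRL : H.R ≤ H.A.L)
    (hRω : Real.sqrt n / 2 ≤ W.K.Rω) (hM : n + 2 ≤ W.M) (hm : 0 ≤ m) (hχ : 0 < χ) (hg : 0 < g) (hC' : 0 ≤ C')
    (hadm : Adm W H.A H.s H.μ m χ D) (hp : 0 ≤ X.p) (ha : 0 ≤ X.a) (hC : 0 ≤ X.Cind) (hN : (H.bins.card : ℝ) ≤ N) (hN0 : 0 < N)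
    (hEb : ∀ b ∈ H.bins, energy (H.large τ b) H.c ≤ Eb) :
    ∑ b ∈ H.bins, H.mu b (wset H.A (H.large τ b) H.c (wlev n X.a χ g H.A.L / N))
      ≤ ENNReal.ofReal (X.Cind * m * H.A.L ^ (2 * (n : ℝ)) * g ^ (-X.p) *
          (N * (C' * (whC n W * H.R ^ (1 - (n : ℝ)) * (N * H.R ^ (eex n + X.a - (n : ℝ) / 2)) ^ X.p * Eb ^ (X.p / 2))))) := by
  classical
  have hL0 : 0 < H.A.L := by linarith [hA.one_le]
  have hR0 : 0 < H.R := by linarith
  have hRω0 : 0 ≤ W.K.Rω := le_trans (by positivity) hRω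
  have hCc : 0 ≤ whC n W := by
    unfold whC
    have h1 : (0 : ℝ) ≤ max 1 (whMom n W) := le_trans zero_le_one (le_max_left _ _)
    have h2 : (0 : ℝ) ≤ max (whDen n W) (2 * (1 + 2 * (2 * W.K.Rω)) ^ (n : ℝ)) :=
      le_trans (mul_nonneg zero_le_two (Real.rpow_nonneg (by positivity) _)) (le_max_right _ _)
    exact mul_nonneg h1 h2
  have hen0 : ∀ t : Finset ι, 0 ≤ energy t H.c := fun t => Finset.sum_nonneg fun _ _ => by positivity
  have hθ : 0 < wlev n X.a χ g H.A.L / N := by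
    unfold wlev
    have h1 : 0 < χ ^ X.a := Real.rpow_pos_of_pos hχ _
    have h2 : 0 < H.A.L ^ (-eex n) := Real.rpow_pos_of_pos hL0 _
    positivity
  set Q := X.Cind * m * H.A.L ^ (2 * (n : ℝ)) * g ^ (-X.p) *
    (whC n W * H.R ^ (1 - (n : ℝ)) * (N * H.R ^ (eex n + X.a - (n : ℝ) / 2)) ^ X.p * Eb ^ (X.p / 2)) with hQ
  have hlb : ∀ b, H.large τ b ⊆ H.bin b := by
    intro b
    unfold WH.large
    exact Finset.filter_subset _ _
  have hbs : ∀ b, H.bin b ⊆ H.s := by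
    intro b
    unfold WH.bin
    exact Finset.filter_subset _ _
  have hbin : ∀ b, ∀ α ∈ H.bin b, wbin H.R (H.A.om α) = b := by
    intro b α hα
    unfold WH.bin at hα
    exact (Finset.mem_filter.1 hα).2
  have hsq : Real.sqrt n / (2 * H.R) ≤ Real.sqrt n / 2 := by
    have : (0 : ℝ) ≤ Real.sqrt n := Real.sqrt_nonneg _
    exact div_le_div_of_nonneg_left this (by norm_num) (by linarith)
  have hb : ∀ b ∈ H.bins, H.mu b (wset H.A (H.large τ b) H.c (wlev n X.a χ g H.A.L / N)) ≤ ENNReal.ofReal (C' * Q) := by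
    intro b hbm
    have hts : H.large τ b ⊆ H.s := (hlb b).trans (hbs b)
    obtain ⟨α₀, hα₀, hα₀b⟩ : ∃ α₀ ∈ H.s, wbin H.R (H.A.om α₀) = b := by
      unfold WH.bins at hbm
      exact Finset.mem_image.1 hbm
    have hv : ‖wbinc H.R b‖ ≤ 2 * W.K.Rω := by
      have h1 := wh_dist_binc hR0 (H.A.om α₀)
      rw [hα₀b] at h1
      have h2 : ‖wbinc H.R b‖ ≤ ‖H.A.om α₀‖ + ‖H.A.om α₀ - wbinc H.R b‖ := by
        have := norm_sub_le (H.A.om α₀) (H.A.om α₀ - wbinc H.R b)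
        simpa using this
      have h3 := hA.freq α₀ hα₀
      linarith
    have hfr : ∀ α ∈ H.large τ b, H.R * ‖H.A.om α - wbinc H.R b‖ ≤ W.K.Rω := by
      intro α hα
      have h1 := wh_dist_binc hR0 (H.A.om α)
      rw [hbin b α (hlb b hα)] at h1
      calc H.R * ‖H.A.om α - wbinc H.R b‖ ≤ H.R * (Real.sqrt n / (2 * H.R)) := mul_le_mul_of_nonneg_left h1 hR0.le
        _ = Real.sqrt n / 2 := by field_simp
        _ ≤ _ := hRω
    have h1 := wh_outer_bin W X C' (c := H.c) (ν := H.mu b) (m := m) (χ := χ) (θ := wlev n X.a χ g H.A.L / N) (wbinc H.R b) hout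
      (wh_in_mono hA hts) (fun α hα => htc α (hts hα)) hR hRL hRω0 hv hfr hM (inf_grow_restrict hadm.grow _)
      (wh_slab_restrict _ hadm.slab) (wh_dens_restrict _ hadm.dens) hm hχ hθ
    refine h1.trans (ENNReal.ofReal_le_ofReal (mul_le_mul_of_nonneg_left ?_ hC'))
    exact wh_outer_arith X hCc hC hp ha hm hL0 hR hχ hg hN0 (hen0 _) (hEb b hbm)
  rcases H.bins.eq_empty_or_nonempty with he | ⟨b₀, hb₀⟩
  · rw [he, Finset.sum_empty]
    exact zero_le
  have hEb0 : 0 ≤ Eb := (hen0 _).trans (hEb b₀ hb₀)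
  have hQ0 : 0 ≤ Q := by
    have p1 := Real.rpow_nonneg hL0.le (2 * (n : ℝ))
    have p2 := Real.rpow_nonneg hg.le (-X.p)
    have p3 := Real.rpow_nonneg hR0.le (1 - (n : ℝ))
    have p4 := Real.rpow_nonneg hR0.le (eex n + X.a - (n : ℝ) / 2)
    have p5 := Real.rpow_nonneg (mul_nonneg hN0.le p4) X.p
    have p6 := Real.rpow_nonneg hEb0 (X.p / 2)
    positivity
  refine (Finset.sum_le_sum hb).trans ?_
  rw [Finset.sum_const, nsmul_eq_mul, ← ENNReal.ofReal_natCast, ← ENNReal.ofReal_mul (Nat.cast_nonneg _)]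
  refine ENNReal.ofReal_le_ofReal ?_
  calc (H.bins.card : ℝ) * (C' * Q) ≤ N * (C' * Q) := mul_le_mul_of_nonneg_right hN (by positivity)
    _ = _ := by
      rw [hQ]
      ring

/-! ## LEAF L-257-WH-LT5 : the pointwise decomposition -/

open scoped Classical in
/-- `fld s = sel S + ∑_{b occupied, b ∉ S k} (fld (small b) + fld (large b))`  (`Finset.sum_filter`, fibres of `wbin`). -/
theorem wh_fld_split (H : WH n ι) (S : MI n → Set (BI n)) (τ : ℝ) (z : ST n) :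
    H.A.fld H.s H.c z = H.sel S z + ∑ b ∈ H.bins with b ∉ S (wmac (H.R ^ 4) z),
      (H.A.fld (H.small τ b) H.c z + H.A.fld (H.large τ b) H.c z) := by
  set k := wmac (H.R ^ 4) z with hk
  set f : ι → ℂ := fun α => H.c α * H.A.atom α z with hf
  have e1 : ∀ b, H.A.fld (H.small τ b) H.c z + H.A.fld (H.large τ b) H.c z = ∑ α ∈ H.bin b, f α := by
    intro b
    unfold Arr.fld WH.small WH.large
    exact Finset.sum_filter_add_sum_filter_not (H.bin b) _ _
  simp_rw [e1]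
  have e2 : H.A.fld H.s H.c z = ∑ α ∈ H.s with wbin H.R (H.A.om α) ∈ S k, f α + ∑ α ∈ H.s with ¬ wbin H.R (H.A.om α) ∈ S k, f α :=
    (Finset.sum_filter_add_sum_filter_not H.s _ _).symm
  rw [e2]
  congr 1
  have e3 := Finset.sum_fiberwise_of_maps_to (s := H.s.filter fun α => ¬ wbin H.R (H.A.om α) ∈ S k)
    (t := H.bins.filter fun b => b ∉ S k) (g := fun α => wbin H.R (H.A.om α)) (fun α hα => by
      rw [Finset.mem_filter] at hα ⊢
      refine ⟨?_, hα.2⟩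
      unfold WH.bins
      exact Finset.mem_image_of_mem _ hα.1) f
  rw [← e3]
  refine Finset.sum_congr rfl fun b hb => Finset.sum_congr ?_ fun _ _ => rfl
  have hb' := (Finset.mem_filter.1 hb).2
  ext α
  unfold WH.bin
  simp only [Finset.mem_filter]
  constructor
  · rintro ⟨⟨h1, _⟩, h3⟩
    exact ⟨h1, h3⟩
  · rintro ⟨h1, h3⟩
    exact ⟨⟨h1, by rw [h3]; exact hb'⟩, h3⟩

/-- **PLAN.**  `z ∈ Y`, `‖hfld z‖ < λ/2`: by `wh_fld_split` (`S = heavy`) `λ/2 < ∑_{b light at z} (‖fld small‖ + ‖fld large‖)`, at most `2 card bins ≤ 2N` terms: one of them is `≥ λ/(4N)` (otherwise the sum is `≤ λ/2`).   That `b` is light at the big cube of `z`: `z ∈ light b`. -/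
theorem wh_light_cover (H : WH n ι) {τ N : ℝ} (hN : (H.bins.card : ℝ) ≤ N) (hN0 : 0 < N) (hlam : 0 < H.lam) :
    H.Y ∩ {z | ‖H.hfld z‖ < H.lam / 2} ⊆ ⋃ b ∈ H.bins, (H.Y ∩ H.light b) ∩
      (wset H.A (H.small τ b) H.c (H.lam / (4 * N)) ∪ wset H.A (H.large τ b) H.c (H.lam / (4 * N))) := by
  classical
  rintro z ⟨hzY, hz⟩
  have hz' : ‖H.hfld z‖ < H.lam / 2 := hz
  have hY : H.lam ≤ ‖H.A.fld H.s H.c z‖ := hzY
  by_contra hcon
  simp only [mem_iUnion, not_exists] at hcon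
  set T := H.bins.filter fun b => b ∉ H.heavy (wmac (H.R ^ 4) z) with hT
  have hsmall : ∀ b ∈ T, ‖H.A.fld (H.small τ b) H.c z + H.A.fld (H.large τ b) H.c z‖ ≤ 2 * (H.lam / (4 * N)) := by
    intro b hb
    obtain ⟨hb1, hb2⟩ := Finset.mem_filter.1 hb
    have h1 := hcon b hb1
    have h2 : ¬ (z ∈ wset H.A (H.small τ b) H.c (H.lam / (4 * N)) ∪ wset H.A (H.large τ b) H.c (H.lam / (4 * N))) :=
      fun h => h1 ⟨⟨hzY, hb2⟩, h⟩
    rw [mem_union, not_or] at h2
    have h3 : ‖H.A.fld (H.small τ b) H.c z‖ < H.lam / (4 * N) := not_le.1 h2.1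
    have h4 : ‖H.A.fld (H.large τ b) H.c z‖ < H.lam / (4 * N) := not_le.1 h2.2
    have := norm_add_le (H.A.fld (H.small τ b) H.c z) (H.A.fld (H.large τ b) H.c z)
    linarith
  have hsplit := wh_fld_split H H.heavy τ z
  have h5 : ‖H.A.fld H.s H.c z‖ ≤ ‖H.hfld z‖ + (T.card : ℝ) * (2 * (H.lam / (4 * N))) := by
    rw [hsplit]
    refine (norm_add_le _ _).trans (add_le_add le_rfl ?_)
    refine (norm_sum_le _ _).trans ?_
    have := Finset.sum_le_card_nsmul T _ _ hsmall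
    rwa [nsmul_eq_mul] at this
  have h6 : (T.card : ℝ) ≤ N := by
    have : T.card ≤ H.bins.card := Finset.card_filter_le _ _
    exact le_trans (by exact_mod_cast this) hN
  have h7 : (T.card : ℝ) * (2 * (H.lam / (4 * N))) ≤ H.lam / 2 := by
    calc (T.card : ℝ) * (2 * (H.lam / (4 * N))) ≤ N * (2 * (H.lam / (4 * N))) :=
          mul_le_mul_of_nonneg_right h6 (by positivity)
      _ = H.lam / 2 := by
          field_simp
          ring
  linarith

/-- union bound (`measure_biUnion_finset_le`, `measure_union_le`, `Measure.le_restrict_apply` or `Measure.restrict_apply` with `wh_meas_wset`). -/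
theorem wh_light_measure (H : WH n ι) {τ N : ℝ} (hN : (H.bins.card : ℝ) ≤ N) (hN0 : 0 < N) (hlam : 0 < H.lam) :
    H.μ (H.Y ∩ {z | ‖H.hfld z‖ < H.lam / 2}) ≤ ∑ b ∈ H.bins, H.mu b (wset H.A (H.small τ b) H.c (H.lam / (4 * N)))
      + ∑ b ∈ H.bins, H.mu b (wset H.A (H.large τ b) H.c (H.lam / (4 * N))) := by
  refine (measure_mono (wh_light_cover H (τ := τ) hN hN0 hlam)).trans ((measure_biUnion_finset_le _ _).trans ?_)
  rw [← Finset.sum_add_distrib]
  refine Finset.sum_le_sum fun b _ => ?_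
  rw [inter_comm, union_inter_distrib_right]
  refine (measure_union_le _ _).trans (add_le_add ?_ ?_)
  · exact Measure.le_restrict_apply _ _
  · exact Measure.le_restrict_apply _ _

end Claimed.Agent.R257
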