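import Claimed.Agent.R257.Weak.Deep

/-!
# R257 / Weak / HrNumA : POST BP-257-WEAK-HRNUM, part A: THE NUMERICAL INEQUALITIES OF `wh_main`            (helper59)

Pure real analysis.   `X = B D ≥ 1`, `R = wdR X 1 Ja`, `X ≤ R ≤ T X`, `T = 2^Ja`.   Plan: `Weak/Plan.lean`, section HRNUM.   Prefix `wn_`.
-/

set_option autoImplicit false

namespace Claimed.Agent.R257

open Real

/-! ## 1. `R ≍ X` -/

theorem wn_K_ge (X : ℝ) (Ja : ℕ) : X ^ ((1 : ℝ) / (Ja : ℝ)) ≤ ((wdK X 1 Ja : ℕ) : ℝ) := Nat.le_ceil _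

theorem wn_root_pow {X : ℝ} (hX : 0 ≤ X) {Ja : ℕ} (hJ : 1 ≤ Ja) : (X ^ ((1 : ℝ) / (Ja : ℝ))) ^ Ja = X := by
  have hJ0 : (Ja : ℝ) ≠ 0 := by positivity
  rw [← Real.rpow_natCast, ← Real.rpow_mul hX, one_div, inv_mul_cancel₀ hJ0, Real.rpow_one]

theorem wn_R_ge {X : ℝ} (hX : 0 ≤ X) {Ja : ℕ} (hJ : 1 ≤ Ja) : X ≤ wdR X 1 Ja := by
  unfold wdR
  calc X = (X ^ ((1 : ℝ) / (Ja : ℝ))) ^ Ja := (wn_root_pow hX hJ).symm
    _ ≤ _ := pow_le_pow_left₀ (Real.rpow_nonneg hX _) (wn_K_ge X Ja) _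

theorem wn_R_le {X : ℝ} (hX : 1 ≤ X) {Ja : ℕ} (hJ : 1 ≤ Ja) : wdR X 1 Ja ≤ 2 ^ Ja * X := by
  have hX0 : 0 ≤ X := by linarith
  have h1 : 1 ≤ X ^ ((1 : ℝ) / (Ja : ℝ)) := Real.one_le_rpow hX (by positivity)
  have h2 : ((wdK X 1 Ja : ℕ) : ℝ) ≤ 2 * X ^ ((1 : ℝ) / (Ja : ℝ)) := by
    have := (Nat.ceil_lt_add_one (show 0 ≤ X ^ ((1 : ℝ) / (Ja : ℝ)) by linarith)).le
    unfold wdK
    linarith
  unfold wdR
  calc ((wdK X 1 Ja : ℕ) : ℝ) ^ Ja ≤ (2 * X ^ ((1 : ℝ) / (Ja : ℝ))) ^ Ja := pow_le_pow_left₀ (Nat.cast_nonneg _) h2 _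
    _ = 2 ^ Ja * X := by rw [mul_pow, wn_root_pow hX0 hJ]

/-! ## 2. powers of `X` are dominated by `L` -/

/-- `c X^e ≤ L` in the active range. -/
theorem wn_pow_le {B D L κ e Em c : ℝ} (hB : 1 ≤ B) (hD : 1 ≤ D) (hL : 1 ≤ L) (hDκ : D < L ^ κ) (hκ : 0 < κ) (hEm : 0 < Em)
    (hκE : κ ≤ 1 / (4 * Em)) (he : 0 ≤ e) (heE : e ≤ Em) (hc : 0 ≤ c) (hcL : (c * B ^ Em) ^ 2 ≤ L) : c * (B * D) ^ e ≤ L := by
  have hB0 : 0 ≤ B := by linarith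
  have hD0 : 0 ≤ D := by linarith
  have hL0 : 0 < L := by linarith
  have h1 : B ^ e ≤ B ^ Em := Real.rpow_le_rpow_of_exponent_le hB heE
  have h2 : D ^ e ≤ L ^ (1 / 4 : ℝ) := by
    calc D ^ e ≤ (L ^ κ) ^ e := Real.rpow_le_rpow hD0 hDκ.le he
      _ = L ^ (κ * e) := (Real.rpow_mul hL0.le _ _).symm
      _ ≤ L ^ (1 / 4 : ℝ) := by
          refine Real.rpow_le_rpow_of_exponent_le hL ?_
          calc κ * e ≤ 1 / (4 * Em) * Em := mul_le_mul hκE heE he (by positivity)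
            _ = 1 / 4 := by field_simp
  have hq0 : 0 ≤ c * B ^ Em := mul_nonneg hc (Real.rpow_nonneg hB0 _)
  have h3 : c * B ^ Em ≤ L ^ (1 / 2 : ℝ) := by
    rw [← Real.sqrt_eq_rpow]
    exact Real.le_sqrt_of_sq_le hcL
  calc c * (B * D) ^ e = c * B ^ e * D ^ e := by rw [Real.mul_rpow hB0 hD0]; ring
    _ ≤ c * B ^ Em * L ^ (1 / 4 : ℝ) :=
        mul_le_mul (mul_le_mul_of_nonneg_left h1 hc) h2 (Real.rpow_nonneg hD0 _) hq0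
    _ ≤ L ^ (1 / 2 : ℝ) * L ^ (1 / 4 : ℝ) := mul_le_mul_of_nonneg_right h3 (Real.rpow_nonneg hL0.le _)
    _ = L ^ (3 / 4 : ℝ) := by rw [← Real.rpow_add hL0]; norm_num
    _ ≤ L ^ (1 : ℝ) := Real.rpow_le_rpow_of_exponent_le hL (by norm_num)
    _ = L := Real.rpow_one L

/-! ## 3. `hκ` -/

theorem wn_kappa {t : ℝ} (ht : 0 ≤ t) (M : ℕ) (h : 4 * (M : ℝ) * t ≤ 1) : (1 + t) ^ M ≤ 4 / 3 := by
  have h1 : (1 + t) ^ M ≤ Real.exp (1 / 4) := by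
    calc (1 + t) ^ M ≤ (Real.exp t) ^ M := pow_le_pow_left₀ (by linarith) (by linarith [Real.add_one_le_exp t]) _
      _ = Real.exp ((M : ℝ) * t) := (Real.exp_nat_mul t M).symm
      _ ≤ Real.exp (1 / 4) := Real.exp_le_exp.2 (by linarith)
  have h2 : Real.exp (1 / 4) ≤ 4 / 3 := by
    have h3 : Real.exp (1 / 4) ^ 4 = Real.exp 1 := by
      rw [← Real.exp_nat_mul]; norm_num
    have h4 : Real.exp 1 < 2.7182818286 := Real.exp_one_lt_d9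
    by_contra hcon
    push_neg at hcon
    have h5 : (4 / 3 : ℝ) ^ 4 < Real.exp (1 / 4) ^ 4 := pow_lt_pow_left₀ hcon (by norm_num) (by norm_num)
    rw [h3] at h5
    norm_num at h5
    linarith
  exact h1.trans h2

/-! ## 4. `hN1`, `hN2`, `hN3` -/

/-- `4 whNb ≤ Q R^n` -/
noncomputable def wnQ (n : ℕ) (Rω : ℝ) : ℝ := 4 * (2 * Rω + 2) ^ n

theorem wn_Q_ge (n : ℕ) {Rω : ℝ} (hRω : 0 ≤ Rω) : 1 ≤ wnQ n Rω := by
  unfold wnQ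
  have : 1 ≤ (2 * Rω + 2) ^ n := one_le_pow₀ (by linarith)
  linarith

theorem wn_Nb_nonneg (n : ℕ) {Rω R : ℝ} (hRω : 0 ≤ Rω) (hR : 0 ≤ R) : 0 ≤ 4 * whNb n Rω R := by
  unfold whNb
  positivity

theorem wn_Nb_le (n : ℕ) {Rω R : ℝ} (hRω : 0 ≤ Rω) (hR : 1 ≤ R) : 4 * whNb n Rω R ≤ wnQ n Rω * R ^ (n : ℝ) := by
  unfold whNb wnQ
  have h1 : 2 * Rω * R + 2 ≤ (2 * Rω + 2) * R := by nlinarith
  have h0 : 0 ≤ 2 * Rω * R + 2 := by positivity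
  rw [Real.rpow_natCast]
  calc 4 * (2 * Rω * R + 2) ^ n ≤ 4 * ((2 * Rω + 2) * R) ^ n :=
        mul_le_mul_of_nonneg_left (pow_le_pow_left₀ h0 h1 n) (by norm_num)
    _ = _ := by rw [mul_pow]; ring

/-- the last step of `hN1`, `hN2` -/
theorem wn_fin {A X D σ : ℝ} (hA : 0 ≤ A) (hX : 1 ≤ X) (hD : 1 ≤ D) (hDX : D ≤ X) (hσ : 0 ≤ σ) (h : 8 * A ≤ X) :
    A * X ^ (-σ - 1) ≤ D ^ (-σ) / 8 := by
  have hX0 : 0 < X := by linarith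
  have h1 : X ^ (-σ) ≤ D ^ (-σ) := Real.rpow_le_rpow_of_nonpos (by linarith) hDX (by linarith)
  have h2 : X ^ (-σ - 1) = X ^ (-σ) * X⁻¹ := by rw [Real.rpow_sub hX0, Real.rpow_one]; rfl
  have h3 : 0 < X ^ (-σ) := Real.rpow_pos_of_pos hX0 _
  have h4 : A * X⁻¹ ≤ 1 / 8 := by
    rw [← div_eq_mul_inv, div_le_iff₀ hX0]
    linarith
  calc A * X ^ (-σ - 1) = X ^ (-σ) * (A * X⁻¹) := by rw [h2]; ring
    _ ≤ X ^ (-σ) * (1 / 8) := mul_le_mul_of_nonneg_left h4 h3.le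
    _ ≤ D ^ (-σ) / 8 := by linarith

theorem wn_N1 {n : ℕ} {Rω R X D T p pmax σ P₁ : ℝ} (hRω : 0 ≤ Rω) (hX : 1 ≤ X) (hR : 1 ≤ R) (hT : 1 ≤ T) (hRT : R ≤ T * X)
    (hD : 1 ≤ D) (hDX : D ≤ X) (hp : 0 ≤ p) (hpp : p ≤ pmax) (hσ : 0 < σ) (hP₁ : σ * P₁ = n * pmax + σ + 1)
    (hB : 8 * (wnQ n Rω * T ^ (n : ℝ)) ^ pmax ≤ X) :
    (4 * whNb n Rω R) ^ p * (X ^ P₁) ^ (-σ) ≤ D ^ (-σ) / 8 := by
  have hX0 : 0 < X := by linarith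
  have hT0 : 0 < T := by linarith
  have hR0 : 0 ≤ R := by linarith
  have hQ := wn_Q_ge n hRω
  have hn0 : (0 : ℝ) ≤ n := Nat.cast_nonneg n
  have hQT1 : 1 ≤ wnQ n Rω * T ^ (n : ℝ) := by
    have := Real.one_le_rpow hT hn0
    nlinarith
  have hXn1 : 1 ≤ X ^ (n : ℝ) := Real.one_le_rpow hX hn0
  have h1 : 4 * whNb n Rω R ≤ wnQ n Rω * T ^ (n : ℝ) * X ^ (n : ℝ) := by
    refine (wn_Nb_le n hRω hR).trans ?_
    rw [mul_assoc, ← Real.mul_rpow hT0.le hX0.le]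
    exact mul_le_mul_of_nonneg_left (Real.rpow_le_rpow hR0 hRT hn0) (by linarith)
  have hY1 : 1 ≤ wnQ n Rω * T ^ (n : ℝ) * X ^ (n : ℝ) := by nlinarith
  have h2 : (4 * whNb n Rω R) ^ p ≤ (wnQ n Rω * T ^ (n : ℝ)) ^ pmax * X ^ ((n : ℝ) * pmax) := by
    calc (4 * whNb n Rω R) ^ p ≤ (wnQ n Rω * T ^ (n : ℝ) * X ^ (n : ℝ)) ^ p :=
          Real.rpow_le_rpow (wn_Nb_nonneg n hRω hR0) h1 hp
      _ ≤ (wnQ n Rω * T ^ (n : ℝ) * X ^ (n : ℝ)) ^ pmax := Real.rpow_le_rpow_of_exponent_le hY1 hpp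
      _ = _ := by rw [Real.mul_rpow (by linarith) (by linarith), ← Real.rpow_mul hX0.le]
  have h3 : (X ^ P₁) ^ (-σ) = X ^ (-((n : ℝ) * pmax + σ + 1)) := by
    rw [← Real.rpow_mul hX0.le]
    congr 1
    rw [← hP₁]; ring
  have hA0 : 0 ≤ (wnQ n Rω * T ^ (n : ℝ)) ^ pmax := Real.rpow_nonneg (by linarith) _
  calc (4 * whNb n Rω R) ^ p * (X ^ P₁) ^ (-σ)
      ≤ (wnQ n Rω * T ^ (n : ℝ)) ^ pmax * X ^ ((n : ℝ) * pmax) * X ^ (-((n : ℝ) * pmax + σ + 1)) := by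
        rw [h3]
        exact mul_le_mul_of_nonneg_right h2 (Real.rpow_nonneg hX0.le _)
    _ = (wnQ n Rω * T ^ (n : ℝ)) ^ pmax * X ^ (-σ - 1) := by
        rw [mul_assoc, ← Real.rpow_add hX0]
        congr 2
        ring
    _ ≤ D ^ (-σ) / 8 := wn_fin hA0 hX hD hDX hσ.le hB

/-- the constant of `hN2` -/
noncomputable def wnA2 (n : ℕ) (Rω T pmax s C' Cc : ℝ) : ℝ :=
  C' * Cc * wnQ n Rω * wnQ n Rω ^ pmax * (4 / 3) ^ pmax * T ^ (1 + s * pmax)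

theorem wn_N2 {n : ℕ} {Rω R X D T p pmax σ a e P₁ P₀ C' Cc : ℝ} (hRω : 0 ≤ Rω) (hX : 1 ≤ X) (hR : 1 ≤ R) (hT : 1 ≤ T) (hRT : R ≤ T * X)
    (hD : 1 ≤ D) (hDX : D ≤ X) (hp : 2 ≤ p) (hpp : p ≤ pmax) (hσ : 0 < σ) (ha : 0 ≤ a) (he : 0 ≤ e) (hC' : 0 ≤ C') (hCc : 0 ≤ Cc)
    (hP₀ : P₀ = P₁ + (1 + ((n : ℝ) / 2 + e + a) * pmax) + σ + 1)
    (hB : 8 * wnA2 n Rω T pmax ((n : ℝ) / 2 + e + a) C' Cc ≤ X) :
    4 * whNb n Rω R * (C' * (Cc * R ^ (1 - (n : ℝ)) * (4 * whNb n Rω R * R ^ (e + a - (n : ℝ) / 2)) ^ p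
      * (4 / 3 * X ^ P₁ * X ^ (-P₀)) ^ (p / 2))) ≤ D ^ (-σ) / 8 := by
  have hX0 : 0 < X := by linarith
  have hT0 : 0 < T := by linarith
  have hR0 : 0 < R := by linarith
  have hQ := wn_Q_ge n hRω
  have hn0 : (0 : ℝ) ≤ n := Nat.cast_nonneg n
  have hpm0 : 0 ≤ pmax := by linarith
  set s : ℝ := (n : ℝ) / 2 + e + a with hs
  have hs0 : 0 ≤ s := by positivity
  set u : ℝ := 4 * whNb n Rω R with hu
  have hu0 : 0 ≤ u := wn_Nb_nonneg n hRω hR0.le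
  have hu1 : u ≤ wnQ n Rω * R ^ (n : ℝ) := wn_Nb_le n hRω hR
  -- t1
  have t1 : u * R ^ (1 - (n : ℝ)) ≤ wnQ n Rω * R := by
    calc u * R ^ (1 - (n : ℝ)) ≤ wnQ n Rω * R ^ (n : ℝ) * R ^ (1 - (n : ℝ)) :=
          mul_le_mul_of_nonneg_right hu1 (Real.rpow_nonneg hR0.le _)
      _ = wnQ n Rω * R := by
          rw [mul_assoc, ← Real.rpow_add hR0]
          have : (n : ℝ) + (1 - (n : ℝ)) = 1 := by ring
          rw [this, Real.rpow_one]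
  -- t2
  have hRs1 : 1 ≤ R ^ s := Real.one_le_rpow hR hs0
  have t2a : u * R ^ (e + a - (n : ℝ) / 2) ≤ wnQ n Rω * R ^ s := by
    calc u * R ^ (e + a - (n : ℝ) / 2) ≤ wnQ n Rω * R ^ (n : ℝ) * R ^ (e + a - (n : ℝ) / 2) :=
          mul_le_mul_of_nonneg_right hu1 (Real.rpow_nonneg hR0.le _)
      _ = wnQ n Rω * R ^ s := by
          rw [mul_assoc, ← Real.rpow_add hR0]
          congr 2
          rw [hs]; ring
  have t2 : (u * R ^ (e + a - (n : ℝ) / 2)) ^ p ≤ wnQ n Rω ^ pmax * R ^ (s * pmax) := by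
    calc (u * R ^ (e + a - (n : ℝ) / 2)) ^ p ≤ (wnQ n Rω * R ^ s) ^ p :=
          Real.rpow_le_rpow (mul_nonneg hu0 (Real.rpow_nonneg hR0.le _)) t2a (by linarith)
      _ ≤ (wnQ n Rω * R ^ s) ^ pmax := Real.rpow_le_rpow_of_exponent_le (by nlinarith) hpp
      _ = _ := by rw [Real.mul_rpow (by linarith) (by linarith), ← Real.rpow_mul hR0.le]
  -- t3
  have hz : X ^ P₁ * X ^ (-P₀) = X ^ (P₁ - P₀) := by rw [← Real.rpow_add hX0]; rfl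
  have hPP : P₁ - P₀ ≤ 0 := by
    rw [hP₀]
    have : 0 ≤ s * pmax := mul_nonneg hs0 hpm0
    linarith
  have hz0 : 0 < X ^ (P₁ - P₀) := Real.rpow_pos_of_pos hX0 _
  have hz1 : X ^ (P₁ - P₀) ≤ 1 := Real.rpow_le_one_of_one_le_of_nonpos hX hPP
  have t3 : (4 / 3 * X ^ P₁ * X ^ (-P₀)) ^ (p / 2) ≤ (4 / 3) ^ pmax * X ^ (P₁ - P₀) := by
    rw [mul_assoc, hz, Real.mul_rpow (by norm_num) hz0.le]
    refine mul_le_mul ?_ ?_ (Real.rpow_nonneg hz0.le _) (Real.rpow_nonneg (by norm_num) _)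
    · exact Real.rpow_le_rpow_of_exponent_le (by norm_num) (by linarith)
    · calc (X ^ (P₁ - P₀)) ^ (p / 2) ≤ (X ^ (P₁ - P₀)) ^ (1 : ℝ) :=
            Real.rpow_le_rpow_of_exponent_ge hz0 hz1 (by linarith)
        _ = _ := Real.rpow_one _
  -- product
  have hE0 : 0 ≤ 1 + s * pmax := by positivity
  have hRE : R * R ^ (s * pmax) ≤ T ^ (1 + s * pmax) * X ^ (1 + s * pmax) := by
    calc R * R ^ (s * pmax) = R ^ (1 + s * pmax) := by rw [Real.rpow_add hR0, Real.rpow_one]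
      _ ≤ (T * X) ^ (1 + s * pmax) := Real.rpow_le_rpow hR0.le hRT hE0
      _ = _ := Real.mul_rpow hT0.le hX0.le
  have hQp0 : 0 ≤ wnQ n Rω ^ pmax := Real.rpow_nonneg (by linarith) _
  have h43 : 0 ≤ (4 / 3 : ℝ) ^ pmax := Real.rpow_nonneg (by norm_num) _
  have hA0 : 0 ≤ wnA2 n Rω T pmax s C' Cc := by
    unfold wnA2
    have := Real.rpow_nonneg hT0.le (1 + s * pmax)
    have : 0 ≤ wnQ n Rω := by linarith
    positivity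
  have key : u * (C' * (Cc * R ^ (1 - (n : ℝ)) * (u * R ^ (e + a - (n : ℝ) / 2)) ^ p * (4 / 3 * X ^ P₁ * X ^ (-P₀)) ^ (p / 2)))
      ≤ wnA2 n Rω T pmax s C' Cc * X ^ (-σ - 1) := by
    have hb2 : 0 ≤ (u * R ^ (e + a - (n : ℝ) / 2)) ^ p := Real.rpow_nonneg (mul_nonneg hu0 (Real.rpow_nonneg hR0.le _)) _
    have hb3 : 0 ≤ (4 / 3 * X ^ P₁ * X ^ (-P₀)) ^ (p / 2) :=
      Real.rpow_nonneg (by have := Real.rpow_nonneg hX0.le P₁; have := Real.rpow_nonneg hX0.le (-P₀); positivity) _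
    have hQR0 : 0 ≤ wnQ n Rω * R := by nlinarith
    calc u * (C' * (Cc * R ^ (1 - (n : ℝ)) * (u * R ^ (e + a - (n : ℝ) / 2)) ^ p * (4 / 3 * X ^ P₁ * X ^ (-P₀)) ^ (p / 2)))
        = C' * Cc * ((u * R ^ (1 - (n : ℝ))) * (u * R ^ (e + a - (n : ℝ) / 2)) ^ p * (4 / 3 * X ^ P₁ * X ^ (-P₀)) ^ (p / 2)) := by ring
      _ ≤ C' * Cc * ((wnQ n Rω * R) * (wnQ n Rω ^ pmax * R ^ (s * pmax)) * ((4 / 3) ^ pmax * X ^ (P₁ - P₀))) := by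
          refine mul_le_mul_of_nonneg_left ?_ (mul_nonneg hC' hCc)
          refine mul_le_mul (mul_le_mul t1 t2 hb2 hQR0) t3 hb3 ?_
          exact mul_nonneg hQR0 (mul_nonneg hQp0 (Real.rpow_nonneg hR0.le _))
      _ = C' * Cc * wnQ n Rω * wnQ n Rω ^ pmax * (4 / 3) ^ pmax * X ^ (P₁ - P₀) * (R * R ^ (s * pmax)) := by ring
      _ ≤ C' * Cc * wnQ n Rω * wnQ n Rω ^ pmax * (4 / 3) ^ pmax * X ^ (P₁ - P₀) * (T ^ (1 + s * pmax) * X ^ (1 + s * pmax)) := by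
          refine mul_le_mul_of_nonneg_left hRE ?_
          have : 0 ≤ wnQ n Rω := by linarith
          positivity
      _ = wnA2 n Rω T pmax s C' Cc * (X ^ (P₁ - P₀) * X ^ (1 + s * pmax)) := by unfold wnA2; ring
      _ = wnA2 n Rω T pmax s C' Cc * X ^ (-σ - 1) := by
          rw [← Real.rpow_add hX0]
          congr 2
          rw [hP₀]; ring
  exact key.trans (wn_fin hA0 hX hD hDX hσ.le hB)

theorem wn_N3 {n M : ℕ} {F X P₀ : ℝ} (hF : 0 ≤ F) (hX : 1 ≤ X) (hM : n + 2 ≤ M) (hP₀ : 0 ≤ P₀) (h : 32 * F ≤ X) :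
    4 * F * (X ^ (P₀ + 1)) ^ (-((M : ℝ) - n - 1)) ≤ X ^ (-P₀) / 8 := by
  have hX0 : 0 < X := by linarith
  have hq : (1 : ℝ) ≤ (M : ℝ) - n - 1 := by
    have : ((n + 2 : ℕ) : ℝ) ≤ (M : ℝ) := by exact_mod_cast hM
    push_cast at this
    linarith
  have h1 : (X ^ (P₀ + 1)) ^ (-((M : ℝ) - n - 1)) ≤ X ^ (-P₀ - 1) := by
    rw [← Real.rpow_mul hX0.le]
    refine Real.rpow_le_rpow_of_exponent_le hX ?_
    nlinarith
  have h2 : X ^ (-P₀ - 1) = X ^ (-P₀) * X⁻¹ := by rw [Real.rpow_sub hX0, Real.rpow_one]; rfl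
  have h3 : 0 < X ^ (-P₀) := Real.rpow_pos_of_pos hX0 _
  have h4 : 4 * F * X⁻¹ ≤ 1 / 8 := by
    rw [← div_eq_mul_inv, div_le_iff₀ hX0]
    linarith
  calc 4 * F * (X ^ (P₀ + 1)) ^ (-((M : ℝ) - n - 1)) ≤ 4 * F * X ^ (-P₀ - 1) :=
        mul_le_mul_of_nonneg_left h1 (by positivity)
    _ = X ^ (-P₀) * (4 * F * X⁻¹) := by rw [h2]; ring
    _ ≤ X ^ (-P₀) * (1 / 8) := mul_le_mul_of_nonneg_left h4 h3.le
    _ = X ^ (-P₀) / 8 := by ring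

end Claimed.Agent.R257
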